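import Vale.Agent.P002Punct.Poly
import Vale.Agent.P002Surf.Param

/-!
Representations with all handles in general position are joined by rational curves on which the
boundary conjugators move.
-/

namespace P002Punct

open Matrix P002Surf Filter Topology

variable {g s n : ℕ}

/-- Divide the first column by the determinant. -/
noncomputable def colScale (H : Mat n) : Mat n :=
  H * diagonal fun i : Fin n => if (i : ℕ) = 0 then (H.det)⁻¹ else 1

theorem det_colScale {H : Mat n} (h : H.det ≠ 0) : (colScale H).det = 1 := by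
  rcases Nat.eq_zero_or_pos n with rfl | hn
  · exact Matrix.det_fin_zero
  rw [colScale, det_mul, det_diagonal, Finset.prod_eq_single ⟨0, hn⟩]
  · simp [mul_inv_cancel₀ h]
  · intro b _ hb
    have : (b : ℕ) ≠ 0 := fun e => hb (Fin.ext e)
    simp [this]
  · simp

theorem colScale_of_det {H : Mat n} (h : H.det = 1) : colScale H = H := by
  simp [colScale, h]

theorem ratM_colScale {H : ℂ → Mat n} (hH : RatM H) (h0 : (H 0).det ≠ 0) (h1 : (H 1).det ≠ 0) :
    RatM fun t => colScale (H t) := by
  refine hH.mul (ratM_diagonal fun i => ?_)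
  split_ifs
  · exact hH.det.inv h0 h1
  · exact ratOn_const 1

variable {J : Fin s → Mat n}

/-- Two representations in general position are joined by a rational curve of representations. -/
theorem rat_curve (hJ : ∀ j, (J j).det = 1) {x0 x1 : St (g + 1) s n} (h0 : PRep J x0)
    (h1 : PRep J x1) (g0 : ∀ i, Good (x0.1 i)) (g1 : ∀ i, Good (x1.1 i)) :
    ∃ gam : ℂ → St (g + 1) s n, gam 0 = x0 ∧ gam 1 = x1 ∧
      (∀ v, RatOn fun t => sev (gam t) v) ∧ ContinuousAt gam 0 ∧
      ∀ᶠ t in 𝓝 (0 : ℂ), PRep J (gam t) := by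
  choose G0 e0 t0 ok0 fib0 using fun i => fib_surj (h0.1 i) (g0 i)
  choose G1 e1 t1 ok1 fib1 using fun i => fib_surj (h1.1 i) (g1 i)
  let H : Fin s → ℂ → Mat n := fun j t => colScale ((1 - t) • x0.2 j + t • x1.2 j)
  let Bp : ℂ → Mat n := fun t => (List.ofFn fun j => bd (J j) (H j t)).prod
  let P : Fin g → ℂ → Pair n := fun i t =>
    ((1 - t) • (x0.1 i.castSucc).1 + t • (x1.1 i.castSucc).1,
      (1 - t) • (x0.1 i.castSucc).2 + t • (x1.1 i.castSucc).2)
  let prev : ℂ → Mat n := fun t => (List.ofFn fun i => ncm (P i t)).prod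
  let Cc : ℂ → Fin (g + 1) → Mat n := fun t =>
    Fin.snoc (fun i => ncm (P i t)) ((prev t).adjugate * (Bp t).adjugate)
  let G : ℂ → Fin (g + 1) → Mat n := fun t i => (1 - t) • G0 i + t • G1 i
  let e : ℂ → Fin (g + 1) → Fin n → ℂ := fun t i k => (1 - t) * e0 i k + t * e1 i k
  let u : ℂ → Fin (g + 1) → Fin n → ℂ := fun t i k => (1 - t) * t0 i k + t * t1 i k
  have hBd : ∀ t, (∀ j, (H j t).det = 1) → (Bp t).det = 1 := fun t ht => by
    refine List.prod_induction (fun A : Mat n => A.det = 1)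
      (fun A B ha hb => by rw [det_mul, ha, hb, mul_one]) det_one fun A hA => ?_
    obtain ⟨j, rfl⟩ := List.mem_ofFn.1 hA
    simp [bd, det_mul, hJ j, ht j, det_adj_one (ht j)]
  have hend : ∀ (x : St (g + 1) s n), PRep J x → ∀ t, (∀ i, P i t = x.1 i.castSucc) →
      (∀ j, H j t = x.2 j) → ∀ i, Cc t i = cm (x.1 i) := by
    intro x hx t hP hH i
    have hn : ∀ j, ncm (P j t) = cm (x.1 j.castSucc) := fun j => by
      rw [hP, ncm, (hx.1 _).1, (hx.1 _).2, mul_one, inv_one, one_smul]
    induction i using Fin.lastCases with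
    | last =>
      have hB : Bp t = (bdList J x).prod := by simp only [Bp, bdList, hH]
      simp only [Cc, Fin.snoc_last, prev, hn]
      have hp := hx.2.2
      rw [hprod, List.ofFn_succ', List.prod_concat, ← hB] at hp
      set Q := (List.ofFn fun i : Fin g => cm (x.1 i.castSucc)).prod
      have hQ : Q.det = 1 := by
        refine List.prod_induction (fun A : Mat n => A.det = 1)
          (fun A B ha hb => by rw [det_mul, ha, hb, mul_one]) det_one fun A hA => ?_
        obtain ⟨j, rfl⟩ := List.mem_ofFn.1 hA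
        exact det_cm (hx.1 _).1 (hx.1 _).2
      have hB1 : (Bp t).det = 1 := hBd t fun j => by rw [hH]; exact hx.2.1 j
      calc Q.adjugate * (Bp t).adjugate
          = Q.adjugate * (Q * cm (x.1 (Fin.last g)) * Bp t) * (Bp t).adjugate := by
            rw [hp, Matrix.mul_one]
        _ = cm (x.1 (Fin.last g)) := by
            simp only [Matrix.mul_assoc, mul_adj_one hB1, Matrix.mul_one]
            rw [← Matrix.mul_assoc, adj_mul_one hQ, Matrix.one_mul]
    | cast j => simp only [Cc, Fin.snoc_castSucc, hn]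
  have hP0 : ∀ i, P i 0 = x0.1 i.castSucc := fun i => by simp [P]
  have hP1 : ∀ i, P i 1 = x1.1 i.castSucc := fun i => by simp [P]
  have hH0 : ∀ j, H j 0 = x0.2 j := fun j => by simp [H, colScale_of_det (h0.2.1 j)]
  have hH1 : ∀ j, H j 1 = x1.2 j := fun j => by simp [H, colScale_of_det (h1.2.1 j)]
  have hC0 := hend x0 h0 0 hP0 hH0
  have hC1 := hend x1 h1 1 hP1 hH1
  have hG00 : ∀ i, G 0 i = G0 i := fun i => by simp [G]
  have hG11 : ∀ i, G 1 i = G1 i := fun i => by simp [G]
  have he00 : ∀ i, e 0 i = e0 i := fun i => by funext k; simp [e]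
  have he11 : ∀ i, e 1 i = e1 i := fun i => by funext k; simp [e]
  have hu00 : ∀ i, u 0 i = t0 i := fun i => by funext k; simp [u]
  have hu11 : ∀ i, u 1 i = t1 i := fun i => by funext k; simp [u]
  have hA : ∀ i, RatM fun t => (P i t).1 := fun i => ratM_segment _ _
  have hB : ∀ i, RatM fun t => (P i t).2 := fun i => ratM_segment _ _
  have hP0d : ∀ i, (P i 0).1.det = 1 ∧ (P i 0).2.det = 1 := fun i => by
    rw [hP0]; exact h0.1 _
  have hP1d : ∀ i, (P i 1).1.det = 1 ∧ (P i 1).2.det = 1 := fun i => by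
    rw [hP1]; exact h1.1 _
  have hncm : ∀ i, RatM fun t => ncm (P i t) := fun i =>
    RatM.smul (((hA i).det.mul (hB i).det).inv (by simp [hP0d i]) (by simp [hP1d i]))
      ((((hA i).mul (hB i)).mul (hA i).adjugate).mul (hB i).adjugate)
  have hseg : ∀ j, ((1 - (0 : ℂ)) • x0.2 j + (0 : ℂ) • x1.2 j).det ≠ 0 ∧
      ((1 - (1 : ℂ)) • x0.2 j + (1 : ℂ) • x1.2 j).det ≠ 0 := fun j => by
    simp [h0.2.1 j, h1.2.1 j]
  have hHrat : ∀ j, RatM (H j) := fun j =>
    ratM_colScale (ratM_segment _ _) (hseg j).1 (hseg j).2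
  have hBrat : RatM Bp := by
    have h := ratM_list_prod (List.finRange s) (F := fun j t => bd (J j) (H j t))
      fun j => ((hHrat j).mul (ratM_const (J j))).mul (hHrat j).adjugate
    simpa only [Bp, List.ofFn_eq_map] using h
  have hprev : RatM prev := by
    have h := ratM_list_prod (List.finRange g) hncm
    simpa only [prev, List.ofFn_eq_map] using h
  have hCrat : ∀ i, RatM fun t => Cc t i := fun i => by
    induction i using Fin.lastCases with
    | last => simpa only [Cc, Fin.snoc_last] using hprev.adjugate.mul hBrat.adjugate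
    | cast j => simpa only [Cc, Fin.snoc_castSucc] using hncm j
  have hGrat : ∀ i, RatM fun t => G t i := fun i => ratM_segment _ _
  have herat : ∀ i k, RatOn fun t => e t i k := fun i k =>
    (((ratOn_const 1).sub ratOn_id).mul (ratOn_const _)).add (ratOn_id.mul (ratOn_const _))
  have hurat : ∀ i k, RatOn fun t => u t i k := fun i k =>
    (((ratOn_const 1).sub ratOn_id).mul (ratOn_const _)).add (ratOn_id.mul (ratOn_const _))
  have hok0 : ∀ i, FibOk (Cc 0 i) (G 0 i) (e 0 i) (u 0 i) := fun i => by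
    rw [hC0, hG00, he00, hu00]; exact ok0 i
  have hok1 : ∀ i, FibOk (Cc 1 i) (G 1 i) (e 1 i) (u 1 i) := fun i => by
    rw [hC1, hG11, he11, hu11]; exact ok1 i
  let gam : ℂ → St (g + 1) s n := fun t =>
    (fun i => fib (Cc t i) (G t i) (e t i) (u t i), fun j => H j t)
  have hrat : ∀ i, RatM (fun t => ((gam t).1 i).1) ∧ RatM (fun t => ((gam t).1 i).2) := fun i =>
    ratM_fib (hCrat i) (hGrat i) (herat i) (hurat i)
      (by rw [hC0]; exact det_cm (h0.1 i).1 (h0.1 i).2)
      (by rw [hC1]; exact det_cm (h1.1 i).1 (h1.1 i).2) (hok0 i) (hok1 i)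
  refine ⟨gam, Prod.ext (funext fun i => ?_) (funext hH0),
    Prod.ext (funext fun i => ?_) (funext hH1), ?_, ?_, ?_⟩
  · simp only [gam, hC0, hG00, he00, hu00, fib0]
  · simp only [gam, hC1, hG11, he11, hu11, fib1]
  · rintro (⟨i, b, r, c⟩ | ⟨j, r, c⟩)
    · cases b
      · exact (hrat i).1 r c
      · exact (hrat i).2 r c
    · exact hHrat j r c
  · refine ContinuousAt.prodMk (continuousAt_pi.2 fun i => ContinuousAt.prodMk ?_ ?_)
      (continuousAt_pi.2 fun j => ?_) <;>
      refine continuousAt_pi.2 fun r => continuousAt_pi.2 fun c => ?_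
    · exact ((hrat i).1 r c).continuousAt
    · exact ((hrat i).2 r c).continuousAt
    · exact (hHrat j r c).continuousAt
  · have a1 : ∀ᶠ t in 𝓝 (0 : ℂ), ∀ i, FibOk (Cc t i) (G t i) (e t i) (u t i) :=
      eventually_all.2 fun i => eventually_fibOk (hCrat i) (hGrat i) (herat i) (hurat i) (hok0 i)
        (hok1 i)
    have a2 : ∀ᶠ t in 𝓝 (0 : ℂ), ∀ i, (P i t).1.det ≠ 0 ∧ (P i t).2.det ≠ 0 :=
      eventually_all.2 fun i => ((hA i).det.eventually_ne (by rw [(hP0d i).1]; exact one_ne_zero)).and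
        ((hB i).det.eventually_ne (by rw [(hP0d i).2]; exact one_ne_zero))
    have a3 : ∀ᶠ t in 𝓝 (0 : ℂ), ∀ j, ((1 - t) • x0.2 j + t • x1.2 j).det ≠ 0 :=
      eventually_all.2 fun j => (ratM_segment _ _).det.eventually_ne (hseg j).1
    filter_upwards [a1, a2, a3] with t b1 b2 b3
    have hHd : ∀ j, (H j t).det = 1 := fun j => det_colScale (b3 j)
    have hBd1 := hBd t hHd
    have hpd : (prev t).det = 1 := by
      refine List.prod_induction (fun A : Mat n => A.det = 1)
        (fun A B ha hb => by rw [det_mul, ha, hb, mul_one]) det_one fun A hA => ?_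
      obtain ⟨j, rfl⟩ := List.mem_ofFn.1 hA
      exact det_ncm (b2 j).1 (b2 j).2
    have hCd : ∀ i, (Cc t i).det = 1 := fun i => by
      induction i using Fin.lastCases with
      | last => simp [Cc, det_mul, det_adj_one hpd, det_adj_one hBd1]
      | cast j => simp only [Cc, Fin.snoc_castSucc]; exact det_ncm (b2 j).1 (b2 j).2
    refine ⟨fun i => (fib_spec (hCd i) (b1 i)).1, hHd, ?_⟩
    have hcm : (fun i => cm ((gam t).1 i)) = Cc t := funext fun i => (fib_spec (hCd i) (b1 i)).2
    show (List.ofFn fun i => cm ((gam t).1 i)).prod * Bp t = 1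
    rw [hcm, List.ofFn_succ', List.prod_concat]
    simp only [Cc, Fin.snoc_castSucc, Fin.snoc_last]
    show prev t * ((prev t).adjugate * (Bp t).adjugate) * Bp t = 1
    rw [← Matrix.mul_assoc, mul_adj_one hpd, Matrix.one_mul, adj_mul_one hBd1]

/-- Identity theorem along a rational curve. -/
theorem eval_eq_zero_of_curve {σ : Type} (gam : ℂ → σ → ℂ) (hgam : ∀ v, RatOn fun t => gam t v)
    (p : MvPolynomial σ ℂ) (h : ∀ᶠ t in 𝓝 (0 : ℂ), MvPolynomial.eval (gam t) p = 0) :
    MvPolynomial.eval (gam 1) p = 0 := by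
  have hF : RatOn fun t => MvPolynomial.eval (gam t) p := by
    simp only [MvPolynomial.eval_eq]
    exact ratOn_sum _ fun m _ => (ratOn_const _).mul (ratOn_prod _ fun v _ => (hgam v).pow _)
  obtain ⟨a, q, hq0, hq1, e⟩ := hF
  dsimp only at e
  have ha : a = 0 := by
    refine Polynomial.eq_zero_of_infinite_isRoot a ?_
    have hev : ∀ᶠ t in 𝓝 (0 : ℂ), a.IsRoot t := by
      filter_upwards [h, q.continuousAt.eventually_ne hq0] with t ht hqt
      rw [e t hqt, div_eq_zero_iff] at ht
      exact ht.resolve_right hqt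
    exact infinite_of_mem_nhds 0 hev
  rw [e 1 hq1, ha, Polynomial.eval_zero, zero_div]

/-- If the representations near one in general position are in the closure, so are all those in
general position. -/
theorem zd_of_nhds_good {R : Subring ℂ} (hJ : ∀ j, (J j).det = 1) {x0 : St (g + 1) s n}
    (h0 : PRep J x0) (g0 : ∀ i, Good (x0.1 i))
    (hev : ∀ᶠ x in 𝓝 x0, PRep J x → Zd R J x) {x1 : St (g + 1) s n} (h1 : PRep J x1)
    (g1 : ∀ i, Good (x1.1 i)) : Zd R J x1 := by
  obtain ⟨gam, e0, e1, hrat, hc, hp⟩ := rat_curve hJ h0 h1 g0 g1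
  intro p hp'
  rw [← e1]
  refine eval_eq_zero_of_curve (fun t => sev (gam t)) hrat p ?_
  have hnear : ∀ᶠ t in 𝓝 (0 : ℂ), PRep J (gam t) → Zd R J (gam t) :=
    hc.eventually (e0.symm ▸ hev)
  filter_upwards [hp, hnear] with t ht1 ht2
  exact ht2 ht1 p hp'

end P002Punct
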