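import Vale.Agent.P002Punct.Defs
import Vale.Agent.P002Surf.Moves

/-!
Polynomial maps between spaces of states, and integrality.
-/

namespace P002Punct

open Matrix P002Surf

open scoped Matrix.Norms.Operator

variable {g g' s s' n : ℕ} {σ : Type}

/-! ### polynomial functions -/

/-- A polynomial function of the coordinates `σ`. -/
def PolyF (f : (σ → ℂ) → ℂ) : Prop := ∃ p : MvPolynomial σ ℂ, ∀ v, f v = MvPolynomial.eval v p

/-- A matrix of polynomial functions. -/
def PolyM (F : (σ → ℂ) → Mat n) : Prop := ∀ a b, PolyF fun v => F v a b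

/-- A state of polynomial functions. -/
def PolyS (F : (σ → ℂ) → St g s n) : Prop := ∀ w, PolyF fun v => sev (F v) w

theorem polyF_const (c : ℂ) : PolyF fun _ : σ → ℂ => c := ⟨MvPolynomial.C c, fun v => by simp⟩

theorem polyF_coord (i : σ) : PolyF fun v : σ → ℂ => v i := ⟨MvPolynomial.X i, fun v => by simp⟩

theorem PolyF.add {f h : (σ → ℂ) → ℂ} : PolyF f → PolyF h → PolyF fun v => f v + h v := by
  rintro ⟨p, hp⟩ ⟨q, hq⟩
  exact ⟨p + q, fun v => by simp [hp, hq]⟩

theorem PolyF.mul {f h : (σ → ℂ) → ℂ} : PolyF f → PolyF h → PolyF fun v => f v * h v := by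
  rintro ⟨p, hp⟩ ⟨q, hq⟩
  exact ⟨p * q, fun v => by simp [hp, hq]⟩

theorem polyF_sum {ι : Type} (S : Finset ι) {f : ι → (σ → ℂ) → ℂ} (h : ∀ i ∈ S, PolyF (f i)) :
    PolyF fun v => ∑ i ∈ S, f i v := by
  choose! p hp using h
  exact ⟨∑ i ∈ S, p i, fun v => by
    rw [map_sum]; exact Finset.sum_congr rfl fun i hi => hp i hi v⟩

theorem polyM_const (A : Mat n) : PolyM fun _ : σ → ℂ => A := fun _ _ => polyF_const _

theorem PolyM.mul {F H : (σ → ℂ) → Mat n} (hF : PolyM F) (hH : PolyM H) :
    PolyM fun v => F v * H v := fun a b => by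
  simp only [Matrix.mul_apply]
  exact polyF_sum _ fun c _ => (hF a c).mul (hH c b)

theorem PolyM.pow {F : (σ → ℂ) → Mat n} (hF : PolyM F) : ∀ m : ℕ, PolyM fun v => F v ^ m
  | 0 => by simpa only [pow_zero] using polyM_const (σ := σ) (1 : Mat n)
  | m + 1 => by simpa only [pow_succ] using (hF.pow m).mul hF

theorem PolyM.gen {F : (σ → ℂ) → Mat n} (hF : PolyM F) :
    ∃ P : Matrix (Fin n) (Fin n) (MvPolynomial σ ℂ), ∀ v, F v = P.map (MvPolynomial.eval v) := by
  choose p hp using hF
  exact ⟨Matrix.of p, fun v => by ext a b; exact hp a b v⟩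

theorem PolyM.det {F : (σ → ℂ) → Mat n} (hF : PolyM F) : PolyF fun v => (F v).det := by
  obtain ⟨P, hP⟩ := hF.gen
  exact ⟨P.det, fun v => by simp only [hP, RingHom.map_det]; rfl⟩

theorem PolyM.adjugate {F : (σ → ℂ) → Mat n} (hF : PolyM F) : PolyM fun v => (F v).adjugate := by
  obtain ⟨P, hP⟩ := hF.gen
  intro a b
  refine ⟨P.adjugate a b, fun v => ?_⟩
  simp only [hP]
  rw [← RingHom.mapMatrix_apply, ← RingHom.map_adjugate]
  rfl

theorem polyM_list_prod {ι : Type} (l : List ι) {F : ι → (σ → ℂ) → Mat n} (h : ∀ i, PolyM (F i)) :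
    PolyM fun v => (l.map fun i => F i v).prod := by
  induction l with
  | nil => simpa using polyM_const (σ := σ) (1 : Mat n)
  | cons a l ih => simpa only [List.map_cons, List.prod_cons] using (h a).mul ih

/-- A state is polynomial iff its matrices are. -/
theorem polyS_iff {F : (σ → ℂ) → St g s n} :
    PolyS F ↔ (∀ i, PolyM (fun v => ((F v).1 i).1) ∧ PolyM (fun v => ((F v).1 i).2)) ∧
      ∀ j, PolyM (fun v => (F v).2 j) := by
  constructor
  · exact fun h => ⟨fun i => ⟨fun a b => h (.inl (i, false, a, b)), fun a b => h (.inl (i, true, a, b))⟩,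
      fun j a b => h (.inr (j, a, b))⟩
  · rintro ⟨h1, h2⟩ (⟨i, b, r, c⟩ | ⟨j, r, c⟩)
    · cases b
      · exact (h1 i).1 r c
      · exact (h1 i).2 r c
    · exact h2 j r c

theorem polyS_unev : PolyS (unev (g := g) (s := s) (n := n)) := fun w => by
  simp only [sev_unev]
  exact polyF_coord w

theorem polyS_const (x : St g s n) : PolyS fun _ : σ → ℂ => x := fun _ => polyF_const _

theorem PolyF.contDiff [Fintype σ] {f : (σ → ℂ) → ℂ} (hf : PolyF f) {m : WithTop ℕ∞} :
    ContDiff ℂ m f := by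
  obtain ⟨p, hp⟩ := hf
  rw [funext hp]
  clear hp
  induction p using MvPolynomial.induction_on with
  | C a => simpa using contDiff_const
  | add p q h1 h2 => simpa using h1.add h2
  | mul_X p i h => simpa using h.mul (contDiff_apply ℂ ℂ i)

/-- The entries as a linear equivalence. -/
def sevL : St g s n ≃ₗ[ℂ] (Var g s n → ℂ) where
  toFun := sev
  invFun := unev
  map_add' x y := by
    funext w
    rcases w with ⟨i, b, r, c⟩ | ⟨j, r, c⟩
    · cases b <;> rfl
    · rfl
  map_smul' a x := by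
    funext w
    rcases w with ⟨i, b, r, c⟩ | ⟨j, r, c⟩
    · cases b <;> rfl
    · rfl
  left_inv := unev_sev
  right_inv := sev_unev

theorem contDiff_sev {m : WithTop ℕ∞} : ContDiff ℂ m fun x : St g s n => sev x :=
  (sevL (g := g) (s := s) (n := n)).toLinearMap.toContinuousLinearMap.contDiff

theorem contDiff_unev {m : WithTop ℕ∞} : ContDiff ℂ m fun v : Var g s n → ℂ => unev v :=
  (sevL (g := g) (s := s) (n := n)).symm.toLinearMap.toContinuousLinearMap.contDiff

theorem contDiff_entry {m : WithTop ℕ∞} (a b : Fin n) : ContDiff ℂ m fun A : Mat n => A a b :=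
  (Matrix.entryLinearMap ℂ ℂ a b).toContinuousLinearMap.contDiff

theorem PolyS.contDiff [Fintype σ] {F : (σ → ℂ) → St g s n} (hF : PolyS F) {m : WithTop ℕ∞} :
    ContDiff ℂ m F :=
  contDiff_unev.comp (contDiff_pi.2 fun w => (hF w).contDiff)

theorem PolyM.contDiff [Fintype σ] {F : (σ → ℂ) → Mat n} (hF : PolyM F) {m : WithTop ℕ∞} :
    ContDiff ℂ m F := by
  have h : ContDiff ℂ m fun v : σ → ℂ => fun ab : Fin n × Fin n => F v ab.1 ab.2 :=
    contDiff_pi.2 fun ab => (hF ab.1 ab.2).contDiff
  exact ((Matrix.ofLinearEquiv ℂ).toLinearMap.comp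
    (LinearEquiv.curry ℂ ℂ (Fin n) (Fin n)).toLinearMap).toContinuousLinearMap.contDiff.comp h

/-! ### integrality -/

variable {R : Subring ℂ}

theorem IntM.mul {A B : Mat n} (hA : IntM R A) (hB : IntM R B) : IntM R (A * B) := fun a b => by
  rw [Matrix.mul_apply]
  exact R.sum_mem fun c _ => R.mul_mem (hA a c) (hB c b)

theorem intM_one : IntM R (1 : Mat n) := fun a b => by
  rw [Matrix.one_apply]; split_ifs
  · exact R.one_mem
  · exact R.zero_mem

theorem IntM.pow {A : Mat n} (hA : IntM R A) : ∀ m : ℕ, IntM R (A ^ m)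
  | 0 => by rw [pow_zero]; exact intM_one
  | m + 1 => by rw [pow_succ]; exact (hA.pow m).mul hA

theorem IntM.adjugate {A : Mat n} (hA : IntM R A) : IntM R A.adjugate := fun a b => by
  have h : A = (Matrix.of fun i j => (⟨A i j, hA i j⟩ : R)).map R.subtype := by ext i j; rfl
  rw [h, ← RingHom.mapMatrix_apply, ← RingHom.map_adjugate]
  exact Subtype.coe_prop _

theorem intM_list_prod {l : List (Mat n)} (h : ∀ A ∈ l, IntM R A) : IntM R l.prod :=
  List.prod_induction (IntM R) (fun _ _ => IntM.mul) intM_one h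

theorem intSt_iff {x : St g s n} :
    IntSt R x ↔ (∀ i, IntM R (x.1 i).1 ∧ IntM R (x.1 i).2) ∧ ∀ j, IntM R (x.2 j) := by
  constructor
  · exact fun h => ⟨fun i => ⟨fun a b => h (.inl (i, false, a, b)), fun a b => h (.inl (i, true, a, b))⟩,
      fun j a b => h (.inr (j, a, b))⟩
  · rintro ⟨h1, h2⟩ (⟨i, b, r, c⟩ | ⟨j, r, c⟩)
    · cases b
      · exact (h1 i).1 r c
      · exact (h1 i).2 r c
    · exact h2 j r c

/-! ### the closure -/

variable {J : Fin s → Mat n} {J' : Fin s' → Mat n}

/-- Polynomial maps preserving integral representations preserve their closure. -/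
theorem zd_map {F : (Var g s n → ℂ) → St g' s' n} (hF : PolyS F)
    (hint : ∀ a : St g s n, PRep J a → IntSt R a → PRep J' (F (sev a)) ∧ IntSt R (F (sev a)))
    {x : St g s n} (hx : Zd R J x) : Zd R J' (F (sev x)) := by
  intro p hp
  choose P hP using hF
  have key : ∀ v, MvPolynomial.eval v (MvPolynomial.aeval P p) =
      MvPolynomial.eval (sev (F v)) p := fun v => by
    rw [eval_subst]
    congr 2
    funext w
    exact (hP w v).symm
  rw [← key]
  exact hx _ fun a ha ha' => by rw [key]; exact hp _ (hint a ha ha').1 (hint a ha ha').2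

theorem continuous_sev : Continuous fun x : St g s n => sev x := by
  refine continuous_pi fun v => ?_
  rcases v with ⟨i, b, r, c⟩ | ⟨j, r, c⟩
  · cases b <;> simp only [sev, Sum.elim_inl, ev, Bool.cond_true, Bool.cond_false] <;> fun_prop
  · simp only [sev, Sum.elim_inr]; fun_prop

theorem isClosed_zd : IsClosed {x : St g s n | Zd R J x} := by
  have : {x : St g s n | Zd R J x} =
      ⋂ p : {p : MvPolynomial (Var g s n) ℂ // ∀ a : St g s n, PRep J a → IntSt R a →
        MvPolynomial.eval (sev a) p = 0}, (fun x => MvPolynomial.eval (sev x) p.1) ⁻¹' {0} := by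
    ext x
    simp only [Set.mem_ofPred_eq, Set.mem_iInter, Set.mem_preimage, Set.mem_singleton_iff]
    exact ⟨fun h p => h p.1 p.2, fun h p hp => h ⟨p, hp⟩⟩
  rw [this]
  exact isClosed_iInter fun p =>
    isClosed_singleton.preimage ((MvPolynomial.continuous_eval p.1).comp continuous_sev)

theorem zd_of_intSt {x : St g s n} (h : PRep J x) (h' : IntSt R x) : Zd R J x :=
  fun _ hp => hp x h h'

end P002Punct
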