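import Vale.Agent.P002Punct.Count
import Vale.Agent.P002Punct.Poly
import Vale.Agent.P002Surf.Main

/-!
Representations with all handles in general position suffice: absorb small changes of the other
handles in one handle, the boundary staying fixed.
-/

namespace P002Punct

open Matrix Filter Topology P002Surf

open scoped Matrix.Norms.Operator

variable {g s n : ℕ} {R : Subring ℂ} {J : Fin s → Mat n}

theorem continuous_bd (J : Mat n) : Continuous fun h : Mat n => bd J h :=
  (continuous_id.mul continuous_const).mul continuous_id.matrix_adjugate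

theorem continuous_bdProd (J : Fin s → Mat n) :
    Continuous fun x : St g s n => (bdList J x).prod := by
  simp only [bdList, List.ofFn_eq_map]
  exact continuous_list_prod _ fun j _ =>
    (continuous_bd (J j)).comp ((continuous_apply j).comp continuous_snd)

/-- Change the handle `i` so that the relation holds again. -/
theorem absorbP (hn : 0 < n) (hJd : ∀ j, (J j).det = 1) {x : St g s n} (hx : PRep J x) (i : Fin g)
    (hs : ScalarCommutant (x.1 i)) :
    ∃ (Sg : St g s n → St g s n) (V : Set (St g s n)), IsOpen V ∧ x ∈ V ∧ ContinuousOn Sg V ∧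
      Sg x = x ∧ ∀ y ∈ V, (∀ k, k ≠ i → SL1 (y.1 k)) → (∀ j, (y.2 j).det = 1) →
        PRep J (Sg y) ∧ (∀ k, k ≠ i → (Sg y).1 k = y.1 k) ∧ (Sg y).2 = y.2 := by
  obtain ⟨σ, V, hVo, hVm, hσc, hσ0, hσ⟩ := cm_section hn (hx.1 i) hs
  let K : St g s n → Mat n := fun y =>
    (pre i y.1).adjugate * ((bdList J y).prod.adjugate * (post i y.1).adjugate)
  have hK : Continuous K := ((continuous_pre i).1.comp continuous_fst).matrix_adjugate.mul
    ((continuous_bdProd J).matrix_adjugate.mul
      ((continuous_pre i).2.comp continuous_fst).matrix_adjugate)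
  have hdet : ∀ q : Fin g → Pair n, (∀ k, k ≠ i → SL1 (q k)) →
      (pre i q).det = 1 ∧ (post i q).det = 1 := by
    intro q h
    classical
    let q'' := Function.update q i (1, 1)
    have h' : ∀ k, SL1 (q'' k) := fun k => by
      by_cases hk : k = i
      · subst hk; simp [q'', SL1]
      · simpa [q'', hk] using h k hk
    obtain ⟨e1, e2⟩ := pre_congr i (q := q) (q' := q'') fun k hk => by simp [q'', hk]
    rw [e1, e2]
    constructor <;> refine det_list_prod fun M hM => ?_ <;>
      obtain ⟨k, -, rfl⟩ := List.mem_map.1 hM <;> exact det_cm (h' k).1 (h' k).2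
  have hK0 : K x = cm (x.1 i) := by
    obtain ⟨d1, d2⟩ := hdet x.1 fun k _ => hx.1 k
    have d3 := det_bdList hJd hx.2.1
    have h := hx.2.2
    rw [hprod, prod_split i] at h
    have hp : cm (x.1 i) * (post i x.1 * (bdList J x).prod) = (pre i x.1).adjugate := by
      calc cm (x.1 i) * (post i x.1 * (bdList J x).prod)
          = (pre i x.1).adjugate * (pre i x.1 * cm (x.1 i) * post i x.1 * (bdList J x).prod) := by
            simp only [← Matrix.mul_assoc, adj_mul_one d1, Matrix.one_mul]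
        _ = _ := by rw [h, Matrix.mul_one]
    calc K x = cm (x.1 i) * (post i x.1 * (bdList J x).prod) *
          ((bdList J x).prod.adjugate * (post i x.1).adjugate) := by rw [hp]
      _ = cm (x.1 i) := by
          simp only [Matrix.mul_assoc]
          rw [← Matrix.mul_assoc (bdList J x).prod, mul_adj_one d3, Matrix.one_mul, mul_adj_one d2,
            Matrix.mul_one]
  refine ⟨fun y => (Function.update y.1 i (σ (K y)), y.2), K ⁻¹' V, hVo.preimage hK, ?_, ?_, ?_, ?_⟩
  · show K x ∈ V
    rw [hK0]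
    exact hVm
  · refine ContinuousOn.prodMk (continuousOn_pi.2 fun k => ?_) continuous_snd.continuousOn
    by_cases hk : k = i
    · subst hk
      simp only [Function.update_self]
      exact hσc.comp hK.continuousOn fun x hx => hx
    · simp only [Function.update_of_ne hk]
      exact ((continuous_apply k).comp continuous_fst).continuousOn
  · show (Function.update x.1 i (σ (K x)), x.2) = x
    rw [hK0, hσ0, Function.update_eq_self]
  · intro y hy h hh
    obtain ⟨d1, d2⟩ := hdet y.1 h
    have d3 := det_bdList hJd hh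
    obtain ⟨hy1, hy2⟩ := hσ (K y) hy (by simp [K, Matrix.det_mul, det_adj_one, d1, d2, d3])
    refine ⟨⟨fun k => ?_, hh, ?_⟩, fun k hk => Function.update_of_ne hk _ _, rfl⟩
    · by_cases hk : k = i
      · subst hk
        simpa [SL1] using hy1
      · simpa [hk, SL1] using h k hk
    · obtain ⟨e1, e2⟩ := pre_congr i (q := Function.update y.1 i (σ (K y))) (q' := y.1)
        fun k hk => by simp [hk]
      show (List.ofFn fun k => cm (Function.update y.1 i (σ (K y)) k)).prod * (bdList J y).prod = 1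
      rw [prod_split i, e1, e2, Function.update_self, hy2]
      simp only [K, Matrix.mul_assoc]
      rw [← Matrix.mul_assoc (post i y.1).adjugate, adj_mul_one d2, Matrix.one_mul, adj_mul_one d3,
        Matrix.mul_one, mul_adj_one d1]

/-- Replace handles near a state by generic ones. -/
theorem dense_handles {x : St g s n} (S : Finset (Fin g)) (hx : ∀ k ∈ S, SL1 (x.1 k))
    {U : Set (St g s n)} (hU : U ∈ 𝓝 x) :
    ∃ y ∈ U, (∀ k ∈ S, SL1 (y.1 k) ∧ Hy (y.1 k)) ∧ (∀ k, k ∉ S → y.1 k = x.1 k) ∧ y.2 = x.2 := by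
  have hc : Continuous fun q : Fin g → Pair n => ((q, x.2) : St g s n) :=
    continuous_id.prodMk continuous_const
  obtain ⟨q', hq, h1, h2⟩ := dense_pi (P := Hy) (fun z hz W hW => dense_hy hz hW) S hx
    (hc.continuousAt.preimage_mem_nhds (t := U) (x := x.1) hU)
  exact ⟨(q', x.2), hq, h1, h2, rfl⟩

theorem isClosed_zdOn {Q : St g s n → Prop} : IsClosed {x : St g s n | ZdOn Q R J x} := by
  have : {x : St g s n | ZdOn Q R J x} =
      ⋂ p : {p : MvPolynomial (Var g s n) ℂ // ∀ a : St g s n, PRep J a → IntSt R a → Q a →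
        MvPolynomial.eval (sev a) p = 0}, (fun x => MvPolynomial.eval (sev x) p.1) ⁻¹' {0} := by
    ext x
    simp only [Set.mem_ofPred_eq, Set.mem_iInter, Set.mem_preimage, Set.mem_singleton_iff]
    exact ⟨fun h p => h p.1 p.2, fun h p hp => h ⟨p, hp⟩⟩
  rw [this]
  exact isClosed_iInter fun p =>
    isClosed_singleton.preimage ((MvPolynomial.continuous_eval p.1).comp continuous_sev)

/-- If all representations with every handle generic are in the closure, all are. -/
theorem zdOn_of_hy {Q : St g s n → Prop} (hg : 2 ≤ g) (hR : ∀ z ∈ R, z ∈ Vale.Agent.P002.Surface.acl (∅ : Set ℂ))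
    (hJ : ∀ j a b, J j a b ∈ Vale.Agent.P002.Surface.acl (∅ : Set ℂ)) (hJd : ∀ j, (J j).det = 1)
    (hn : 0 < n) (hgood : ∀ x : St g s n, PRep J x → (∀ k, Hy (x.1 k)) → ZdOn Q R J x) :
    ∀ x : St g s n, PRep J x → ZdOn Q R J x := by
  refine zdOn_of_good hg hR hJ hJd fun x hx ⟨i, hi⟩ => ?_
  by_contra hne
  classical
  have hnb : ∀ᶠ y in 𝓝 x, ¬ ZdOn Q R J y := isClosed_zdOn.isOpen_compl.mem_nhds hne
  obtain ⟨Sg, V, hVo, hVm, hVc, hS0, hSg⟩ := absorbP hn hJd hx i hi
  obtain ⟨N, hN, hNo, hqN⟩ := eventually_nhds_iff.1 hnb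
  have hcts : ContinuousAt Sg x := hVc.continuousAt (hVo.mem_nhds hVm)
  have hU : ∀ᶠ y in 𝓝 x, y ∈ V ∧ Sg y ∈ N :=
    (hVo.eventually_mem hVm).and (hcts.preimage_mem_nhds (hNo.mem_nhds (by rw [hS0]; exact hqN)))
  obtain ⟨y1, ⟨hy1V, hy1N⟩, hy1, -, hy1h⟩ :=
    dense_handles ((Finset.univ : Finset (Fin g)).erase i) (fun k _ => hx.1 k) hU
  obtain ⟨hrep, hsame, hh⟩ := hSg y1 hy1V (fun k hk => (hy1 k (by simp [hk])).1)
    (fun j => by rw [hy1h]; exact hx.2.1 j)
  set r := Sg y1
  have hrH : ∀ k, k ≠ i → Hy (r.1 k) := fun k hk => by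
    rw [hsame k hk]; exact (hy1 k (by simp [hk])).2
  have : Nontrivial (Fin g) := Fin.nontrivial_iff_two_le.2 hg
  obtain ⟨l, hl⟩ := exists_ne i
  obtain ⟨Sg', V', hVo', hVm', hVc', hS0', hSg'⟩ := absorbP hn hJd hrep l (hrH l hl).1.scalar
  have hcts' : ContinuousAt Sg' r := hVc'.continuousAt (hVo'.mem_nhds hVm')
  have hlo : IsOpen {y : St g s n | Hy (y.1 l)} :=
    IsOpen.preimage (f := fun y : St g s n => y.1 l) ((continuous_apply l).comp continuous_fst)
      (isOpen_hy (n := n))
  have hU' : ∀ᶠ y in 𝓝 r, y ∈ V' ∧ (Sg' y ∈ N ∧ Sg' y ∈ {y : St g s n | Hy (y.1 l)}) :=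
    (hVo'.eventually_mem hVm').and (Filter.Eventually.and
      (p := fun y => Sg' y ∈ N) (q := fun y => Sg' y ∈ {y : St g s n | Hy (y.1 l)})
      (hcts'.preimage_mem_nhds (hNo.mem_nhds (by rw [hS0']; exact hy1N)))
      (hcts'.preimage_mem_nhds (hlo.mem_nhds (by rw [hS0']; exact hrH l hl))))
  obtain ⟨y2, ⟨hy2V, hy2N, hy2l⟩, hy2, hy2', hy2h⟩ :=
    dense_handles ({i} : Finset (Fin g)) (fun k _ => hrep.1 k) hU'
  obtain ⟨hrep2, hsame2, -⟩ := hSg' y2 hy2V (fun k hk => by
    by_cases hki : k = i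
    · subst hki; exact (hy2 k (by simp)).1
    · rw [hy2' k (by simp [hki])]; exact hrep.1 k)
    (fun j => by rw [hy2h]; exact hrep.2.1 j)
  refine hN _ hy2N (hgood _ hrep2 fun k => ?_)
  by_cases hk : k = l
  · subst hk; exact hy2l
  · rw [hsame2 k hk]
    by_cases hki : k = i
    · subst hki; exact (hy2 k (by simp)).2
    · rw [hy2' k (by simp [hki])]; exact hrH k hki

/-- If all representations with every handle generic are in the closure, all are. -/
theorem zd_of_hy (hg : 2 ≤ g) (hR : ∀ z ∈ R, z ∈ Vale.Agent.P002.Surface.acl (∅ : Set ℂ))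
    (hJ : ∀ j a b, J j a b ∈ Vale.Agent.P002.Surface.acl (∅ : Set ℂ)) (hJd : ∀ j, (J j).det = 1)
    (hn : 0 < n) (hgood : ∀ x : St g s n, PRep J x → (∀ k, Hy (x.1 k)) → Zd R J x) :
    ∀ x : St g s n, PRep J x → Zd R J x := fun x hx =>
  zdOn_true.1 (zdOn_of_hy hg hR hJ hJd hn (fun y hy hk => zdOn_true.2 (hgood y hy hk)) x hx)

end P002Punct
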