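import Vale.Agent.P002Punct.Irr
import Vale.Agent.P002Punct.Perturb

/-!
Irreducible integral representations suffice at every representation.
-/

namespace P002Punct

open P002Surf

variable {g s n : ℕ}

/-- If the integral representations are dense, so are the irreducible ones. -/
theorem eval_zero_all_of_irr (hg : 2 ≤ g) (hn : 0 < n) {R : Subring ℂ}
    (hR : ∀ z ∈ R, z ∈ Vale.Agent.P002.Surface.acl (∅ : Set ℂ)) {J : Fin s → Mat n}
    (hJ : ∀ j a b, J j a b ∈ Vale.Agent.P002.Surface.acl (∅ : Set ℂ)) (hJd : ∀ j, (J j).det = 1)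
    (hall : ∀ x : St g s n, PRep J x → Zd R J x) {p : MvPolynomial (Var g s n) ℂ}
    (hp : ∀ a : St g s n, PRep J a → IntSt R a → (∃ i, PairIrr (a.1 i)) →
      MvPolynomial.eval (sev a) p = 0)
    {x : St g s n} (hx : PRep J x) : MvPolynomial.eval (sev x) p = 0 :=
  zdOn_of_hy (Q := fun a => ∃ i, PairIrr (a.1 i)) hg hR hJ hJd hn
    (fun _ hy hk q hq => eval_zero_of_irr hall hq hy (i := ⟨0, by omega⟩) (hk _).1)
    x hx p hp

end P002Punct
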