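import Vale.Agent.P002Punct.IndepAnalytic
import Vale.Agent.P002Surf.Flow
import Vale.Agent.P002Surf.Fibre

/-!
Lines of torus elements, and conditions failing at countably many parameters.
-/

namespace P002Punct

open Matrix Filter Topology P002Surf

open scoped Matrix.Norms.Operator

variable {n : ℕ}

/-- The segment from `1` to `Q`. -/
def seg (Q : Mat n) (t : ℂ) : Mat n := 1 + t • (Q - 1)

/-- Where the segment is invertible. -/
def segOk (Q : Mat n) : Set ℂ := {t | (seg Q t).det ≠ 0}

/-- The segment scaled into SL. -/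
noncomputable def zseg (Q : Mat n) (t : ℂ) : Mat n := zN (seg Q t)

theorem zero_mem_segOk (Q : Mat n) : (0 : ℂ) ∈ segOk Q := by simp [segOk, seg]

theorem one_mem_segOk {Q : Mat n} (hQ : Q.det ≠ 0) : (1 : ℂ) ∈ segOk Q := by
  simp [segOk, seg, hQ]

theorem zseg_zero (Q : Mat n) : zseg Q 0 = 1 := by simp [zseg, seg, zN_one]

theorem zseg_one (Q : Mat n) : zseg Q 1 = zN Q := by simp [zseg, seg]

theorem det_zseg {Q : Mat n} {t : ℂ} (ht : t ∈ segOk Q) : (zseg Q t).det = 1 := det_zN ht

theorem commute_zseg {Q K : Mat n} (h : Commute K Q) (t : ℂ) : K * zseg Q t = zseg Q t * K :=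
  (commute_zN ((Commute.one_right K).add_right ((h.sub_right (Commute.one_right K)).smul_right t))).eq

theorem contDiff_seg (Q : Mat n) : ContDiff ℂ 1 (seg Q) :=
  contDiff_const.add (contDiff_id.smul contDiff_const)

theorem contDiffAt_zseg {Q : Mat n} {t : ℂ} (ht : t ∈ segOk Q) : ContDiffAt ℂ 1 (zseg Q) t :=
  (contDiffAt_zN ht).comp t (contDiff_seg Q).contDiffAt

theorem isOpen_segOk (Q : Mat n) : IsOpen (segOk Q) :=
  isOpen_ne_fun (contDiff_seg Q).continuous.matrix_det continuous_const

theorem countable_compl_segOk (Q : Mat n) : (segOk Q)ᶜ.Countable := by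
  let P : Matrix (Fin n) (Fin n) (Polynomial ℂ) := 1 + (Polynomial.X : Polynomial ℂ) •
    (Q - 1).map (Polynomial.C : ℂ →+* Polynomial ℂ)
  have hev : ∀ t : ℂ, P.det.eval t = (seg Q t).det := by
    intro t
    rw [← Polynomial.coe_evalRingHom, RingHom.map_det]
    congr 1
    ext i j
    rcases eq_or_ne i j with rfl | h <;> simp [P, seg, *] <;> ring
  have hne : P.det ≠ 0 := fun h => by
    have := hev 0
    simp [h, seg] at this
  refine ((Polynomial.finite_setOfPred_isRoot hne).subset fun t ht => ?_).countable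
  have : (seg Q t).det = 0 := not_not.1 ht
  rwa [← hev] at this

theorem isPreconnected_of_countable_compl {U : Set ℂ} (hU : Uᶜ.Countable) : IsPreconnected U := by
  have := hU.isConnected_compl_of_one_lt_rank (by rw [Complex.rank_real_complex]; exact Nat.one_lt_ofNat)
  rw [compl_compl] at this
  exact this.isPreconnected

/-- A continuous function vanishing near `t` off a countable set vanishes at `t`. -/
theorem eq_zero_of_cocountable {E : Type*} [TopologicalSpace E] [T2Space E] [Zero E] {F : ℂ → E}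
    {t : ℂ} {S : Set ℂ} (hS : S.Countable) (hF : ContinuousAt F t)
    (h : ∀ᶠ u in 𝓝 t, u ∉ S → F u = 0) : F t = 0 := by
  have hd : (𝓝[Sᶜ] t).NeBot :=
    mem_closure_iff_nhdsWithin_neBot.1 ((hS.dense_compl ℂ).closure_eq ▸ Set.mem_univ t)
  refine tendsto_nhds_unique (l := 𝓝[Sᶜ] t) (hF.tendsto.mono_left nhdsWithin_le_nhds) ?_
  exact tendsto_const_nhds.congr' (((h.filter_mono nhdsWithin_le_nhds).and
    eventually_mem_nhdsWithin).mono fun u hu => (hu.1 hu.2).symm)

/-- The set of parameters of a segment at which a matrix is not independent. -/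
theorem countable_bad {Q : Mat n} {F : ℂ → Mat n} (hd : ∀ t ∈ segOk Q, ContDiffAt ℂ 1 F t)
    (hdet : ∀ t ∈ segOk Q, (F t).det = 1) {t₀ : ℂ} (h0 : t₀ ∈ segOk Q) (hi : Indep (F t₀)) :
    ((segOk Q)ᶜ ∪ {t | t ∈ segOk Q ∧ ¬ Indep (F t)}).Countable :=
  (countable_compl_segOk Q).union (countable_not_indep (isOpen_segOk Q)
    (isPreconnected_of_countable_compl (countable_compl_segOk Q)) h0
    (fun t ht => ((hd t ht).differentiableAt one_ne_zero).differentiableWithinAt) hdet hi)

theorem of_notMem_bad {Q : Mat n} {F : ℂ → Mat n} {t : ℂ}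
    (h : t ∉ (segOk Q)ᶜ ∪ {t | t ∈ segOk Q ∧ ¬ Indep (F t)}) : t ∈ segOk Q ∧ Indep (F t) := by
  simp only [Set.mem_union, Set.mem_compl_iff, Set.mem_ofPred_eq, not_or, not_not] at h
  exact ⟨h.1, not_not.1 fun hn => h.2 ⟨h.1, hn⟩⟩

/-- Every determinant one element of the torus of a simple matrix is a scaled power of a polynomial. -/
theorem exists_root {K P Z : Mat n} {μ : Fin n → ℂ} (hK : DiagBy K P μ) (hdet : Z.det = 1)
    (hc : K * Z = Z * K) :
    ∃ p : Polynomial ℂ, (Polynomial.aeval K p).det ≠ 0 ∧ zN (Polynomial.aeval K p) = Z := by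
  obtain ⟨d, rfl⟩ := commute_diag hK hc
  have hP := isUnit_det_of_ne hK.1
  have hd : (∏ i, d i) = 1 := by
    rwa [Matrix.det_mul, Matrix.det_mul, mul_comm P.det, mul_assoc, ← Matrix.det_mul,
      Matrix.mul_nonsing_inv P hP, Matrix.det_one, mul_one, det_diagonal] at hdet
  obtain ⟨e, he, rfl⟩ := exists_dd hd
  refine ⟨Lagrange.interpolate Finset.univ μ e, ?_, ?_⟩ <;>
  rw [hK.2.2, aeval_conj hK.1, show (fun i => (Lagrange.interpolate Finset.univ μ e).eval (μ i)) = e from
    funext fun i => Lagrange.eval_interpolate_at_node e hK.2.1.injOn (Finset.mem_univ i)]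
  · rw [Matrix.det_mul, Matrix.det_mul, mul_comm P.det, mul_assoc, ← Matrix.det_mul,
      Matrix.mul_nonsing_inv P hP, Matrix.det_one, mul_one, det_diagonal]
    exact Finset.prod_ne_zero_iff.2 fun i _ => he i
  · rw [zN_smul_diag P hK.1]
    rw [show (fun i => (∏ k, e k)⁻¹ * e i ^ n) = dd e from funext fun i => (div_eq_inv_mul _ _).symm]

theorem continuous_adj_mul (Φ : Mat n) : Continuous fun X : Mat n => X.adjugate * Φ :=
  (continuous_id.matrix_adjugate).mul continuous_const

theorem inv_eq_adj {A : Mat n} (hA : A.det = 1) : A⁻¹ = A.adjugate := by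
  rw [Matrix.inv_def, hA, Ring.inverse_one, one_smul]

end P002Punct
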