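import Vale.Agent.P002Punct.Defs
import Vale.Agent.P002Surf.Param
import Vale.Agent.P002Surf.Flow

/-!
The generic conditions on a representation at which the moves fill a neighbourhood.
-/

namespace P002Punct

open Matrix P002Surf

variable {g s n : ℕ}

/-- A handle in general position. -/
def Hy1 (x : Pair n) : Prop :=
  SL1 x ∧ Good x ∧ G0 x ∧ G0 x.swap ∧ Indep x.1 ∧ Indep x.2 ∧ (cm x).adjugate.trace ≠ (n : ℂ)

/-- The key of the mixing move of two consecutive handles. -/
def mixKey (x y : Pair n) : Mat n := x.2.adjugate * y.1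

/-- The product of the first boundary matrices, up to `j` inclusive. -/
def bdPre (J : Fin s → Mat n) (x : St g s n) (j : Fin s) : Mat n :=
  ((bdList J x).take ((j : ℕ) + 1)).prod

/-- Genericity of the last handle with respect to the boundary. -/
def BdOk (J : Fin s → Mat n) (x : St (g + 1) s n) : Prop :=
  ∀ j : Fin s, ((bdPre J x j).adjugate * (cm (x.1 (Fin.last g))).adjugate).trace ≠
      (bdPre J x j).adjugate.trace ∧
    Indep ((x.1 (Fin.last g)).2.adjugate * bdPre J x j)

/-- A representation at which all moves are generic. -/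
def Generic (J : Fin s → Mat n) (x : St (g + 1) s n) : Prop :=
  PRep J x ∧ (∀ i, Hy1 (x.1 i)) ∧
    (∀ i : Fin g, Indep (mixKey (x.1 i.castSucc) (x.1 i.succ))) ∧ BdOk J x

end P002Punct
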