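import Vale.Agent.P002Punct.Move
import Vale.Agent.P002Punct.Cond

/-!
The three moves of representations (twists of a handle, mixing of neighbouring handles, mixing
with boundary matrices) and the splitting of the last handle.
-/

namespace P002Punct

open Matrix P002Surf

variable {g s n : ℕ} {R : Subring ℂ} {J : Fin s → Mat n}

theorem adj_adj_one {z : Mat n} (hz : z.det = 1) : z.adjugate.adjugate = z :=
  adj_eq_of_mul (det_adj_one hz) (adj_mul_one hz)

/-! ### twists -/

/-- Multiply one entry of handle `i`. -/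
def twistAct (i : Fin g) (side : Bool) (x : St g s n) (z : Mat n) : St g s n :=
  (Function.update x.1 i (cond side ((x.1 i).1, (x.1 i).2 * z) ((x.1 i).1 * z, (x.1 i).2)), x.2)

/-- The twist of handle `i`. -/
def twistMove (i : Fin g) (side : Bool) (R : Subring ℂ) (J : Fin s → Mat n) : Move g R J where
  key x := cond side (x.1 i).1 (x.1 i).2
  act := twistAct i side
  key_poly F hF := by
    obtain ⟨h1, h2⟩ := (polyS_iff.1 hF).1 i
    cases side
    · exact h2
    · exact h1
  act_poly F G hF hG := by
    obtain ⟨h1, h2⟩ := polyS_iff.1 hF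
    refine polyS_iff.2 ⟨fun k => ?_, h2⟩
    by_cases hk : k = i
    · subst hk
      cases side <;> simp only [twistAct, Function.update_self, cond_false, cond_true]
      · exact ⟨(h1 k).1.mul hG, (h1 k).2⟩
      · exact ⟨(h1 k).1, (h1 k).2.mul hG⟩
    · simpa only [twistAct, Function.update_of_ne hk] using h1 k
  key_det x hx := by
    cases side
    · exact (hx.1 i).2
    · exact (hx.1 i).1
  act_one x := by
    cases side <;> simp [twistAct]
  act_act x z w _ _ := by
    cases side <;> simp [twistAct, Matrix.mul_assoc]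
  key_act x z _ _ := by
    cases side <;> simp [twistAct]
  rep x z hx hz hc := by
    refine ⟨fun k => ?_, hx.2.1, ?_⟩
    · by_cases hk : k = i
      · subst hk
        cases side <;> simp [twistAct, SL1, Matrix.det_mul, hz, (hx.1 k).1, (hx.1 k).2]
      · simpa [twistAct, hk] using hx.1 k
    · have e : hprod (twistAct i side x z) = hprod x := by
        refine congrArg (fun f => (List.ofFn f).prod) (funext fun k => ?_)
        by_cases hk : k = i
        · subst hk
          cases side
          · simp only [twistAct, Function.update_self, cond_false]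
            exact cm_twistA hz (by simpa using hc)
          · simp only [twistAct, Function.update_self, cond_true]
            exact cm_twistB hz (by simpa using hc)
        · simp only [twistAct, Function.update_of_ne hk]
      rw [e]
      exact hx.2.2
  int_key x hx := by
    obtain ⟨h1, h2⟩ := (intSt_iff.1 hx).1 i
    cases side
    · exact h2
    · exact h1
  int_act x z hx hz := by
    obtain ⟨h1, h2⟩ := intSt_iff.1 hx
    refine intSt_iff.2 ⟨fun k => ?_, h2⟩
    by_cases hk : k = i
    · subst hk
      cases side <;> simp only [twistAct, Function.update_self, cond_false, cond_true]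
      · exact ⟨(h1 k).1.mul hz, (h1 k).2⟩
      · exact ⟨(h1 k).1, (h1 k).2.mul hz⟩
    · simpa only [twistAct, Function.update_of_ne hk] using h1 k

/-! ### mixing two handles -/

/-- Only the product of two neighbours matters. -/
theorem prod_pair_congr {M : Type} [Monoid M] {g : ℕ} (a : Fin g) {f f' : Fin (g + 1) → M}
    (h : ∀ k, k ≠ a.castSucc → k ≠ a.succ → f' k = f k)
    (h2 : f' a.castSucc * f' a.succ = f a.castSucc * f a.succ) :
    (List.ofFn f').prod = (List.ofFn f).prod := by
  induction g with
  | zero => exact a.elim0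
  | succ g ih =>
    simp only [List.ofFn_succ (f := f'), List.ofFn_succ (f := f), List.prod_cons]
    induction a using Fin.cases with
    | zero =>
      have e : ∀ k : Fin g, f' k.succ.succ = f k.succ.succ := fun k =>
        h _ (by simp [Fin.ext_iff]) (by simp [Fin.ext_iff])
      simp only [List.ofFn_succ, List.prod_cons, ← mul_assoc, e]
      rw [show f' 0 * f' (Fin.succ 0) = f 0 * f (Fin.succ 0) by simpa using h2]
    | succ b =>
      rw [h 0 (by simp [Fin.ext_iff]) (by simp [Fin.ext_iff])]
      congr 1
      exact ih b (fun k hk1 hk2 => h k.succ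
        (fun e => hk1 (Fin.succ_injective _
          (e.trans (show b.succ.castSucc = b.castSucc.succ from Fin.ext rfl))))
        (fun e => hk2 (Fin.succ_injective _ e)))
        (by rw [show b.castSucc.succ = b.succ.castSucc from Fin.ext rfl]; exact h2)

theorem cm_mix {A B A₂ B₂ z : Mat n} (hz : z.det = 1)
    (hc : B.adjugate * A₂ * z = z * (B.adjugate * A₂)) :
    cm (A * z, z.adjugate * B * z) * cm (z.adjugate * A₂ * z, B₂ * z) = cm (A, B) * cm (A₂, B₂) := by
  have c1 : ∀ X : Mat n, z * (z.adjugate * X) = X := fun X => by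
    rw [← Matrix.mul_assoc, mul_adj_one hz, Matrix.one_mul]
  have hc' : ∀ X : Mat n, B.adjugate * (A₂ * (z * X)) = z * (B.adjugate * (A₂ * X)) := fun X => by
    simp only [← Matrix.mul_assoc]
    rw [hc]
    simp only [Matrix.mul_assoc]
  simp only [cm, Matrix.adjugate_mul_distrib, adj_adj_one hz, Matrix.mul_assoc, c1]
  have c2 : ∀ X : Mat n, z.adjugate * (z * X) = X := fun X => by
    rw [← Matrix.mul_assoc, adj_mul_one hz, Matrix.one_mul]
  simp only [hc', c2]

/-- Conjugate across two neighbouring handles. -/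
def mixAct (a : Fin g) (x : St (g + 1) s n) (z : Mat n) : St (g + 1) s n :=
  (Function.update
      (Function.update x.1 a.castSucc
        ((x.1 a.castSucc).1 * z, z.adjugate * (x.1 a.castSucc).2 * z))
      a.succ (z.adjugate * (x.1 a.succ).1 * z, (x.1 a.succ).2 * z), x.2)

theorem mixAct_succ (a : Fin g) (x : St (g + 1) s n) (z : Mat n) :
    (mixAct a x z).1 a.succ = (z.adjugate * (x.1 a.succ).1 * z, (x.1 a.succ).2 * z) := by
  simp [mixAct]

theorem mixAct_castSucc (a : Fin g) (x : St (g + 1) s n) (z : Mat n) :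
    (mixAct a x z).1 a.castSucc = ((x.1 a.castSucc).1 * z, z.adjugate * (x.1 a.castSucc).2 * z) := by
  simp [mixAct, Function.update_of_ne Fin.castSucc_lt_succ.ne]

theorem mixAct_other (a : Fin g) (x : St (g + 1) s n) (z : Mat n) {k : Fin (g + 1)}
    (h1 : k ≠ a.castSucc) (h2 : k ≠ a.succ) : (mixAct a x z).1 k = x.1 k := by
  simp [mixAct, h1, h2]

theorem forall_mix {P : Fin (g + 1) → Prop} (a : Fin g) (h1 : P a.castSucc) (h2 : P a.succ)
    (h3 : ∀ k, k ≠ a.castSucc → k ≠ a.succ → P k) (k : Fin (g + 1)) : P k := by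
  by_cases hk1 : k = a.castSucc
  · exact hk1 ▸ h1
  by_cases hk2 : k = a.succ
  · exact hk2 ▸ h2
  exact h3 k hk1 hk2

/-- The mixing of handles `a` and `a + 1`. -/
def mixMove (a : Fin g) (R : Subring ℂ) (J : Fin s → Mat n) : Move (g + 1) R J where
  key x := mixKey (x.1 a.castSucc) (x.1 a.succ)
  act := mixAct a
  key_poly F hF :=
    ((polyS_iff.1 hF).1 a.castSucc).2.adjugate.mul ((polyS_iff.1 hF).1 a.succ).1
  act_poly F G hF hG := by
    obtain ⟨h1, h2⟩ := polyS_iff.1 hF
    refine polyS_iff.2 ⟨forall_mix a ?_ ?_ fun k hk1 hk2 => ?_, h2⟩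
    · simp only [mixAct_castSucc]
      exact ⟨(h1 _).1.mul hG, (hG.adjugate.mul (h1 _).2).mul hG⟩
    · simp only [mixAct_succ]
      exact ⟨(hG.adjugate.mul (h1 _).1).mul hG, (h1 _).2.mul hG⟩
    · simp only [mixAct_other a _ _ hk1 hk2]
      exact h1 k
  key_det x hx := by
    simp [mixKey, Matrix.det_mul, det_adj_one (hx.1 _).2, (hx.1 _).1]
  act_one x := by
    refine Prod.ext (funext (forall_mix a ?_ ?_ fun k hk1 hk2 => ?_)) rfl
    · simp [mixAct_castSucc]
    · simp [mixAct_succ]
    · exact mixAct_other a x 1 hk1 hk2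
  act_act x z w _ _ := by
    refine Prod.ext (funext (forall_mix a ?_ ?_ fun k hk1 hk2 => ?_)) rfl
    · simp [mixAct_castSucc, Matrix.adjugate_mul_distrib, Matrix.mul_assoc]
    · simp [mixAct_succ, Matrix.adjugate_mul_distrib, Matrix.mul_assoc]
    · simp [mixAct_other a _ _ hk1 hk2]
  key_act x z hz hc := by
    simp only [mixKey, mixAct_castSucc, mixAct_succ, Matrix.adjugate_mul_distrib,
      adj_adj_one hz] at hc ⊢
    simp only [Matrix.mul_assoc] at hc ⊢
    rw [← Matrix.mul_assoc z z.adjugate, mul_adj_one hz, Matrix.one_mul, hc, ← Matrix.mul_assoc,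
      adj_mul_one hz, Matrix.one_mul]
  rep x z hx hz hc := by
    refine ⟨forall_mix a ?_ ?_ fun k hk1 hk2 => ?_, hx.2.1, ?_⟩
    · simp [mixAct_castSucc, SL1, Matrix.det_mul, hz, det_adj_one hz, (hx.1 _).1, (hx.1 _).2]
    · simp [mixAct_succ, SL1, Matrix.det_mul, hz, det_adj_one hz, (hx.1 _).1, (hx.1 _).2]
    · rw [mixAct_other a x z hk1 hk2]
      exact hx.1 k
    · have e : hprod (mixAct a x z) = hprod x := by
        refine prod_pair_congr a (fun k hk1 hk2 => ?_) ?_
        · show cm ((mixAct a x z).1 k) = cm (x.1 k)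
          rw [mixAct_other a x z hk1 hk2]
        · show cm ((mixAct a x z).1 a.castSucc) * cm ((mixAct a x z).1 a.succ) = _
          rw [mixAct_castSucc, mixAct_succ]
          exact cm_mix hz hc
      rw [e]
      exact hx.2.2
  int_key x hx := ((intSt_iff.1 hx).1 a.castSucc).2.adjugate.mul ((intSt_iff.1 hx).1 a.succ).1
  int_act x z hx hz := by
    obtain ⟨h1, h2⟩ := intSt_iff.1 hx
    refine intSt_iff.2 ⟨forall_mix a ?_ ?_ fun k hk1 hk2 => ?_, h2⟩
    · simp only [mixAct_castSucc]
      exact ⟨(h1 _).1.mul hz, (hz.adjugate.mul (h1 _).2).mul hz⟩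
    · simp only [mixAct_succ]
      exact ⟨(hz.adjugate.mul (h1 _).1).mul hz, (h1 _).2.mul hz⟩
    · simp only [mixAct_other a _ _ hk1 hk2]
      exact h1 k

/-! ### mixing with the boundary -/

/-- Conjugate the last handle and the first boundary matrices. -/
def bdAct (j : Fin s) (x : St (g + 1) s n) (z : Mat n) : St (g + 1) s n :=
  (Function.update x.1 (Fin.last g)
      ((x.1 (Fin.last g)).1 * z, z.adjugate * (x.1 (Fin.last g)).2 * z),
    fun k => if k ≤ j then z.adjugate * x.2 k else x.2 k)

theorem take_conj {f f' : Fin s → Mat n} {z : Mat n} (hz : z.det = 1) (j : Fin s)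
    (h : ∀ k, k ≤ j → f' k = z.adjugate * f k * z) : ∀ m, m ≤ (j : ℕ) + 1 →
    ((List.ofFn f').take m).prod = z.adjugate * ((List.ofFn f).take m).prod * z := by
  intro m
  induction m with
  | zero => intro _; simp [adj_mul_one hz]
  | succ m ih =>
    intro hm
    have hms : m < s := by omega
    rw [List.prod_take_succ _ m (by simpa using hms), List.prod_take_succ _ m (by simpa using hms),
      ih (by omega), List.getElem_ofFn, List.getElem_ofFn,
      h ⟨m, hms⟩ (Fin.le_def.2 (show m ≤ (j : ℕ) by omega))]
    simp only [Matrix.mul_assoc]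
    rw [← Matrix.mul_assoc z z.adjugate, mul_adj_one hz, Matrix.one_mul]

theorem bd_conj {M h z : Mat n} (hz : z.det = 1) :
    bd M (z.adjugate * h) = z.adjugate * bd M h * z := by
  simp only [bd, Matrix.adjugate_mul_distrib, adj_adj_one hz, Matrix.mul_assoc]

theorem bdPre_act (j : Fin s) (x : St (g + 1) s n) {z : Mat n} (hz : z.det = 1) :
    bdPre J (bdAct j x z) j = z.adjugate * bdPre J x j * z := by
  refine take_conj hz j (fun k hk => ?_) _ le_rfl
  simp only [bdAct, if_pos hk]
  exact bd_conj hz

theorem bdPre_eq_map (j : Fin s) (x : St (g + 1) s n) :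
    bdPre J x j = (((List.finRange s).take ((j : ℕ) + 1)).map fun k => bd (J k) (x.2 k)).prod := by
  rw [bdPre, bdList, List.ofFn_eq_map, List.map_take]

/-- The mixing of the last handle with the boundary matrices up to `j`. -/
def bdMove (j : Fin s) (R : Subring ℂ) (J : Fin s → Mat n) (hJd : ∀ k, (J k).det = 1)
    (hJR : ∀ k, IntM R (J k)) : Move (g + 1) R J where
  key x := (x.1 (Fin.last g)).2.adjugate * bdPre J x j
  act := bdAct j
  key_poly F hF := by
    obtain ⟨h1, h2⟩ := polyS_iff.1 hF
    refine (h1 _).2.adjugate.mul ?_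
    simp only [bdPre_eq_map]
    exact polyM_list_prod _ fun k => ((h2 k).mul (polyM_const _)).mul (h2 k).adjugate
  act_poly F G hF hG := by
    obtain ⟨h1, h2⟩ := polyS_iff.1 hF
    refine polyS_iff.2 ⟨fun k => ?_, fun k => ?_⟩
    · by_cases hk : k = Fin.last g
      · subst hk
        simp only [bdAct, Function.update_self]
        exact ⟨(h1 _).1.mul hG, (hG.adjugate.mul (h1 _).2).mul hG⟩
      · simp only [bdAct, Function.update_of_ne hk]
        exact h1 k
    · by_cases hk : k ≤ j
      · simp only [bdAct, if_pos hk]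
        exact hG.adjugate.mul (h2 k)
      · simp only [bdAct, if_neg hk]
        exact h2 k
  key_det x hx := by
    rw [Matrix.det_mul, det_adj_one (hx.1 _).2, one_mul, bdPre_eq_map]
    refine List.prod_induction (fun A : Mat n => A.det = 1)
      (fun A B ha hb => by rw [det_mul, ha, hb, mul_one]) det_one fun A hA => ?_
    obtain ⟨k, -, rfl⟩ := List.mem_map.1 hA
    simp [bd, Matrix.det_mul, hJd k, hx.2.1 k, det_adj_one (hx.2.1 k)]
  act_one x := by
    refine Prod.ext ?_ (funext fun k => ?_)
    · simp [bdAct]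
    · simp [bdAct]
  act_act x z w _ _ := by
    refine Prod.ext ?_ (funext fun k => ?_)
    · simp [bdAct, Matrix.adjugate_mul_distrib, Matrix.mul_assoc]
    · by_cases hk : k ≤ j <;> simp [bdAct, hk, Matrix.adjugate_mul_distrib, Matrix.mul_assoc]
  key_act x z hz hc := by
    rw [bdPre_act j x hz]
    simp only [bdAct, Function.update_self, Matrix.adjugate_mul_distrib, adj_adj_one hz]
    simp only [Matrix.mul_assoc] at hc ⊢
    rw [← Matrix.mul_assoc z z.adjugate, mul_adj_one hz, Matrix.one_mul, hc, ← Matrix.mul_assoc,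
      adj_mul_one hz, Matrix.one_mul]
  rep x z hx hz hc := by
    refine ⟨fun k => ?_, fun k => ?_, ?_⟩
    · by_cases hk : k = Fin.last g
      · subst hk
        simp [bdAct, SL1, Matrix.det_mul, hz, det_adj_one hz, (hx.1 _).1, (hx.1 _).2]
      · simpa [bdAct, hk] using hx.1 k
    · by_cases hk : k ≤ j <;> simp [bdAct, hk, Matrix.det_mul, det_adj_one hz, hx.2.1 k]
    · have hd : (bdList J (bdAct j x z)).drop ((j : ℕ) + 1) = (bdList J x).drop ((j : ℕ) + 1) := by
        refine List.ext_getElem (by simp [bdList]) fun i h1 h2 => ?_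
        simp only [bdList, List.getElem_drop, List.getElem_ofFn, bdAct]
        rw [if_neg]
        simp only [Fin.le_def]
        omega
      have e := hx.2.2
      rw [← List.prod_take_mul_prod_drop (bdList J x) ((j : ℕ) + 1)] at e
      rw [← List.prod_take_mul_prod_drop (bdList J (bdAct j x z)) ((j : ℕ) + 1), hd]
      have hp := bdPre_act (J := J) j x hz
      simp only [bdPre] at hp hc
      rw [hp]
      simp only [hprod, List.ofFn_succ' (f := fun i => cm ((bdAct j x z).1 i)),
        List.ofFn_succ' (f := fun i => cm (x.1 i)), List.prod_concat] at e ⊢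
      have e1 : ∀ i : Fin g, (bdAct j x z).1 i.castSucc = x.1 i.castSucc := fun i => by
        simp [bdAct, (Fin.castSucc_lt_last i).ne]
      simp only [e1]
      simp only [bdAct, Function.update_self, cm, Matrix.adjugate_mul_distrib,
        adj_adj_one hz, Matrix.mul_assoc] at e hc ⊢
      have c1 : ∀ X : Mat n, z * (z.adjugate * X) = X := fun X => by
        rw [← Matrix.mul_assoc, mul_adj_one hz, Matrix.one_mul]
      have c2 : ∀ X : Mat n, z.adjugate * (z * X) = X := fun X => by
        rw [← Matrix.mul_assoc, adj_mul_one hz, Matrix.one_mul]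
      have hc' : ∀ X : Mat n, (x.1 (Fin.last g)).2.adjugate *
          (((bdList J x).take ((j : ℕ) + 1)).prod * (z * X)) =
          z * ((x.1 (Fin.last g)).2.adjugate * (((bdList J x).take ((j : ℕ) + 1)).prod * X)) :=
        fun X => by
          have := congrArg (· * X) hc
          simpa only [Matrix.mul_assoc] using this
      simp only [c1, hc', c2]
      exact e
  int_key x hx := by
    obtain ⟨h1, h2⟩ := intSt_iff.1 hx
    refine (h1 _).2.adjugate.mul (intM_list_prod fun A hA => ?_)
    obtain ⟨k, rfl⟩ := List.mem_ofFn.1 (List.mem_of_mem_take hA)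
    exact ((h2 k).mul (hJR k)).mul (h2 k).adjugate
  int_act x z hx hz := by
    obtain ⟨h1, h2⟩ := intSt_iff.1 hx
    refine intSt_iff.2 ⟨fun k => ?_, fun k => ?_⟩
    · by_cases hk : k = Fin.last g
      · subst hk
        simp only [bdAct, Function.update_self]
        exact ⟨(h1 _).1.mul hz, (hz.adjugate.mul (h1 _).2).mul hz⟩
      · simp only [bdAct, Function.update_of_ne hk]
        exact h1 k
    · by_cases hk : k ≤ j
      · simp only [bdAct, if_pos hk]
        exact hz.adjugate.mul (h2 k)
      · simp only [bdAct, if_neg hk]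
        exact h2 k

/-! ### splitting -/

/-- Split the last handle of a state, keeping the conjugators. -/
def splitSt (W : Mat n) (x : St (g + 1) s n) : St (g + 2) s n := (P002Surf.split W x.1, x.2)

theorem polyS_splitSt {σ : Type} {F : (σ → ℂ) → St (g + 1) s n} {G : (σ → ℂ) → Mat n}
    (hF : PolyS F) (hG : PolyM G) : PolyS fun v => splitSt (G v) (F v) := by
  obtain ⟨h1, h2⟩ := polyS_iff.1 hF
  have hB := (h1 (Fin.last g)).2.mul hG.adjugate
  refine polyS_iff.2 ⟨fun k => ?_, h2⟩
  refine Fin.lastCases ?_ (fun k => ?_) k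
  · simp only [splitSt, P002Surf.split, Fin.snoc_last]
    exact ⟨(hB.mul (h1 _).1).mul hB.adjugate, (hB.mul hG).mul hB.adjugate⟩
  · refine Fin.lastCases ?_ (fun k => ?_) k
    · simp only [splitSt, P002Surf.split, Fin.snoc_castSucc, Fin.snoc_last]
      exact ⟨(h1 _).1, hB⟩
    · simp only [splitSt, P002Surf.split, Fin.snoc_castSucc]
      exact h1 k.castSucc

theorem prep_splitSt {W : Mat n} (hW : W.det = 1) {x : St (g + 1) s n} (hx : PRep J x) :
    PRep J (splitSt W x) := by
  obtain ⟨h1, h2⟩ := hx.1 (Fin.last g)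
  have hB : ((x.1 (Fin.last g)).2 * W.adjugate).det = 1 := by simp [h2, hW, det_adj_one]
  refine ⟨fun k => ?_, hx.2.1, ?_⟩
  · refine Fin.lastCases ?_ (fun k => ?_) k
    · simp [splitSt, P002Surf.split, SL1, hW, h1, h2, Matrix.det_mul, det_adj_one]
    · refine Fin.lastCases ?_ (fun k => ?_) k
      · simp [splitSt, P002Surf.split, SL1, hW, h1, h2, Matrix.det_mul, det_adj_one]
      · simpa [splitSt, P002Surf.split] using hx.1 k.castSucc
  · have e : hprod (splitSt W x) = hprod x := by
      simp only [hprod, splitSt]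
      rw [List.ofFn_succ', List.prod_concat, List.ofFn_succ', List.prod_concat, Matrix.mul_assoc,
        List.ofFn_succ', List.prod_concat]
      simp only [P002Surf.split, Fin.snoc_castSucc, Fin.snoc_last]
      rw [cm_split h1 hB hW, Matrix.mul_assoc (x.1 (Fin.last g)).2, adj_mul_one hW, Matrix.mul_one]
    rw [e]
    exact hx.2.2

theorem intSt_splitSt {W : Mat n} (hW : IntM R W) {x : St (g + 1) s n} (hx : IntSt R x) :
    IntSt R (splitSt W x) := by
  obtain ⟨h1, h2⟩ := intSt_iff.1 hx
  have hB := (h1 (Fin.last g)).2.mul hW.adjugate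
  refine intSt_iff.2 ⟨fun k => ?_, h2⟩
  refine Fin.lastCases ?_ (fun k => ?_) k
  · simp only [splitSt, P002Surf.split, Fin.snoc_last]
    exact ⟨(hB.mul (h1 _).1).mul hB.adjugate, (hB.mul hW).mul hB.adjugate⟩
  · refine Fin.lastCases ?_ (fun k => ?_) k
    · simp only [splitSt, P002Surf.split, Fin.snoc_castSucc, Fin.snoc_last]
      exact ⟨(h1 _).1, hB⟩
    · simp only [splitSt, P002Surf.split, Fin.snoc_castSucc]
      exact h1 k.castSucc

/-- Splitting by any matrix of determinant one preserves the closure. -/
theorem zd_split {x : St (g + 1) s n} (hx : Zd R J x) {W : Mat n} (hW : W.det = 1) :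
    Zd R J (splitSt W x) := by
  intro p hp
  let X : (Fin 1 × Fin n × Fin n → ℂ) → Mat n := fun v => Matrix.of fun r c => v (0, r, c)
  choose T hT using polyS_splitSt (G := X) (polyS_const x) (fun r c => polyF_coord (0, r, c))
  have key : ∀ v : Fin 1 × Fin n × Fin n → ℂ,
      MvPolynomial.eval v (MvPolynomial.aeval T p) =
        MvPolynomial.eval (sev (splitSt (X v) x)) p := by
    intro v
    rw [eval_subst]
    congr 2
    funext w
    exact (hT w v).symm
  have h := slz (MvPolynomial.aeval T p) (fun a ha => by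
    rw [key]
    have hz := zd_map (R := R) (J := J) (J' := J)
      (F := fun v => splitSt ((a 0).map fun z : ℤ => (z : ℂ)) (unev v))
      (polyS_splitSt polyS_unev (polyM_const _)) (fun b hb hb' => by
        rw [unev_sev]
        refine ⟨prep_splitSt ?_ hb, intSt_splitSt (fun r c => intCast_mem R _) hb'⟩
        have e := (Int.castRingHom ℂ).map_det (a 0)
        rw [ha 0, map_one] at e
        exact e.symm) hx
    rw [unev_sev] at hz
    exact hz p hp) (fun _ => W) (fun _ => hW)
  rw [key] at h
  exact h

end P002Punct
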