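import Vale.Agent.P002Punct.Cond
import Vale.Agent.P002Punct.Lines
import Vale.Agent.P002Punct.Poly
import Vale.Agent.P002Punct.Moves
import Vale.Agent.P002Surf.Section

/-!
Splitting the last handle of a generic representation gives a generic one in the next genus.
-/

namespace P002Punct

open Matrix Filter Topology P002Surf

open scoped Matrix.Norms.Operator

variable {g s n : ℕ}

/-! ### eigenbases -/

theorem inv_mul_of_det {B P : Mat n} (hB : B.det = 1) : (B * P)⁻¹ = P⁻¹ * B.adjugate := by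
  rw [Matrix.mul_inv_rev, inv_eq_adj hB]

theorem DiagBy.conjBy {A P B : Mat n} {μ : Fin n → ℂ} (h : DiagBy A P μ) (hB : B.det = 1) :
    DiagBy (B * A * B.adjugate) (B * P) μ :=
  ⟨by rw [Matrix.det_mul, hB, one_mul]; exact h.1, h.2.1, by
    rw [inv_mul_of_det hB, h.2.2]; simp only [Matrix.mul_assoc]⟩

theorem indep_conjBy {A B : Mat n} (h : Indep A) (hB : B.det = 1) :
    Indep (B * A * B.adjugate) := by
  obtain ⟨P, μ, hd, hμ⟩ := h
  exact ⟨B * P, μ, DiagBy.conjBy hd hB, hμ⟩

theorem inj_of_indep {P : Mat n} (hP : P.det ≠ 0) {d : Fin n → ℂ}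
    (h : Indep (P * diagonal d * P⁻¹)) : Function.Injective d := by
  have hc : (P * diagonal d * P⁻¹).charpoly = ∏ i, (Polynomial.X - Polynomial.C (d i)) :=
    (Matrix.charpoly_units_conj (Matrix.nonsingInvUnit P (isUnit_det_of_ne hP)) (diagonal d)).trans
      (charpoly_diagonal d)
  have h0 := Gen.of_indep h none
  rw [genFun, symFun_eq _ _ hc] at h0
  simp only [genPoly, discPoly, map_prod, map_sub, MvPolynomial.eval_X] at h0
  intro a b hab
  by_contra hne
  exact Finset.prod_ne_zero_iff.1 h0 (a, b) (by simp [Finset.mem_offDiag, hne]) (sub_eq_zero.2 hab)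

theorem triple_diag_conj {A : Mat n} (h : Triple A) {d : Fin n → ℂ} (hd : ∀ i, d i ≠ 0) :
    Triple (diagonal d * A * diagonal fun i => (d i)⁻¹) := by
  have e : ∀ i j, (diagonal d * A * diagonal fun i => (d i)⁻¹) i j = d i * A i j * (d j)⁻¹ :=
    fun i j => by rw [Matrix.mul_diagonal, Matrix.diagonal_mul]
  refine ⟨fun i j => ?_, fun i j k hij hjk hik he => h.2 i j k hij hjk hik ?_⟩
  · rw [e]; exact mul_ne_zero (mul_ne_zero (hd i) (h.1 i j)) (inv_ne_zero (hd j))
  · simp only [e] at he
    have hi := hd i; have hj := hd j; have hk := hd k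
    field_simp at he
    linear_combination he

theorem tripleFun_ne_iff {A : Mat n} : tripleFun A ≠ 0 ↔ Triple A := by
  refine ⟨tripleFun_ne, fun h => ?_⟩
  simp only [tripleFun, mul_ne_zero_iff, Finset.prod_ne_zero_iff, Finset.mem_univ, forall_true_left,
    Subtype.forall, Prod.forall, sub_ne_zero, and_imp]
  exact h

/-! ### differentiability -/

theorem contDiff_det_sub {m : Type} [Fintype m] [DecidableEq m] (r c : m → Fin n) :
    ContDiff ℂ 1 fun M : Mat n => (M.submatrix r c).det := by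
  simp only [Matrix.det_apply', Matrix.submatrix_apply]
  exact ContDiff.sum fun σ _ => contDiff_const.mul (contDiff_prod fun k _ => contDiff_entry _ _)

theorem contDiff_nondegFun : ContDiff ℂ 1 (nondegFun (n := n)) := by
  refine ContDiff.mul (contDiff_prod fun j _ => contDiff_det_sub _ _) (contDiff_prod fun j _ => ?_)
  by_cases h : (j : ℕ) + 1 < n
  · simp only [dif_pos h]; exact contDiff_det_sub _ _
  · simp only [dif_neg h]; exact contDiff_const

theorem contDiff_tripleFun : ContDiff ℂ 1 (tripleFun (n := n)) := by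
  refine ContDiff.mul (contDiff_prod fun q _ => contDiff_entry _ _) (contDiff_prod fun q _ => ?_)
  exact (((contDiff_entry _ _).mul (contDiff_entry _ _)).mul (contDiff_entry _ _)).sub
    (((contDiff_entry _ _).mul (contDiff_entry _ _)).mul (contDiff_entry _ _))

theorem contDiff_trace : ContDiff ℂ 1 fun M : Mat n => M.trace :=
  ContDiff.sum fun i _ => contDiff_entry i i

theorem contDiff_cm₂ {G H : Mat n → Mat n} (hG : ContDiff ℂ 1 G) (hH : ContDiff ℂ 1 H) :
    ContDiff ℂ 1 fun W => cm (G W, H W) :=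
  contDiff_cm.comp (hG.prodMk hH)

/-! ### countable exceptions along a segment -/

theorem countable_zero {Q : Mat n} {G : Mat n → ℂ} (hG : ContDiff ℂ 1 G) {t₀ : ℂ}
    (h0 : t₀ ∈ segOk Q) (h : G (zseg Q t₀) ≠ 0) :
    ((segOk Q)ᶜ ∪ {t | t ∈ segOk Q ∧ G (zseg Q t) = 0}).Countable := by
  refine (countable_compl_segOk Q).union ?_
  set f := fun t => G (zseg Q t) with hf
  have hd : DifferentiableOn ℂ f (segOk Q) := fun t ht =>
    ((hG.contDiffAt.comp t (contDiffAt_zseg ht)).differentiableAt one_ne_zero).differentiableWithinAt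
  have han : AnalyticOnNhd ℂ f (segOk Q) := hd.analyticOnNhd (isOpen_segOk Q)
  have hc := isPreconnected_of_countable_compl (U := segOk Q) (countable_compl_segOk Q)
  have hiso : ∀ t ∈ segOk Q, ∀ᶠ u in 𝓝[≠] t, f u ≠ 0 := fun t ht => by
    refine (han t ht).eventually_eq_zero_or_eventually_ne_zero.resolve_left fun hz => h ?_
    exact han.eqOn_zero_of_preconnected_of_eventuallyEq_zero hc ht hz h0
  have hdisc : IsDiscrete {t | t ∈ segOk Q ∧ f t = 0} := by
    rw [isDiscrete_iff_nhdsNE]
    rintro t ⟨ht, -⟩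
    rw [inf_principal_eq_bot]
    filter_upwards [hiso t ht] with u hu h
    exact hu h.2
  exact (HereditarilyLindelofSpace.isLindelof _).countable hdisc.to_subtype

theorem countable_indep {Q : Mat n} {G : Mat n → Mat n} (hG : ContDiff ℂ 1 G)
    (hdet : ∀ W : Mat n, W.det = 1 → (G W).det = 1) {t₀ : ℂ} (h0 : t₀ ∈ segOk Q)
    (hi : Indep (G (zseg Q t₀))) :
    ((segOk Q)ᶜ ∪ {t | t ∈ segOk Q ∧ ¬ Indep (G (zseg Q t))}).Countable :=
  countable_bad (fun t ht => hG.contDiffAt.comp t (contDiffAt_zseg ht))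
    (fun t ht => hdet _ (det_zseg ht)) h0 hi

/-! ### the witness -/

theorem det_bdPre {J : Fin s → Mat n} (hJd : ∀ j, (J j).det = 1) {x : St g s n}
    (hh : ∀ j, (x.2 j).det = 1) (j : Fin s) : (bdPre J x j).det = 1 := by
  refine det_list_prod fun M hM => ?_
  obtain ⟨k, rfl⟩ := List.mem_ofFn.1 (List.mem_of_mem_take hM)
  simp [bd, Matrix.det_mul, hJd k, hh k, det_adj_one (hh k)]

/-- The new handles along the torus of the last second entry are generic at some parameter. -/
theorem exists_split_handles {J : Fin s → Mat n} (hJd : ∀ j, (J j).det = 1) {x : St (g + 1) s n}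
    (hx : Generic J x) :
    ∃ W : Mat n, W.det = 1 ∧ ∀ A B : Mat n, A = (x.1 (Fin.last g)).1 →
      B = (x.1 (Fin.last g)).2 * W.adjugate →
      B * W = W * B ∧ Hy1 (A, B) ∧ Hy1 (B * A * B.adjugate, W) ∧
      Indep (B.adjugate * (B * A * B.adjugate)) ∧
      ∀ j, ((bdPre J x j).adjugate * (cm (B * A * B.adjugate, W)).adjugate).trace ≠
          (bdPre J x j).adjugate.trace ∧ Indep (W.adjugate * bdPre J x j) := by
  obtain ⟨hrep, hy1, hmix, hbd⟩ := hx
  obtain ⟨⟨hA, hX⟩, hgood, hG0, hG0s, hiA, hiX, htr⟩ := hy1 (Fin.last g)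
  set A := (x.1 (Fin.last g)).1 with hAdef
  set X := (x.1 (Fin.last g)).2 with hXdef
  obtain ⟨P, μ, hPX, hTA⟩ := hG0
  obtain ⟨P', ν, hQA, hTX⟩ := hG0s
  obtain ⟨V, d, hVA, hNX⟩ := hgood
  simp only [Prod.fst_swap, Prod.snd_swap] at hQA hTX
  rw [← hXdef] at hPX hTX hNX
  rw [← hAdef] at hTA hQA hVA
  obtain ⟨p, hpd, hpX⟩ := exists_root hPX hX rfl
  set Q := Polynomial.aeval X p with hQ
  have h0 := zero_mem_segOk Q
  have h1 : (1 : ℂ) ∈ segOk Q := one_mem_segOk hpd
  have hz0 : zseg Q 0 = 1 := zseg_zero Q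
  have hz1 : zseg Q 1 = X := by rw [zseg_one]; exact hpX
  have gB : ContDiff ℂ 1 fun W : Mat n => X * W.adjugate := contDiff_const.mul contDiff_adjugate
  have hB0 : X * (zseg Q 0).adjugate = X := by rw [hz0, Matrix.adjugate_one, Matrix.mul_one]
  have hB1 : X * (zseg Q 1).adjugate = 1 := by rw [hz1, mul_adj_one hX]
  have dB : ∀ W : Mat n, W.det = 1 → (X * W.adjugate).det = 1 := fun W hW => by
    rw [Matrix.det_mul, hX, det_adj_one hW, one_mul]
  -- exceptional sets
  have c1 := countable_indep (Q := Q) gB dB h0 (by rw [hB0]; exact hiX)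
  have c2 := countable_indep (Q := Q) (G := id) contDiff_id (fun W hW => hW) h1
    (by rw [id, hz1]; exact hiX)
  have c3 := countable_indep (Q := Q) (G := fun W => A * (X * W.adjugate).adjugate)
    (contDiff_const.mul (contDiff_adjugate.comp gB))
    (fun W hW => by rw [Matrix.det_mul, hA, det_adj_one (dB W hW), one_mul]) h1
    (by rw [hB1, Matrix.adjugate_one, Matrix.mul_one]; exact hiA)
  have hPd : ∀ j : Fin s, (bdPre J x j).det = 1 := det_bdPre hJd hrep.2.1
  have c4 := fun j : Fin s => countable_indep (Q := Q) (G := fun W => W.adjugate * bdPre J x j)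
    (contDiff_adjugate.mul contDiff_const)
    (fun W hW => by rw [Matrix.det_mul, det_adj_one hW, hPd j, one_mul]) h1
    (by rw [hz1]; exact (hbd j).2)
  have c5 := countable_zero (Q := Q) (G := fun W => nondegFun (V.adjugate * (X * W.adjugate) * V))
    (contDiff_nondegFun.comp ((contDiff_const.mul gB).mul contDiff_const)) h0
    (by rw [hB0]; exact (nondegFun_ne _).2 hNX)
  have c6 := countable_zero (Q := Q) (G := fun W => nondegFun (V.adjugate * W * V))
    (contDiff_nondegFun.comp ((contDiff_const.mul contDiff_id).mul contDiff_const)) h1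
    (by rw [hz1]; exact (nondegFun_ne _).2 hNX)
  have c7 := countable_zero (Q := Q) (G := fun W => tripleFun (P'⁻¹ * (X * W.adjugate) * P'))
    (contDiff_tripleFun.comp ((contDiff_const.mul gB).mul contDiff_const)) h0
    (by rw [hB0]; exact tripleFun_ne_iff.2 hTX)
  have c8 := countable_zero (Q := Q) (G := fun W => tripleFun (P'⁻¹ * W * P'))
    (contDiff_tripleFun.comp ((contDiff_const.mul contDiff_id).mul contDiff_const)) h1
    (by rw [hz1]; exact tripleFun_ne_iff.2 hTX)
  have gA : ContDiff ℂ 1 fun W : Mat n => X * W.adjugate * A * (X * W.adjugate).adjugate :=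
    (gB.mul contDiff_const).mul (contDiff_adjugate.comp gB)
  have c9 := countable_zero (Q := Q) (G := fun W => (cm (A, X * W.adjugate)).adjugate.trace - (n : ℂ))
    (((contDiff_trace.comp (contDiff_adjugate.comp (contDiff_cm₂ contDiff_const gB)))).sub
      contDiff_const) h0
    (by rw [hB0]; exact sub_ne_zero.2 htr)
  have c10 := countable_zero (Q := Q)
    (G := fun W => (cm (X * W.adjugate * A * (X * W.adjugate).adjugate, W)).adjugate.trace - (n : ℂ))
    ((contDiff_trace.comp (contDiff_adjugate.comp (contDiff_cm₂ gA contDiff_id))).sub contDiff_const)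
    h1 (by
      rw [hB1, hz1, Matrix.adjugate_one, Matrix.mul_one, Matrix.one_mul]
      exact sub_ne_zero.2 htr)
  have c11 := fun j : Fin s => countable_zero (Q := Q)
    (G := fun W => ((bdPre J x j).adjugate *
      (cm (X * W.adjugate * A * (X * W.adjugate).adjugate, W)).adjugate).trace -
        (bdPre J x j).adjugate.trace)
    ((contDiff_trace.comp (contDiff_const.mul
      (contDiff_adjugate.comp (contDiff_cm₂ gA contDiff_id)))).sub contDiff_const) h1 (by
      rw [hB1, hz1, Matrix.adjugate_one, Matrix.mul_one, Matrix.one_mul]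
      exact sub_ne_zero.2 (hbd j).1)
  obtain ⟨t, ht⟩ := ((((((((((c1.union c2).union c3).union (Set.countable_iUnion c4)).union c5).union
    c6).union c7).union c8).union c9).union c10).union (Set.countable_iUnion c11)).dense_compl ℂ
      |>.nonempty
  simp only [Set.mem_compl_iff, Set.mem_union, Set.mem_iUnion, not_or, not_exists,
    Set.mem_ofPred_eq, not_and, not_not] at ht
  obtain ⟨⟨⟨⟨⟨⟨⟨⟨⟨⟨e1, e2⟩, e3⟩, e4⟩, e5⟩, e6⟩, e7⟩, e8⟩, e9⟩, e10⟩, e11⟩ := ht
  have hok := e1.1
  set W := zseg Q t with hWdef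
  have hW : W.det = 1 := det_zseg hok
  have iB := e1.2 hok
  have iW : Indep W := e2.2 hok
  set B := X * W.adjugate with hBdef
  have hB : B.det = 1 := dB W hW
  have hXW : X * W = W * X := commute_zseg (commute_aeval p X) t
  have hXW' : X * W.adjugate = W.adjugate * X := by
    calc X * W.adjugate = W.adjugate * (W * X) * W.adjugate := by
          rw [← Matrix.mul_assoc, adj_mul_one hW, Matrix.one_mul]
      _ = W.adjugate * X := by
          rw [← hXW, ← Matrix.mul_assoc, Matrix.mul_assoc, mul_adj_one hW, Matrix.mul_one]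
  have hBW : B * W = W * B := by
    calc B * W = X := by rw [hBdef, Matrix.mul_assoc, adj_mul_one hW, Matrix.mul_one]
      _ = W * B := by
          rw [hBdef, hXW', ← Matrix.mul_assoc, mul_adj_one hW, Matrix.one_mul]
  have hBWB : B * W * B.adjugate = W := by
    rw [hBW, Matrix.mul_assoc, mul_adj_one hB, Matrix.mul_one]
  have hXB : X * B = B * X := by
    rw [hBdef, ← Matrix.mul_assoc, Matrix.mul_assoc X W.adjugate, ← hXW', Matrix.mul_assoc]
  obtain ⟨w, hw⟩ := commute_diag hPX hXW
  obtain ⟨b, hb⟩ := commute_diag hPX hXB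
  have hwi : Function.Injective w := inj_of_indep hPX.1 (by rw [← hw]; exact iW)
  have hbi : Function.Injective b := inj_of_indep hPX.1 (by rw [← hb]; exact iB)
  have hPu := isUnit_det_of_ne hPX.1
  have hDB : DiagBy B P b := ⟨hPX.1, hbi, hb⟩
  have hb0 : ∀ i, b i ≠ 0 := fun i hi => by
    have h := hDB.det
    rw [hB, Finset.prod_eq_zero (Finset.mem_univ i) hi] at h
    exact one_ne_zero h
  have hBi : B.adjugate = P * diagonal (fun i => (b i)⁻¹) * P⁻¹ := by
    refine adj_eq_of_mul hB ?_
    rw [hb]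
    simp only [Matrix.mul_assoc, Matrix.nonsing_inv_mul_cancel_left _ _ hPu]
    rw [← Matrix.mul_assoc (diagonal b), diagonal_mul_diagonal]
    simp [hb0, Matrix.mul_nonsing_inv P hPu]
  have hYa : Hy1 (A, B) := by
    refine ⟨⟨hA, hB⟩, ⟨V, d, hVA, (nondegFun_ne _).1 (e5.2 hok)⟩, ⟨P, b, hDB, hTA⟩,
      ⟨P', ν, hQA, tripleFun_ne (e7.2 hok)⟩, hiA, iB, sub_ne_zero.1 (e9.2 hok)⟩
  have hYb : Hy1 (B * A * B.adjugate, W) := by
    refine ⟨⟨by rw [Matrix.det_mul, Matrix.det_mul, hA, hB, det_adj_one hB, one_mul, one_mul], hW⟩,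
      ⟨B * V, d, DiagBy.conjBy hVA hB, ?_⟩, ⟨P, w, ⟨hPX.1, hwi, hw⟩, ?_⟩,
      ⟨B * P', ν, DiagBy.conjBy hQA hB, ?_⟩, indep_conjBy hiA hB, iW, sub_ne_zero.1 (e10.2 hok)⟩
    · have e : (B * V).adjugate * W * (B * V) = V.adjugate * W * V := by
        rw [Matrix.adjugate_mul_distrib]
        simp only [Matrix.mul_assoc]
        rw [← Matrix.mul_assoc W B, ← hBW, Matrix.mul_assoc B W, ← Matrix.mul_assoc B.adjugate B,
          adj_mul_one hB, Matrix.one_mul]
      exact e ▸ (nondegFun_ne _).1 (e6.2 hok)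
    · have e : P⁻¹ * (B * A * B.adjugate) * P =
          diagonal b * (P⁻¹ * A * P) * diagonal fun i => (b i)⁻¹ := by
        rw [hBi, hb]
        simp only [Matrix.mul_assoc, Matrix.nonsing_inv_mul_cancel_left _ _ hPu,
          Matrix.nonsing_inv_mul P hPu, Matrix.mul_one]
      exact e.symm ▸ triple_diag_conj hTA hb0
    · have e : (B * P')⁻¹ * W * (B * P') = P'⁻¹ * W * P' := by
        rw [inv_mul_of_det hB]
        simp only [Matrix.mul_assoc]
        rw [← Matrix.mul_assoc W B, ← hBW, Matrix.mul_assoc B W, ← Matrix.mul_assoc B.adjugate B,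
          adj_mul_one hB, Matrix.one_mul]
      show Triple ((B * P')⁻¹ * W * (B * P'))
      exact e.symm ▸ tripleFun_ne (e8.2 hok)
  refine ⟨W, hW, fun A' B' eA eB => ?_⟩
  subst eA eB
  exact ⟨hBW, hYa, hYb, by
    rw [Matrix.mul_assoc B A, ← Matrix.mul_assoc B.adjugate B, adj_mul_one hB, Matrix.one_mul]
    exact e3.2 hok, fun j => ⟨sub_ne_zero.1 ((e11 j).2 hok), (e4 j).2 hok⟩⟩

/-- A representation with the split handles is generic. -/
theorem generic_of_split {J : Fin s → Mat n} {x : St (g + 1) s n} (hx : Generic J x)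
    {y : St (g + 2) s n} {A B W : Mat n} (hA0 : A = (x.1 (Fin.last g)).1)
    (hB0 : B * W = (x.1 (Fin.last g)).2) (hW : W.det = 1) (hBW : B * W = W * B)
    (hYa : Hy1 (A, B)) (hYb : Hy1 (B * A * B.adjugate, W))
    (hAB : Indep (B.adjugate * (B * A * B.adjugate)))
    (hbd : ∀ j, ((bdPre J x j).adjugate * (cm (B * A * B.adjugate, W)).adjugate).trace ≠
      (bdPre J x j).adjugate.trace ∧ Indep (W.adjugate * bdPre J x j))
    (y2 : y.2 = x.2) (ya : y.1 (Fin.last g).castSucc = (A, B))
    (yb : y.1 (Fin.last (g + 1)) = (B * A * B.adjugate, W))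
    (yo : ∀ k : Fin g, y.1 k.castSucc.castSucc = x.1 k.castSucc) : Generic J y := by
  obtain ⟨hrep, hy1, hmix, -⟩ := hx
  have hA : A.det = 1 := hYa.1.1
  have hB : B.det = 1 := hYa.1.2
  have hBWB : B * W * B.adjugate = W := by
    rw [hBW, Matrix.mul_assoc, mul_adj_one hB, Matrix.mul_one]
  have hbp : ∀ j, bdPre J y j = bdPre J x j := fun j => by simp only [bdPre, bdList, y2]
  have y1 : ∀ l : Fin (g + 1), (y.1 l.castSucc).1 = (x.1 l).1 := fun l => by
    refine Fin.lastCases ?_ (fun k => ?_) l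
    · rw [ya, hA0]
    · rw [yo]
  refine ⟨⟨fun i => ?_, fun j => by rw [y2]; exact hrep.2.1 j, ?_⟩, fun i => ?_, fun i => ?_, fun j => ⟨?_, ?_⟩⟩
  · refine Fin.lastCases ?_ (fun l => ?_) i
    · rw [yb]; exact hYb.1
    · refine Fin.lastCases ?_ (fun k => ?_) l
      · rw [ya]; exact hYa.1
      · rw [yo]; exact hrep.1 _
  · have h := hrep.2.2
    have e : hprod y = hprod x := by
      simp only [hprod]
      rw [List.ofFn_succ', List.prod_concat, List.ofFn_succ', List.prod_concat,
        List.ofFn_succ', List.prod_concat, ya, yb, Matrix.mul_assoc]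
      simp only [yo]
      congr 1
      have e2 := cm_split hA hB hW
      rw [hBWB] at e2
      rw [e2, hA0, hB0]
    have e' : bdList J y = bdList J x := by simp only [bdList, y2]
    rw [e, e']
    exact h
  · refine Fin.lastCases ?_ (fun l => ?_) i
    · rw [yb]; exact hYb
    · refine Fin.lastCases ?_ (fun k => ?_) l
      · rw [ya]; exact hYa
      · rw [yo]; exact hy1 _
  · refine Fin.lastCases ?_ (fun k => ?_) i
    · rw [mixKey, ya, Fin.succ_last, yb]
      exact hAB
    · rw [mixKey, yo, Fin.succ_castSucc, y1]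
      exact hmix k
  · rw [hbp, yb]
    exact (hbd j).1
  · rw [hbp, yb]
    exact (hbd j).2


/-- Splitting the last handle along the torus of its second entry: a generic state stays generic
for a suitable parameter. -/
theorem exists_split_generic {J : Fin s → Mat n} (hJd : ∀ j, (J j).det = 1) {x : St (g + 1) s n}
    (hx : Generic J x) :
    ∃ W : Mat n, W.det = 1 ∧ Generic J ((P002Surf.split W x.1, x.2) : St (g + 2) s n) := by
  obtain ⟨W, hW, hh⟩ := exists_split_handles hJd hx
  set A := (x.1 (Fin.last g)).1 with hAdef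
  set B := (x.1 (Fin.last g)).2 * W.adjugate with hBdef
  obtain ⟨hBW, hYa, hYb, hAB, hbd⟩ := hh A B rfl rfl
  have hBWB : B * W * B.adjugate = W := by
    rw [hBW, Matrix.mul_assoc, mul_adj_one hYa.1.2, Matrix.mul_one]
  refine ⟨W, hW, generic_of_split hx hAdef ?_ hW hBW hYa hYb hAB hbd rfl ?_ ?_ ?_⟩
  · rw [hBdef, Matrix.mul_assoc, adj_mul_one hW, Matrix.mul_one]
  · simp only [P002Surf.split, Fin.snoc_castSucc, Fin.snoc_last, ← hAdef, ← hBdef]
  · simp only [P002Surf.split, Fin.snoc_last, ← hAdef, ← hBdef, hBWB]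
  · intro k
    simp only [P002Surf.split, Fin.snoc_castSucc]

/-- A generic state of the closure in one genus gives one in the next. -/
theorem exists_generic_succ {R : Subring ℂ} {J : Fin s → Mat n} (hJd : ∀ j, (J j).det = 1)
    {x : St (g + 1) s n} (hz : Zd R J x) (hx : Generic J x) :
    ∃ y : St (g + 2) s n, Zd R J y ∧ Generic J y := by
  obtain ⟨W, hW, hy⟩ := exists_split_generic hJd hx
  exact ⟨splitSt W x, zd_split hz hW, hy⟩

/-- A generic state of the closure in genus two gives one in every higher genus. -/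
theorem exists_generic_of_seed {R : Subring ℂ} {J : Fin s → Mat n} (hJd : ∀ j, (J j).det = 1)
    (h : ∃ x : St 2 s n, Zd R J x ∧ Generic (g := 1) J x) :
    ∀ k : ℕ, ∃ y : St (k + 2) s n, Zd R J y ∧ Generic (g := k + 1) J y
  | 0 => h
  | k + 1 => by
    obtain ⟨y, hz, hy⟩ := exists_generic_of_seed hJd h k
    exact exists_generic_succ hJd hz hy

end P002Punct
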