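import Vale.Agent.P002Punct.Span
import Vale.Agent.P002Punct.Witness
import Vale.Agent.P002Punct.Curve
import Vale.Agent.P002Punct.IrrAll

/-!
From one generic seed in genus two to all representations in every genus at least two.
-/

namespace P002Punct

open Matrix Filter Topology P002Surf

open scoped Matrix.Norms.Operator

variable {g s n : ℕ} {R : Subring ℂ} {J : Fin s → Mat n}

theorem acl_of_intM (hR : ∀ z ∈ R, z ∈ Vale.Agent.P002.Surface.acl (∅ : Set ℂ))
    (hJR : ∀ j, IntM R (J j)) :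
    ∀ j a b, J j a b ∈ Vale.Agent.P002.Surface.acl (∅ : Set ℂ) := fun j a b => hR _ (hJR j a b)

/-- A generic seed in genus two makes the integral representations dense in every higher genus. -/
theorem all_zd (hg : 2 ≤ g) (hn : 0 < n)
    (hR : ∀ z ∈ R, z ∈ Vale.Agent.P002.Surface.acl (∅ : Set ℂ))
    (hJd : ∀ j, (J j).det = 1) (hJR : ∀ j, IntM R (J j))
    (hseed : ∃ x : St 2 s n, Zd R J x ∧ Generic (g := 1) J x) :
    ∀ x : St g s n, PRep J x → Zd R J x := by
  obtain ⟨k, rfl⟩ : ∃ k, g = k + 2 := ⟨g - 2, by omega⟩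
  obtain ⟨x0, hz0, hx0⟩ := exists_generic_of_seed hJd hseed k
  refine zd_of_hy hg hR (acl_of_intM hR hJR) hJd hn fun x hx hH => ?_
  exact zd_of_nhds_good hJd hx0.1 (fun i => (hx0.2.1 i).2.1) (nhds_generic hn hJd hJR hx0 hz0) hx
    (fun i => (hH i).2.1)

/-- The same with irreducible integral representations only. -/
theorem all_eval_zero (hg : 2 ≤ g) (hn : 0 < n)
    (hR : ∀ z ∈ R, z ∈ Vale.Agent.P002.Surface.acl (∅ : Set ℂ))
    (hJd : ∀ j, (J j).det = 1) (hJR : ∀ j, IntM R (J j))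
    (hseed : ∃ x : St 2 s n, Zd R J x ∧ Generic (g := 1) J x) {p : MvPolynomial (Var g s n) ℂ}
    (hp : ∀ a : St g s n, PRep J a → IntSt R a → (∃ i, PairIrr (a.1 i)) →
      MvPolynomial.eval (sev a) p = 0)
    {x : St g s n} (hx : PRep J x) : MvPolynomial.eval (sev x) p = 0 :=
  eval_zero_all_of_irr hg hn hR (acl_of_intM hR hJR) hJd (all_zd hg hn hR hJd hJR hseed) hp hx

end P002Punct
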