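import Vale.Agent.P002Surf.Param

/-!
Functions that are rational along the coordinate lines of a box: identity theorem and generic
points for countable families.
-/

namespace P002Punct

open P002Surf Polynomial Filter Topology

variable {ι : Type}

/-- Rational along the segment between any two values of one coordinate. -/
def RatBox [DecidableEq ι] (W : ι → Set ℂ) (F : (ι → ℂ) → ℂ) : Prop :=
  ∀ x, (∀ v, x v ∈ W v) → ∀ a, ∀ c₀ ∈ W a, ∀ c₁ ∈ W a,
    RatOn fun s => F (Function.update x a ((1 - s) * c₀ + s * c₁))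

/-- A rational function of one variable which is nonzero at `0` has finitely many zeros. -/
theorem finite_zeros {f : ℂ → ℂ} (hf : RatOn f) (h : f 0 ≠ 0 ∨ f 1 ≠ 0) :
    {s | f s = 0}.Finite := by
  obtain ⟨p, q, a, b, e⟩ := hf
  have hp : p ≠ 0 := fun hp => by
    rcases h with h | h
    · exact h (by rw [e 0 a, hp, eval_zero, zero_div])
    · exact h (by rw [e 1 b, hp, eval_zero, zero_div])
  have hq : q ≠ 0 := fun hq => a (by rw [hq, eval_zero])
  refine ((Polynomial.finite_setOfPred_isRoot hp).union (Polynomial.finite_setOfPred_isRoot hq)).subset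
    fun s hs => ?_
  by_cases hqs : q.eval s = 0
  · exact Or.inr hqs
  · left
    have h1 : f s = 0 := hs
    rw [e s hqs, div_eq_zero_iff] at h1
    exact h1.resolve_right hqs

variable [DecidableEq ι] {W : ι → Set ℂ} {F : (ι → ℂ) → ℂ}

/-- If one value of a coordinate gives a nonzero value, all but finitely many do. -/
theorem finite_update_zeros (hF : RatBox W F) {x : ι → ℂ} (hx : ∀ v, x v ∈ W v) (a : ι)
    (h0 : F x ≠ 0) : {c | c ∈ W a ∧ F (Function.update x a c) = 0}.Finite := by
  rcases Set.eq_empty_or_nonempty {c | c ∈ W a ∧ F (Function.update x a c) = 0} with he | ⟨c₁, hc₁, hz⟩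
  · rw [he]; exact Set.finite_empty
  have hne : c₁ ≠ x a := fun he => h0 (by rw [he, Function.update_eq_self] at hz; exact hz)
  have hfin := finite_zeros (hF x hx a (x a) (hx a) c₁ hc₁)
    (Or.inl (by simpa [Function.update_eq_self] using h0))
  refine (hfin.image fun s => (1 - s) * x a + s * c₁).subset fun c hc => ?_
  refine ⟨(c - x a) / (c₁ - x a), ?_, ?_⟩
  · show F _ = 0
    convert hc.2 using 3
    field_simp [sub_ne_zero.2 hne]
    ring
  · show _ = c
    field_simp [sub_ne_zero.2 hne]
    ring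

/-- Identity theorem on a box with infinite grids. -/
theorem box_zero [Fintype ι] {S : ι → Set ℂ} (hF : RatBox W F) (hSW : ∀ v, S v ⊆ W v)
    (hS : ∀ v, (S v).Infinite) (h : ∀ x, (∀ v, x v ∈ S v) → F x = 0) {x : ι → ℂ}
    (hx : ∀ v, x v ∈ W v) : F x = 0 := by
  suffices key : ∀ (T : Finset ι) (x : ι → ℂ), (∀ v ∈ T, x v ∈ W v) → (∀ v ∉ T, x v ∈ S v) →
      F x = 0 from key Finset.univ x (fun v _ => hx v) (fun v hv => absurd (Finset.mem_univ v) hv)
  intro T
  induction T using Finset.induction_on with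
  | empty => exact fun x _ h2 => h x fun v => h2 v (Finset.notMem_empty v)
  | insert a T ha ih =>
    intro x h1 h2
    by_contra hne
    have hxW : ∀ v, x v ∈ W v := fun v => by
      by_cases hv : v ∈ insert a T
      · exact h1 v hv
      · exact hSW v (h2 v hv)
    obtain ⟨c, hcS, hc⟩ := ((hS a).sdiff (finite_update_zeros hF hxW a hne)).nonempty
    refine hc ⟨hSW a hcS, ih _ (fun v hv => ?_) (fun v hv => ?_)⟩
    · rw [Function.update_of_ne (fun e : v = a => ha (e ▸ hv))]
      exact h1 v (Finset.mem_insert_of_mem hv)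
    · rcases eq_or_ne v a with rfl | hva
      · rw [Function.update_self]; exact hcS
      · rw [Function.update_of_ne hva]
        exact h2 v fun hm => (Finset.mem_insert.1 hm).elim hva hv

/-- A countable family, each nonzero somewhere, is nonzero together near any point. -/
theorem box_generic [Fintype ι] {κ : Type} [Countable κ] {G : κ → (ι → ℂ) → ℂ}
    (hG : ∀ k, RatBox W (G k)) (hW : ∀ v, IsOpen (W v))
    (h : ∀ k, ∃ x, (∀ v, x v ∈ W v) ∧ G k x ≠ 0) {O : Set (ι → ℂ)} (hO : IsOpen O) {x₀ : ι → ℂ}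
    (hx₀ : x₀ ∈ O) (hx₀W : ∀ v, x₀ v ∈ W v) :
    ∃ x ∈ O, (∀ v, x v ∈ W v) ∧ ∀ k, G k x ≠ 0 := by
  obtain ⟨U, hU, hUO⟩ := isOpen_pi_iff'.1 hO x₀ hx₀
  suffices key : ∀ T : Finset ι, ∃ y : ι → ℂ, (∀ v, y v ∈ W v) ∧ (∀ v, y v ∈ U v) ∧
      ∀ k, ∃ x, (∀ v, x v ∈ W v) ∧ (∀ v ∈ T, x v = y v) ∧ G k x ≠ 0 by
    obtain ⟨y, hyW, hyU, hy⟩ := key Finset.univ
    refine ⟨y, hUO (fun v _ => hyU v), hyW, fun k => ?_⟩
    obtain ⟨x, -, hxy, hne⟩ := hy k
    rwa [← show x = y from funext fun v => hxy v (Finset.mem_univ v)]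
  intro T
  induction T using Finset.induction_on with
  | empty =>
    exact ⟨x₀, hx₀W, fun v => (hU v).2, fun k =>
      let ⟨x, hx, hne⟩ := h k
      ⟨x, hx, fun v hv => absurd hv (Finset.notMem_empty v), hne⟩⟩
  | insert a T ha ih =>
    obtain ⟨y, hyW, hyU, hy⟩ := ih
    choose w hwW hwy hwne using hy
    have hbad : (⋃ k, {c | c ∈ W a ∧ G k (Function.update (w k) a c) = 0}).Countable :=
      Set.countable_iUnion fun k => (finite_update_zeros (hG k) (hwW k) a (hwne k)).countable
    obtain ⟨c, hc, hcbad⟩ := hbad.dense_compl ℂ |>.exists_mem_open ((hW a).inter (hU a).1)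
      ⟨y a, hyW a, hyU a⟩
    refine ⟨Function.update y a c, fun v => ?_, fun v => ?_, fun k =>
      ⟨Function.update (w k) a c, fun v => ?_, fun v hv => ?_, fun hz => ?_⟩⟩
    · rcases eq_or_ne v a with rfl | hv
      · rw [Function.update_self]; exact hcbad.1
      · rw [Function.update_of_ne hv]; exact hyW v
    · rcases eq_or_ne v a with rfl | hv
      · rw [Function.update_self]; exact hcbad.2
      · rw [Function.update_of_ne hv]; exact hyU v
    · rcases eq_or_ne v a with rfl | hv
      · rw [Function.update_self]; exact hcbad.1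
      · rw [Function.update_of_ne hv]; exact hwW k v
    · rcases eq_or_ne v a with rfl | hva
      · simp
      · rw [Function.update_of_ne hva, Function.update_of_ne hva]
        exact hwy k v ((Finset.mem_insert.1 hv).resolve_left hva)
    · exact hc (Set.mem_iUnion.2 ⟨k, hcbad.1, hz⟩)

end P002Punct
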