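import Vale.Agent.P002Punct.Defs
import Vale.Agent.P002.Surface.Form

/-!
Triangular representatives of quasi-unipotent classes with entries in a ring of integers.
-/

namespace P002Punct

open Module Submodule Matrix P002Surf Vale.Agent.P002.Free

variable {n : ℕ}

/-- A matrix is similar to an upper triangular one with entries in any ring containing its
eigenvalues. -/
theorem exists_tri_form (A : Mat n) (R : Subring ℂ) (hR : ∀ z : ℂ, A.charpoly.IsRoot z → z ∈ R) :
    ∃ P J : Mat n, P.det ≠ 0 ∧ A * P = P * J ∧ J.BlockTriangular (id : Fin n → Fin n) ∧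
      IntM R J := by
  classical
  let f : Module.End ℂ (Fin n → ℂ) := Matrix.toLinAlgEquiv' A
  have hint : DirectSum.IsInternal fun μ => f.maxGenEigenspace μ :=
    (DirectSum.isInternal_submodule_iff_iSupIndep_and_iSup_eq_top _).2
      ⟨f.independent_maxGenEigenspace, f.iSup_maxGenEigenspace_eq_top⟩
  have hblock : ∀ μ, ∃ (ι : Type) (_ : Fintype ι) (b : Basis ι ℂ (f.maxGenEigenspace μ))
      (d : ι → ℕ), ∀ i k, b.repr (f.restrict
        (Module.End.mapsTo_maxGenEigenspace_of_comm (Commute.refl f) μ) (b i)) k ∈ R ∧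
        (b.repr (f.restrict (Module.End.mapsTo_maxGenEigenspace_of_comm (Commute.refl f) μ) (b i)) k
          ≠ 0 → k = i ∨ d k < d i) := by
    intro μ
    have hstab : ∀ v ∈ f.maxGenEigenspace μ, (f - algebraMap ℂ _ μ) v ∈ f.maxGenEigenspace μ :=
      Module.End.mapsTo_maxGenEigenspace_of_comm
        ((Commute.refl f).sub_right (Algebra.commute_algebraMap_right μ f)) μ
    set Nn := (f - algebraMap ℂ _ μ).restrict hstab with hNn
    have hnil : IsNilpotent Nn :=
      Module.End.isNilpotent_restrict_maxGenEigenspace_sub_algebraMap f μ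
    obtain ⟨ι, hι, b, hb, -⟩ := exists_chain_basis _ Nn rfl hnil
    obtain ⟨m, hm⟩ := hnil
    have hex : ∀ i, ∃ e, (Nn ^ e) (b i) = 0 := fun i => ⟨m, by simp [hm]⟩
    refine ⟨ι, hι, b, fun i => Nat.find (hex i), fun i k => ?_⟩
    have hμ : μ ∈ R := by
      refine hR μ ?_
      have hv : f.HasEigenvalue μ := by
        refine Module.End.HasUnifEigenvalue.lt (k := ⊤) (by simp) ?_
        exact fun h => b.ne_zero i (Subtype.ext ((Submodule.mem_bot ℂ).1 (h ▸ (b i).2)))
      have h := (Module.End.hasEigenvalue_iff_isRoot_charpoly f μ).1 hv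
      have e : f.charpoly = A.charpoly := by
        rw [← Matrix.charpoly_toLin' A]
        rfl
      rwa [e] at h
    have e : f.restrict (Module.End.mapsTo_maxGenEigenspace_of_comm (Commute.refl f) μ) (b i) =
        μ • b i + Nn (b i) := Subtype.ext (by
      simp [hNn, Module.algebraMap_end_apply]
      rfl)
    rw [e, map_add, map_smul, Finsupp.add_apply, Finsupp.smul_apply, b.repr_self]
    constructor
    · refine add_mem ?_ ?_
      · rw [Finsupp.single_apply]
        split_ifs <;> simp [hμ]
      · rcases hb i with h | ⟨j, h⟩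
        · simp [h]
        · rw [h, b.repr_self, Finsupp.single_apply]
          split_ifs <;> simp
    · intro hne
      by_cases hki : k = i
      · exact Or.inl hki
      refine Or.inr ?_
      rcases hb i with h | ⟨j, h⟩
      · simp [h, Ne.symm hki] at hne
      · have hjk : j = k := by
          by_contra hjk
          simp [h, hjk, Ne.symm hki] at hne
        subst hjk
        have h0 : Nat.find (hex i) ≠ 0 := fun h0 => by
          have := Nat.find_spec (hex i)
          rw [h0, pow_zero, Module.End.one_apply] at this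
          exact b.ne_zero i this
        obtain ⟨e, he⟩ := Nat.exists_eq_succ_of_ne_zero h0
        have hspec := Nat.find_spec (hex i)
        rw [he, pow_succ, Module.End.mul_apply, h] at hspec
        have := Nat.find_min' (hex j) hspec
        show Nat.find (hex j) < Nat.find (hex i)
        omega
  choose ι hι b d hb using hblock
  let B := hint.collectedBasis b
  have : Fintype (Σ μ, ι μ) := @Fintype.ofFinite _ (Module.Finite.finite_basis B)
  have hcard : Fintype.card (Σ μ, ι μ) = Fintype.card (Fin n) := by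
    rw [← Module.finrank_eq_card_basis B, Module.finrank_fintype_fun_eq_card]
  let e0 := Fintype.equivOfCardEq hcard
  let D : Fin n → ℕ := fun i => d (e0.symm i).1 (e0.symm i).2
  let e1 := e0.trans (Tuple.sort D).symm
  have hmono : Monotone fun i => d (e1.symm i).1 (e1.symm i).2 := Tuple.monotone_sort D
  let C := B.reindex e1
  have key : ∀ i j, LinearMap.toMatrix C C f i j ∈ R ∧
      (LinearMap.toMatrix C C f i j ≠ 0 → i ≤ j) := by
    intro i j
    rw [LinearMap.toMatrix_apply]
    simp only [C, Basis.reindex_apply, Basis.repr_reindex, Finsupp.mapDomain_equiv_apply]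
    have hij : ∀ (hd : d (e1.symm i).1 (e1.symm i).2 < d (e1.symm j).1 (e1.symm j).2), i ≤ j :=
      fun hd => le_of_not_gt fun hlt => absurd (hmono hlt.le) (not_le.2 hd)
    have heq : e1.symm i = e1.symm j → i ≤ j := fun h => (e1.symm.injective h).le
    generalize hj : e1.symm j = cj at hij heq ⊢
    generalize hi : e1.symm i = ci at hij heq ⊢
    obtain ⟨ν, k⟩ := cj
    obtain ⟨μ, l⟩ := ci
    rw [hint.collectedBasis_coe]
    have hmem : f (b ν k : Fin n → ℂ) ∈ f.maxGenEigenspace ν :=
      Module.End.mapsTo_maxGenEigenspace_of_comm (Commute.refl f) ν (b ν k).2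
    rcases eq_or_ne ν μ with rfl | hne
    · rw [hint.collectedBasis_repr_of_mem b hmem]
      refine ⟨(hb ν k l).1, fun h0 => ?_⟩
      rcases (hb ν k l).2 h0 with h | h
      · exact heq (by rw [h])
      · exact hij h
    · rw [hint.collectedBasis_repr_of_mem_ne b hne hmem]
      exact ⟨zero_mem _, fun h => absurd rfl h⟩
  refine ⟨(Pi.basisFun ℂ (Fin n)).toMatrix C, LinearMap.toMatrix C C f, ?_, ?_,
    fun i j hji => by_contra fun h => absurd ((key i j).2 h) (not_le.2 hji), fun i j => (key i j).1⟩
  · have := (Pi.basisFun ℂ (Fin n)).invertibleToMatrix C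
    exact (Matrix.isUnit_det_of_invertible _).ne_zero
  · have hA' : A = LinearMap.toMatrix (Pi.basisFun ℂ (Fin n)) (Pi.basisFun ℂ (Fin n)) f := by
      ext i j
      simp [f]
    conv_lhs => rw [hA']
    rw [linearMap_toMatrix_mul_basis_toMatrix, basis_toMatrix_mul_linearMap_toMatrix]

/-- Quasi-unipotent matrices of determinant one have upper triangular representatives with
roots of unity of a common order on the diagonal and entries in any ring containing these. -/
theorem exists_class_rep {s : ℕ} (A : Fin s → Mat n) (hdet : ∀ j, (A j).det = 1)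
    (hq : ∀ j, ∀ z : ℂ, (A j).charpoly.IsRoot z → ∃ m : ℕ, 0 < m ∧ z ^ m = 1) :
    ∃ N : ℕ, 0 < N ∧ ∀ R : Subring ℂ, (∀ z : ℂ, z ^ N = 1 → z ∈ R) →
      ∃ J : Fin s → Mat n, (∀ j, (J j).BlockTriangular (id : Fin n → Fin n) ∧ IntM R (J j) ∧
        (J j).det = 1 ∧ ∀ i, J j i i ^ N = 1) ∧ ∀ j, ∃ h : Mat n, h.det = 1 ∧ bd (J j) h = A j := by
  classical
  choose! m hm0 hm using hq
  let N := ∏ j, ∏ z ∈ (A j).charpoly.roots.toFinset, m j z
  have hmem : ∀ j (z : ℂ), (A j).charpoly.IsRoot z → z ∈ (A j).charpoly.roots.toFinset :=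
    fun j z hz => Multiset.mem_toFinset.2 ((Polynomial.mem_roots (charpoly_monic (A j)).ne_zero).2 hz)
  have hN : ∀ j (z : ℂ), (A j).charpoly.IsRoot z → z ^ N = 1 := by
    intro j z hz
    obtain ⟨c, hc⟩ : m j z ∣ N := (Finset.dvd_prod_of_mem (m j) (hmem j z hz)).trans
      (Finset.dvd_prod_of_mem (fun j => ∏ z ∈ (A j).charpoly.roots.toFinset, m j z)
        (Finset.mem_univ j))
    rw [hc, pow_mul, hm j z hz, one_pow]
  refine ⟨N, Finset.prod_pos fun j _ => Finset.prod_pos fun z hz => hm0 j z ?_, fun R hR => ?_⟩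
  · exact (Polynomial.mem_roots'.1 (Multiset.mem_toFinset.1 hz)).2
  choose P J hP hAP hJ hJR using fun j => exists_tri_form (A j) R fun z hz => hR z (hN j z hz)
  have hu : ∀ j, IsUnit (P j).det := fun j => isUnit_iff_ne_zero.2 (hP j)
  have hconj : ∀ j, J j = (P j)⁻¹ * A j * P j := fun j => by
    rw [Matrix.mul_assoc, hAP, Matrix.nonsing_inv_mul_cancel_left _ _ (hu j)]
  have hJd : ∀ j, (J j).det = 1 := fun j => by
    rw [hconj, Matrix.det_mul, Matrix.det_mul, hdet, mul_one, ← Matrix.det_mul,
      Matrix.nonsing_inv_mul _ (hu j), Matrix.det_one]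
  refine ⟨J, fun j => ⟨hJ j, hJR j, hJd j, fun i => hN j _ ?_⟩, fun j => ?_⟩
  · have e : (A j).charpoly = (J j).charpoly := by
      have hA : A j = P j * J j * (P j)⁻¹ := by
        rw [← hAP, Matrix.mul_nonsing_inv_cancel_right _ _ (hu j)]
      rw [hA, Matrix.charpoly_mul_comm, ← Matrix.mul_assoc,
        Matrix.nonsing_inv_mul _ (hu j), Matrix.one_mul]
    rw [e, charpoly_of_isUpperTriangular _ (hJ j), Polynomial.IsRoot.def, Polynomial.eval_prod]
    exact Finset.prod_eq_zero (Finset.mem_univ i) (by simp)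
  · rcases Nat.eq_zero_or_pos n with hn | hn
    · subst hn
      exact ⟨1, Matrix.det_one, Subsingleton.elim _ _⟩
    obtain ⟨c, hc⟩ := IsAlgClosed.exists_pow_nat_eq ((P j).det)⁻¹ hn
    have hd : (c • P j).det = 1 := by
      rw [Matrix.det_smul, Fintype.card_fin, hc, inv_mul_cancel₀ (hP j)]
    refine ⟨c • P j, hd, ?_⟩
    rw [bd, smul_mul_assoc, ← hAP, ← mul_smul_comm, Matrix.mul_assoc, mul_adj_one hd,
      Matrix.mul_one]

end P002Punct
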