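import Vale.Agent.P002.Surface.Height

/-!
Generic points over a countable coefficient field inside `ℂ`.
-/

namespace P002Punct

open Cardinal MvPolynomial Set
open Vale.Agent.P002.Surface

variable {K : Subfield ℂ}

/-- The numbers algebraic over `ℚ`. -/
noncomputable def algNum : Subfield ℂ := aclField ∅

theorem countable_algNum : (Cardinal.mk algNum) ≤ ℵ₀ := by
  have h : (algNum : Set ℂ) ⊆ {z : ℂ | IsAlgebraic ℚ z} := by
    intro z hz
    have := mem_acl_iff.1 (mem_aclField.1 hz)
    rw [Algebra.adjoin_empty] at this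
    obtain ⟨q, hq0, hq⟩ := this
    have h1 : IsAlgebraic (⊥ : Subalgebra ℚ ℂ) z := ⟨q, hq0, hq⟩
    exact h1.restrictScalars ℚ
  exact le_trans (mk_le_mk_of_subset h) (Cardinal.mk_le_aleph0_iff.2 (Algebraic.countable ℚ ℂ).to_subtype)

/-- Every prime ideal of polynomials over `K` has a generic point in `ℂ`. -/
theorem exists_generic_field {K : Type} [Field K] [Algebra K ℂ] (hK : (Cardinal.mk K) ≤ ℵ₀) {σ : Type} [Finite σ] (P : Ideal (MvPolynomial σ K)) [P.IsPrime] :
    ∃ x : σ → ℂ, RingHom.ker (aeval x : _ →ₐ[K] ℂ) = P := by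
  classical
  let A := MvPolynomial σ K ⧸ P
  have hinjA : Function.Injective (algebraMap K A) := (algebraMap K A).injective
  have : FaithfulSMul K A := (faithfulSMul_iff_algebraMap_injective K A).2 hinjA
  obtain ⟨t, ht⟩ := exists_isTranscendenceBasis K A
  obtain ⟨T, hT⟩ := exists_isTranscendenceBasis K ℂ
  have hcount : (Cardinal.mk A) ≤ ℵ₀ := by
    refine le_trans (mk_le_of_surjective Ideal.Quotient.mk_surjective) ?_
    exact MvPolynomial.cardinalMk_le_max.trans (max_le (max_le hK mk_le_aleph0) le_rfl)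
  have hTc : (Cardinal.mk T) = (Cardinal.mk ℂ) :=
    (IsAlgClosed.cardinal_eq_cardinal_transcendence_basis_of_aleph0_lt' _ hT
      hK (by rw [mk_complex]; exact aleph0_lt_continuum)).symm
  have hle : (Cardinal.mk t) ≤ (Cardinal.mk T) := by
    rw [hTc, mk_complex]
    exact ((mk_set_le t).trans hcount).trans aleph0_le_continuum
  obtain ⟨e⟩ := (Cardinal.le_def t T).1 hle
  have hv : AlgebraicIndependent K ((↑) ∘ e : t → ℂ) := hT.1.comp _ e.injective
  let φ : Algebra.adjoin K (range ((↑) : t → A)) →ₐ[K] ℂ :=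
    (aeval ((↑) ∘ e : t → ℂ)).comp ht.1.aevalEquiv.symm.toAlgHom
  have hφ : Function.Injective φ :=
    ((algebraicIndependent_iff_injective_aeval.1 hv).comp ht.1.aevalEquiv.symm.injective :
      Function.Injective ((aeval ((↑) ∘ e : t → ℂ)) ∘ ht.1.aevalEquiv.symm))
  let R₀ := Algebra.adjoin K (range ((↑) : t → A))
  let : Algebra R₀ ℂ := φ.toRingHom.toAlgebra
  have : FaithfulSMul R₀ ℂ := (faithfulSMul_iff_algebraMap_injective R₀ ℂ).2 hφ
  have : Algebra.IsAlgebraic R₀ A := ht.isAlgebraic
  have : IsScalarTower K R₀ ℂ := IsScalarTower.of_algebraMap_eq fun q => (φ.commutes q).symm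
  have : Module.IsTorsionFree R₀ ℂ := Module.isTorsionFree_iff_algebraMap_injective.mpr hφ
  let ψ : A →ₐ[R₀] ℂ := IsAlgClosed.lift
  have hψ : Function.Injective ψ := by
    refine (injective_iff_map_eq_zero ψ).2 fun a ha => ?_
    by_contra ha0
    have halg : IsAlgebraic R₀ a := Algebra.IsAlgebraic.isAlgebraic a
    obtain ⟨r, hr, hdvd⟩ := halg.exists_nonzero_dvd (mem_nonZeroDivisors_of_ne_zero ha0)
    obtain ⟨b, hb⟩ := hdvd
    refine hr (hφ ?_)
    rw [map_zero]
    have := congrArg ψ hb
    rwa [ψ.commutes, map_mul, ha, zero_mul] at this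
  refine ⟨fun i => ψ (Ideal.Quotient.mk P (X i)), ?_⟩
  have e2 : (aeval fun i => ψ (Ideal.Quotient.mk P (X i)) : _ →ₐ[K] ℂ) =
      (ψ.restrictScalars K).comp (Ideal.Quotient.mkₐ K P) := by
    refine MvPolynomial.algHom_ext fun i => ?_
    rw [aeval_X]
    rfl
  ext p
  rw [RingHom.mem_ker, e2, AlgHom.comp_apply, AlgHom.restrictScalars_apply,
    map_eq_zero_iff ψ hψ, Ideal.Quotient.mkₐ_eq_mk, Ideal.Quotient.eq_zero_iff_mem]


attribute [local instance] MvPolynomial.algebraMvPolynomial in
/-- A generic specialisation with many free coordinates. -/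
theorem exists_generic_point (hK : (Cardinal.mk K) ≤ ℵ₀) (hKa : ∀ z : K, IsAlgebraic ℚ z) {σ : Type} [Fintype σ]
    (E : Finset (MvPolynomial σ K)) (x : σ → ℂ) (hx : ∀ f ∈ E, aeval x f = 0) :
    ∃ y : σ → ℂ, (∀ f ∈ E, aeval y f = 0) ∧
      (∀ f : MvPolynomial σ K, aeval y f = 0 → aeval x f = 0) ∧
      ∀ T : Finset ℂ, (∀ v, y v ∈ acl (T : Set ℂ)) → Fintype.card σ ≤ T.card + E.card := by
  classical
  have hJ : Ideal.span (E : Set (MvPolynomial σ K)) ≤ RingHom.ker (aeval x : _ →ₐ[K] ℂ) := by
    rw [Ideal.span_le]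
    exact fun f hf => hx f hf
  have : (RingHom.ker (aeval x : _ →ₐ[K] ℂ)).IsPrime := RingHom.ker_isPrime _
  obtain ⟨P, hP, hPx⟩ := Ideal.exists_minimalPrimes_le hJ
  have : P.IsPrime := hP.1.1
  have hht : P.height ≤ E.card := Ideal.height_le_card_of_mem_minimalPrimes_span_finset hP
  obtain ⟨y, hy⟩ := exists_generic_field hK P
  refine ⟨y, fun f hf => ?_, fun f hf => ?_, fun T hT => ?_⟩
  · rw [← RingHom.mem_ker, hy]
    exact hP.1.2 (Ideal.subset_span hf)
  · exact hPx (by rw [← hy]; exact hf)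
  · let e : σ ≃ Fin (Fintype.card σ) := Fintype.equivFin σ
    have : Algebra.IsIntegral ℚ K := ⟨fun z => (hKa z).isIntegral⟩
    let q : Ideal (MvPolynomial σ ℚ) := P.under _
    have hq : q.height ≤ P.height := by
      rw [Ideal.height_eq_height_add_of_liesOver_of_hasGoingDown q P]
      exact le_self_add
    let qq : Ideal (MvPolynomial (Fin (Fintype.card σ)) ℚ) :=
      q.comap (renameEquiv ℚ e.symm).toRingEquiv
    have hqq : qq.height ≤ E.card := by
      rw [RingEquiv.height_comap]
      exact hq.trans hht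
    refine le_card_add_height qq hqq (y ∘ e.symm) ?_ T fun i => hT _
    ext p
    rw [RingHom.mem_ker, ← aeval_rename]
    show _ ↔ algebraMap (MvPolynomial σ ℚ) (MvPolynomial σ K) (rename e.symm p) ∈ P
    rw [← hy, RingHom.mem_ker, MvPolynomial.algebraMap_def, MvPolynomial.aeval_map_algebraMap]

/-- Tests with coefficients in `K` suffice for a complex polynomial vanishing on `K`-points. -/
theorem eval_eq_zero_of_field {σ : Type} [Fintype σ] (p : MvPolynomial σ ℂ) (Z : Set (σ → K))
    (x : σ → ℂ) (hp : ∀ z ∈ Z, eval (fun v => (z v : ℂ)) p = 0)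
    (hx : ∀ f : MvPolynomial σ K, (∀ z ∈ Z, eval z f = 0) → aeval x f = 0) : eval x p = 0 := by
  classical
  let b := Module.Basis.ofVectorSpace K ℂ
  let f : Module.Basis.ofVectorSpaceIndex K ℂ → MvPolynomial σ K := fun k =>
    ∑ m ∈ p.support, monomial m (b.repr (p.coeff m) k)
  have hf : ∀ k, aeval x (f k) = 0 := by
    intro k
    refine hx _ fun z hz => ?_
    have h0 := congrArg (fun w => b.repr w k) (hp z hz)
    simp only [map_zero, Finsupp.zero_apply, eval_eq, map_sum, Finsupp.finsetSum_apply] at h0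
    rw [← h0]
    simp only [f, map_sum, eval_monomial]
    refine Finset.sum_congr rfl fun m _ => ?_
    have e : p.coeff m * ∏ i ∈ m.support, (z i : ℂ) ^ m i =
        (∏ i ∈ m.support, z i ^ m i : K) • p.coeff m := by
      rw [Subfield.smul_def, smul_eq_mul]
      push_cast
      ring
    rw [e, map_smul, Finsupp.smul_apply, smul_eq_mul, mul_comm]
    rfl
  let L := p.support.biUnion fun m => (b.repr (p.coeff m)).support
  have hsum : ∀ m ∈ p.support, p.coeff m = ∑ k ∈ L, (b.repr (p.coeff m) k : ℂ) * b k := by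
    intro m hm
    conv_lhs => rw [← b.linearCombination_repr (p.coeff m), Finsupp.linearCombination_apply,
      Finsupp.sum_of_support_subset _ (s := L) (Finset.subset_biUnion_of_mem
        (fun m => (b.repr (p.coeff m)).support) hm) (fun i a => a • b i) (fun _ _ => zero_smul K _)]
    exact Finset.sum_congr rfl fun k _ => by rw [Subfield.smul_def, smul_eq_mul]
  calc eval x p = ∑ m ∈ p.support, p.coeff m * ∏ i ∈ m.support, x i ^ m i := eval_eq _ _
    _ = ∑ m ∈ p.support, ∑ k ∈ L,
          b k * ((b.repr (p.coeff m) k : ℂ) * ∏ i ∈ m.support, x i ^ m i) := by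
        refine Finset.sum_congr rfl fun m hm => ?_
        conv_lhs => rw [hsum m hm, Finset.sum_mul]
        exact Finset.sum_congr rfl fun k _ => by ring
    _ = ∑ k ∈ L, b k * aeval x (f k) := by
        rw [Finset.sum_comm]
        refine Finset.sum_congr rfl fun k _ => ?_
        simp only [f, map_sum, aeval_monomial, Finset.mul_sum]
        exact Finset.sum_congr rfl fun m _ => by rfl
    _ = 0 := Finset.sum_eq_zero fun k _ => by rw [hf, mul_zero]

end P002Punct
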