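import Vale.Agent.P002Punct.Defs
import Vale.Agent.P002Punct.GenK
import Vale.Agent.P002Surf.Closure
import Vale.Agent.P002Surf.Fibre

/-!
From representations with a handle of scalar commutant to all representations of a punctured
surface group with prescribed classes, by counting parameters.
-/

namespace P002Punct

open Matrix MvPolynomial P002Surf Vale.Agent.P002.Surface

variable {g s n : ℕ}

/-- The conjugator with given entries. -/
def hmat {A : Type} (v : Var g s n → A) (j : Fin s) : Matrix (Fin n) (Fin n) A :=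
  Matrix.of fun a b => v (.inr (j, a, b))

/-- The relation, over any ring. -/
def relOf {A : Type} [CommRing A] (J : Fin s → Matrix (Fin n) (Fin n) A) (v : Var g s n → A) :
    Matrix (Fin n) (Fin n) A :=
  (List.ofFn fun i => cm (tup (fun w => v (.inl w)) i)).prod *
    (List.ofFn fun j => hmat v j * J j * (hmat v j).adjugate).prod - 1

theorem map_relOf {A B : Type} [CommRing A] [CommRing B] (f : A →+* B)
    (J : Fin s → Matrix (Fin n) (Fin n) A) (v : Var g s n → A) :
    f.mapMatrix (relOf J v) = relOf (fun j => f.mapMatrix (J j)) fun w => f (v w) := by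
  simp only [relOf, map_sub, map_mul, map_one, map_prod_cm]
  congr 2
  rw [map_list_prod, List.map_ofFn]
  congr 2
  funext j
  simp only [Function.comp_apply, map_mul, RingHom.map_adjugate]
  rfl

theorem relOf_sev (J : Fin s → Mat n) (x : St g s n) :
    relOf J (sev x) = hprod x * (bdList J x).prod - 1 := rfl

/-- The determinant of a boundary matrix. -/
theorem det_bd {J h : Mat n} (hJ : J.det = 1) (hh : h.det = 1) : (bd J h).det = 1 := by
  simp [bd, Matrix.det_mul, hJ, hh, det_adj_one hh]

theorem det_bdList {J : Fin s → Mat n} (hJ : ∀ j, (J j).det = 1) {x : St g s n}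
    (hx : ∀ j, (x.2 j).det = 1) : (bdList J x).prod.det = 1 := by
  refine List.prod_induction (fun A : Mat n => A.det = 1)
    (fun A B ha hb => by rw [det_mul, ha, hb, mul_one]) det_one fun A hA => ?_
  obtain ⟨j, rfl⟩ := List.mem_ofFn.1 hA
  exact det_bd (hJ j) (hx j)

variable {K : Subfield ℂ}

open scoped Classical in
/-- Equations for the representations, one fewer than the obvious ones. -/
noncomputable def eqs (J : Fin s → Matrix (Fin n) (Fin n) K) (g : ℕ) (i₀ : Fin n) :
    Finset (MvPolynomial (Var g s n) K) :=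
  (Finset.univ.image fun i => (tup (fun w : Idx g n => X (.inl w : Var g s n)) i).1.det - 1) ∪
    (Finset.univ.image fun i => (tup (fun w : Idx g n => X (.inl w : Var g s n)) i).2.det - 1) ∪
    (Finset.univ.image fun j => (hmat (fun w : Var g s n => X w) j).det - 1) ∪
      ((Finset.univ.erase (i₀, i₀)).image fun v =>
        relOf (fun j => (J j).map C) (fun w : Var g s n => X w) v.1 v.2)

theorem eqs_card (J : Fin s → Matrix (Fin n) (Fin n) K) (g : ℕ) (i₀ : Fin n) :
    (eqs J g i₀).card + 1 ≤ 2 * g + s + n * n := by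
  classical
  have h1 : (eqs J g i₀).card ≤ g + g + s + (n * n - 1) := by
    refine (Finset.card_union_le _ _).trans (add_le_add ((Finset.card_union_le _ _).trans
      (add_le_add ((Finset.card_union_le _ _).trans (add_le_add
        (Finset.card_image_le.trans (by simp)) (Finset.card_image_le.trans (by simp))))
        (Finset.card_image_le.trans (by simp)))) (Finset.card_image_le.trans ?_))
    simp [Finset.card_erase_of_mem]
  have h2 : 1 ≤ n * n := Nat.mul_le_mul (i₀.pos) (i₀.pos)
  omega

theorem aeval_eqs (J : Fin s → Matrix (Fin n) (Fin n) K) (x : St g s n) :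
    (∀ i, aeval (sev x) ((tup (fun w : Idx g n => X (.inl w : Var g s n)) i).1.det - 1 :
        MvPolynomial (Var g s n) K) = (x.1 i).1.det - 1 ∧
      aeval (sev x) ((tup (fun w : Idx g n => X (.inl w : Var g s n)) i).2.det - 1 :
        MvPolynomial (Var g s n) K) = (x.1 i).2.det - 1) ∧
    (∀ j, aeval (sev x) ((hmat (fun w : Var g s n => X w) j).det - 1 :
        MvPolynomial (Var g s n) K) = (x.2 j).det - 1) ∧
    ∀ a b, aeval (sev x) (relOf (fun j => (J j).map C) (fun w : Var g s n => X w) a b) =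
      (hprod x * (bdList (fun j => (J j).map fun z => (z : ℂ)) x).prod - 1) a b := by
  let f : MvPolynomial (Var g s n) K →+* ℂ := (aeval (sev x) : _ →ₐ[K] ℂ).toRingHom
  have hf : ∀ w, f (X w) = sev x w := fun w => aeval_X _ _
  refine ⟨fun i => ⟨?_, ?_⟩, fun j => ?_, fun a b => ?_⟩
  · rw [map_sub, map_one]
    change f _ - 1 = _
    rw [f.map_det]
    congr 2
    ext a b
    exact hf (.inl (i, false, a, b))
  · rw [map_sub, map_one]
    change f _ - 1 = _
    rw [f.map_det]
    congr 2
    ext a b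
    exact hf (.inl (i, true, a, b))
  · rw [map_sub, map_one]
    change f _ - 1 = _
    rw [f.map_det]
    congr 2
    ext a b
    exact hf (.inr (j, a, b))
  · change f.mapMatrix (relOf (fun j => (J j).map C) (fun w : Var g s n => X w)) a b = _
    rw [map_relOf, ← relOf_sev]
    simp only [hf]
    congr 2
    funext j
    ext c d
    show f (C (J j c d)) = _
    exact aeval_C _ _

theorem prep_iff (i₀ : Fin n) (J : Fin s → Matrix (Fin n) (Fin n) K)
    (hJ : ∀ j, ((J j).map fun z => (z : ℂ)).det = 1) (x : St g s n) :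
    PRep (fun j => (J j).map fun z => (z : ℂ)) x ↔ ∀ f ∈ eqs J g i₀, aeval (sev x) f = 0 := by
  classical
  obtain ⟨ed, eh, er⟩ := aeval_eqs J x
  constructor
  · intro hq f hf
    simp only [eqs, Finset.mem_union, Finset.mem_image] at hf
    rcases hf with ((⟨i, -, rfl⟩ | ⟨i, -, rfl⟩) | ⟨j, -, rfl⟩) | ⟨v, -, rfl⟩
    · rw [(ed i).1, (hq.1 i).1, sub_self]
    · rw [(ed i).2, (hq.1 i).2, sub_self]
    · rw [eh j, hq.2.1 j, sub_self]
    · rw [er, hq.2.2, sub_self, Matrix.zero_apply]
  · intro hF
    simp only [eqs, Finset.mem_union, Finset.mem_image] at hF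
    have hdet : ∀ i, SL1 (x.1 i) := fun i => by
      have a1 := hF _ (Or.inl (Or.inl (Or.inl ⟨i, Finset.mem_univ _, rfl⟩)))
      have a2 := hF _ (Or.inl (Or.inl (Or.inr ⟨i, Finset.mem_univ _, rfl⟩)))
      rw [(ed i).1, sub_eq_zero] at a1
      rw [(ed i).2, sub_eq_zero] at a2
      exact ⟨a1, a2⟩
    have hh : ∀ j, (x.2 j).det = 1 := fun j => by
      have a1 := hF _ (Or.inl (Or.inr ⟨j, Finset.mem_univ _, rfl⟩))
      rwa [eh j, sub_eq_zero] at a1
    refine ⟨hdet, hh, eq_one_of_off i₀ _ ?_ fun a b hab => ?_⟩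
    · rw [det_mul, det_bdList hJ hh, mul_one]
      refine List.prod_induction (fun A : Mat n => A.det = 1)
        (fun A B ha hb => by rw [det_mul, ha, hb, mul_one]) det_one fun A hA => ?_
      obtain ⟨i, rfl⟩ := List.mem_ofFn.1 hA
      exact det_cm (hdet i).1 (hdet i).2
    · have a1 := hF _ (Or.inr ⟨(a, b), Finset.mem_erase.2 ⟨hab, Finset.mem_univ _⟩, rfl⟩)
      rw [er, Matrix.sub_apply, sub_eq_zero] at a1
      exact a1

/-- A conjugator depends on `n² - 1` parameters. -/
theorem conj_count (hn : 0 < n) {h : Mat n} (hh : h.det = 1) :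
    ∃ t : Finset ℂ, t.card + 1 ≤ n * n ∧ InA (t : Set ℂ) h := by
  obtain ⟨t, ht, hA⟩ := sl_param (S := ∅) (InA.one ∅) (InA.one ∅)
    (A := h) (by rw [Matrix.one_mul, Matrix.mul_one]) hh hn
  refine ⟨t, ht.trans (le_of_le_of_eq (Submodule.finrank_le _) ?_), by simpa using hA⟩
  rw [Module.finrank_matrix, Module.finrank_self, Fintype.card_fin, mul_one]

/-- A representation without a handle of scalar commutant depends on few parameters. -/
theorem param_count {k : ℕ} (hn : 0 < n) {J : Fin s → Mat n} (hJ : ∀ j a b, J j a b ∈ acl (∅ : Set ℂ))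
    (x : St (k + 1) s n) (hx : PRep J x) (hbad : ∀ i, ¬ ScalarCommutant (x.1 i)) :
    ∃ T : Finset ℂ, T.card + k * (2 * n) + 2 + s ≤ k * (2 * (n * n)) + n * n + n + s * (n * n) ∧
      ∀ v, sev x v ∈ acl (T : Set ℂ) := by
  classical
  have hb : ∀ i, ∃ T, NonScalar T ∧ T * (x.1 i).1 = (x.1 i).1 * T ∧
      T * (x.1 i).2 = (x.1 i).2 * T := by
    intro i
    have := hbad i
    simp only [ScalarCommutant, not_forall, not_exists, exists_prop] at this
    obtain ⟨T, hT1, hT2, hT⟩ := this
    exact ⟨T, hT, hT1, hT2⟩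
  choose t ht htA htB using fun i => bad_pair_count (hx.1 i).1 (hx.1 i).2 (hb i)
  choose u hu huH using fun j => conj_count hn (hx.2.1 j)
  let S : Finset ℂ := (Finset.univ.biUnion fun i : Fin k => t i.castSucc) ∪ Finset.univ.biUnion u
  have hS : S.card + k * (2 * n) + s ≤ k * (2 * (n * n)) + s * (n * n) := by
    have h1 : ∑ i : Fin k, ((t i.castSucc).card + 2 * n) ≤ ∑ _i : Fin k, 2 * (n * n) :=
      Finset.sum_le_sum fun i _ => ht _
    have h2 : ∑ j : Fin s, ((u j).card + 1) ≤ ∑ _j : Fin s, n * n :=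
      Finset.sum_le_sum fun j _ => hu _
    simp only [Finset.sum_add_distrib, Finset.sum_const, Finset.card_univ, Fintype.card_fin,
      smul_eq_mul, mul_one] at h1 h2
    have h3 := Finset.card_union_le (Finset.univ.biUnion fun i : Fin k => t i.castSucc)
      (Finset.univ.biUnion u)
    have h4 := Finset.card_biUnion_le (s := (Finset.univ : Finset (Fin k))) (t := fun i => t i.castSucc)
    have h5 := Finset.card_biUnion_le (s := (Finset.univ : Finset (Fin s))) (t := u)
    have h6 : S.card ≤ (Finset.univ.biUnion fun i : Fin k => t i.castSucc).card +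
        (Finset.univ.biUnion u).card := h3
    omega
  have htS : ∀ i : Fin k, (t i.castSucc : Set ℂ) ⊆ acl (S : Set ℂ) := fun i z hz =>
    subset_acl _ (Finset.mem_coe.2 (Finset.mem_union_left _
      (Finset.mem_biUnion.2 ⟨i, Finset.mem_univ _, hz⟩)))
  have huS : ∀ j, InA (S : Set ℂ) (x.2 j) := fun j => (huH j).mono fun z hz =>
    subset_acl _ (Finset.mem_coe.2 (Finset.mem_union_right _
      (Finset.mem_biUnion.2 ⟨j, Finset.mem_univ _, hz⟩)))
  obtain ⟨hA1, hB1⟩ := hx.1 (Fin.last k)
  have hprod := hx.2.2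
  rw [hprod_succ] at hprod
  set P := (List.ofFn fun i : Fin k => cm (x.1 i.castSucc)).prod with hP
  have hPc : P * (cm (x.1 (Fin.last k)) * (bdList J x).prod) = 1 := by
    rw [← Matrix.mul_assoc]; exact hprod
  have hc : InA (S : Set ℂ) (cm (x.1 (Fin.last k))) := by
    have e : cm (x.1 (Fin.last k)) = P⁻¹ * (bdList J x).prod⁻¹ := by
      rw [Matrix.inv_eq_right_inv hPc, Matrix.mul_assoc, Matrix.mul_nonsing_inv, Matrix.mul_one]
      exact IsUnit.of_mul_eq_one_right (P * cm (x.1 (Fin.last k))).det (by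
        rw [← Matrix.det_mul, hprod, Matrix.det_one])
    rw [e]
    refine InA.mul (InA.inv (InA.list_prod fun A hA => ?_)) (InA.inv (InA.list_prod fun A hA => ?_))
    · obtain ⟨i, rfl⟩ := List.mem_ofFn.1 hA
      have a1 := (htA i.castSucc).mono (htS i)
      have a2 := (htB i.castSucc).mono (htS i)
      exact ((a1.mul a2).mul a1.adjugate).mul a2.adjugate
    · obtain ⟨j, rfl⟩ := List.mem_ofFn.1 hA
      exact ((huS j).mul (InA.mono (fun z hz => absurd hz (Set.notMem_empty z))
        (show InA ∅ (J j) from hJ j))).mul (huS j).adjugate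
  have hcBA : cm (x.1 (Fin.last k)) * (x.1 (Fin.last k)).2 * (x.1 (Fin.last k)).1 =
      (x.1 (Fin.last k)).1 * (x.1 (Fin.last k)).2 := cm_mul_eq (hx.1 (Fin.last k))
  obtain ⟨w, hw, hwA, hwB⟩ := fibre_count hn hA1 hB1 hc hcBA
  refine ⟨S ∪ w, ?_, ?_⟩
  · have := Finset.card_union_le S w
    omega
  have hsub : (S : Set ℂ) ⊆ acl ((S ∪ w : Finset ℂ) : Set ℂ) := fun z hz =>
    subset_acl _ (by simp [Finset.mem_coe.1 hz])
  rintro (⟨i, c, a, b⟩ | ⟨j, a, b⟩)
  · rcases Fin.eq_castSucc_or_eq_last i with ⟨i', rfl⟩ | rfl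
    · cases c
      · exact acl_subset_acl hsub ((htA i'.castSucc).mono (htS i') a b)
      · exact acl_subset_acl hsub ((htB i'.castSucc).mono (htS i') a b)
    · rw [Finset.coe_union]
      cases c
      · exact hwA a b
      · exact hwB a b
  · exact acl_subset_acl hsub (huS j a b)
where
  hprod_succ {g s n : ℕ} {x : St (g + 1) s n} : hprod x =
      (List.ofFn fun i : Fin g => cm (x.1 i.castSucc)).prod * cm (x.1 (Fin.last g)) := by
    rw [hprod, List.ofFn_succ', List.prod_concat]

/-- The closure of the integral representations with the property `Q`. -/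
def ZdOn (Q : St g s n → Prop) (R : Subring ℂ) (J : Fin s → Mat n) (x : St g s n) : Prop :=
  ∀ p : MvPolynomial (Var g s n) ℂ,
    (∀ a : St g s n, PRep J a → IntSt R a → Q a → MvPolynomial.eval (sev a) p = 0) →
      MvPolynomial.eval (sev x) p = 0

/-- If all representations with a handle of scalar commutant are in the closure of the integral
ones with some property, then all representations are. -/
theorem zdOn_of_good (hg : 2 ≤ g) {R : Subring ℂ} (hR : ∀ z ∈ R, z ∈ acl (∅ : Set ℂ))
    {J : Fin s → Mat n} {Q : St g s n → Prop} (hJ : ∀ j a b, J j a b ∈ acl (∅ : Set ℂ)) (hJd : ∀ j, (J j).det = 1)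
    (h : ∀ x : St g s n, PRep J x → (∃ i, ScalarCommutant (x.1 i)) → ZdOn Q R J x) :
    ∀ x : St g s n, PRep J x → ZdOn Q R J x := by
  classical
  intro x hx
  rcases Nat.lt_or_ge n 2 with hn | hn
  · refine h x hx ⟨⟨0, by omega⟩, fun T _ _ => ?_⟩
    interval_cases n
    · exact ⟨0, Subsingleton.elim _ _⟩
    · exact ⟨T 0 0, by ext i j; fin_cases i; fin_cases j; simp⟩
  obtain ⟨k, rfl⟩ : ∃ k, g = k + 1 := ⟨g - 1, by omega⟩
  have hR' : ∀ z ∈ R, z ∈ algNum := fun z hz => mem_aclField.2 (hR z hz)
  let J₀ : Fin s → Matrix (Fin n) (Fin n) algNum := fun j a b => ⟨J j a b, mem_aclField.2 (hJ j a b)⟩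
  have eJ : (fun j => (J₀ j).map fun z => (z : ℂ)) = J := rfl
  let i₀ : Fin n := ⟨0, by omega⟩
  have hiff := prep_iff (g := k + 1) i₀ J₀ (fun j => hJd j)
  obtain ⟨y, hy, hspec, hdim⟩ := exists_generic_point countable_algNum
    (fun z => by
      have := mem_acl_iff.1 (mem_aclField.1 z.2)
      rw [Algebra.adjoin_empty] at this
      have h1 : IsAlgebraic ℚ (z : ℂ) := this.restrictScalars ℚ
      exact (isAlgebraic_algebraMap_iff (A := ℂ) Subtype.val_injective).1 h1)
    (eqs J₀ (k + 1) i₀) (sev x) ((hiff x).1 hx)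
  have hy' : PRep J (unev y) := (hiff (unev y)).2 (by rw [sev_unev]; exact hy)
  have hZ : ZdOn Q R J (unev y) := by
    refine h _ hy' ?_
    by_contra hbad
    push Not at hbad
    obtain ⟨T, hT, hall⟩ := param_count (by omega) hJ (unev y) hy' hbad
    rw [sev_unev] at hall
    have h1 := hdim T hall
    have h2 := eqs_card J₀ (k + 1) i₀
    have hN : Fintype.card (Var (k + 1) s n) = 2 * (k + 1) * (n * n) + s * (n * n) := by
      simp [Var, Idx]
      ring
    rw [hN] at h1
    nlinarith [Nat.mul_le_mul (show 1 ≤ k by omega) hn]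
  intro p hp
  refine eval_eq_zero_of_field p
    {z : Var (k + 1) s n → algNum | ∃ a : St (k + 1) s n, PRep J a ∧ IntSt R a ∧ Q a ∧
      (fun v => (z v : ℂ)) = sev a} (sev x) ?_ ?_
  · rintro z ⟨a, ha, hai, haQ, e⟩
    rw [e]
    exact hp a ha hai haQ
  · intro f hf
    refine hspec f ?_
    have h0 := hZ (f.map (algebraMap algNum ℂ)) fun a ha hai haQ => by
      let z : Var (k + 1) s n → algNum := fun v => ⟨sev a v, hR' _ (hai v)⟩
      rw [eval_map, ← aeval_def]
      have e1 : sev a = algebraMap algNum ℂ ∘ z := rfl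
      rw [e1, aeval_algebraMap_apply, aeval_eq_eval, hf z ⟨a, ha, hai, haQ, rfl⟩, map_zero]
    rwa [eval_map, ← aeval_def, sev_unev] at h0

theorem zdOn_true {R : Subring ℂ} {J : Fin s → Mat n} {x : St g s n} :
    ZdOn (fun _ => True) R J x ↔ Zd R J x :=
  ⟨fun h p hp => h p fun a ha hai _ => hp a ha hai, fun h p hp => h p fun a ha hai => hp a ha hai trivial⟩

/-- If all representations with a handle of scalar commutant are in the closure of the integral
ones, then all representations are. -/
theorem zd_of_good (hg : 2 ≤ g) {R : Subring ℂ} (hR : ∀ z ∈ R, z ∈ acl (∅ : Set ℂ))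
    {J : Fin s → Mat n} (hJ : ∀ j a b, J j a b ∈ acl (∅ : Set ℂ)) (hJd : ∀ j, (J j).det = 1)
    (h : ∀ x : St g s n, PRep J x → (∃ i, ScalarCommutant (x.1 i)) → Zd R J x) :
    ∀ x : St g s n, PRep J x → Zd R J x := fun x hx =>
  zdOn_true.1 (zdOn_of_good hg hR hJ hJd (fun y hy hi => zdOn_true.2 (h y hy hi)) x hx)

end P002Punct
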