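import Vale.Agent.P002Surf.Twist

/-!
Representations of punctured surface groups with prescribed boundary classes.

A state is a tuple of handles `q` and of conjugators `h` (all of determinant one); the boundary
matrices are `h J h⁻¹`.  Integrality refers to a subring of `ℂ`.
-/

namespace P002Punct

open Matrix P002Surf

variable {g s n : ℕ}

/-- Handles and boundary conjugators. -/
abbrev St (g s n : ℕ) := (Fin g → Pair n) × (Fin s → Mat n)

/-- The coordinates of a state. -/
abbrev Var (g s n : ℕ) := Idx g n ⊕ (Fin s × Fin n × Fin n)

/-- The entries of a state. -/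
def sev (x : St g s n) : Var g s n → ℂ :=
  Sum.elim (ev x.1) fun v => x.2 v.1 v.2.1 v.2.2

/-- The state with given entries. -/
def unev (v : Var g s n → ℂ) : St g s n :=
  (fun i => (Matrix.of fun a b => v (.inl (i, false, a, b)), Matrix.of fun a b => v (.inl (i, true, a, b))),
    fun j => Matrix.of fun a b => v (.inr (j, a, b)))

theorem unev_sev (x : St g s n) : unev (sev x) = x := rfl

theorem sev_unev (v : Var g s n → ℂ) : sev (unev v) = v := by
  funext w
  rcases w with ⟨i, b, r, c⟩ | ⟨j, r, c⟩
  · cases b <;> rfl
  · rfl

/-- The boundary matrix of a conjugator. -/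
def bd (J h : Mat n) : Mat n := h * J * h.adjugate

/-- The boundary matrices of a state. -/
def bdList (J : Fin s → Mat n) (x : St g s n) : List (Mat n) := List.ofFn fun j => bd (J j) (x.2 j)

/-- The product of the commutators. -/
def hprod (x : St g s n) : Mat n := (List.ofFn fun i => cm (x.1 i)).prod

/-- A representation of the punctured surface group with boundary classes given by `J`. -/
def PRep (J : Fin s → Mat n) (x : St g s n) : Prop :=
  (∀ i, SL1 (x.1 i)) ∧ (∀ j, (x.2 j).det = 1) ∧ hprod x * (bdList J x).prod = 1

/-- All entries of a matrix lie in `R`. -/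
def IntM (R : Subring ℂ) (M : Mat n) : Prop := ∀ a b, M a b ∈ R

/-- All entries of a state lie in `R`. -/
def IntSt (R : Subring ℂ) (x : St g s n) : Prop := ∀ v, sev x v ∈ R

/-- The Zariski closure of the representations with entries in `R`. -/
def Zd (R : Subring ℂ) (J : Fin s → Mat n) (x : St g s n) : Prop :=
  ∀ p : MvPolynomial (Var g s n) ℂ,
    (∀ a : St g s n, PRep J a → IntSt R a → MvPolynomial.eval (sev a) p = 0) →
      MvPolynomial.eval (sev x) p = 0

end P002Punct
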