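import Vale.Agent.P002Punct.Indep

/-!
Along an analytic curve of determinant one matrices independence fails at most countably often.
-/

namespace P002Punct

open P002Surf Matrix Polynomial Filter Topology

open scoped Matrix.Norms.Operator

variable {n : ℕ}

/-- The converse of `Gen.indep`. -/
theorem Gen.of_indep {K : Mat n} (h : Indep K) : Gen K := by
  classical
  obtain ⟨P, μ, hP, hμ⟩ := h
  have hc : K.charpoly = ∏ i, (X - C (μ i)) := by
    rw [hP.2.2]
    have hu := isUnit_det_of_ne hP.1
    have := Matrix.charpoly_units_conj (Matrix.nonsingInvUnit P hu) (diagonal μ)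
    exact this.trans (charpoly_diagonal μ)
  intro i
  rw [genFun, symFun_eq _ _ hc]
  cases i with
  | none =>
    simp only [genPoly, discPoly, map_prod, map_sub, MvPolynomial.eval_X]
    exact Finset.prod_ne_zero_iff.2 fun p hp =>
      sub_ne_zero.2 (hP.2.1.ne (Finset.mem_offDiag.1 hp).2.2)
  | some m =>
    simp only [genPoly, relPoly, map_prod]
    refine Finset.prod_ne_zero_iff.2 fun σ _ h0 => m.2.2 ?_
    simp only [map_sub, mon, map_prod, map_pow, MvPolynomial.eval_X, sub_eq_zero] at h0
    set α := fun j => m.1.1 (σ j) with hα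
    set β := fun j => m.1.2 (σ j) with hβ
    have hsum : ∑ j, α j = ∑ j, β j := by
      rw [hα, hβ, Equiv.sum_comp σ m.1.1, Equiv.sum_comp σ m.1.2, m.2.1]
    rcases Nat.eq_zero_or_pos n with rfl | hn
    · exact funext fun j => j.elim0
    have hkey : ∀ w : Fin n → ℂ, (∑ j, w j) = 0 → ∑ j, ((α j : ℂ) - β j) * w j = 0 := by
      intro w hw
      let F : ℂ → ℂ := fun t => ∑ j, ((α j : ℂ) - β j) * w j * t
      have hev : ∀ t : ℂ, Complex.exp (F t) = 1 := fun t => by
        have e := hμ α β h0 (fun j => Complex.exp (w j * t))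
          (by rw [← Complex.exp_sum, ← Finset.sum_mul, hw, zero_mul, Complex.exp_zero])
        simp only [← Complex.exp_nat_mul, ← Complex.exp_sum] at e
        simp only [F, sub_mul, Finset.sum_sub_distrib, Complex.exp_sub, mul_assoc, e]
        exact div_self (Complex.exp_ne_zero _)
      have hd : HasDerivAt (fun t => Complex.exp (F t))
          (∑ j, ((α j : ℂ) - β j) * w j) 0 := by
        have h1 : HasDerivAt F (∑ j, ((α j : ℂ) - β j) * w j) 0 :=
          HasDerivAt.fun_sum fun j _ => by
            simpa using (hasDerivAt_id (0 : ℂ)).const_mul (((α j : ℂ) - β j) * w j)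
        simpa [F] using h1.cexp
      exact hd.unique ((hasDerivAt_const (0 : ℂ) (1 : ℂ)).congr_of_eventuallyEq
        (Eventually.of_forall hev))
    have heq : ∀ i j, (α i : ℂ) - β i = α j - β j := fun i j => by
      rcases eq_or_ne i j with rfl | hij
      · rfl
      have := hkey (Pi.single i 1 - Pi.single j 1) (by simp [Finset.sum_sub_distrib])
      simpa [Pi.single_apply, mul_sub, Finset.sum_sub_distrib, sub_eq_zero] using this
    have hz : ∀ j, (α j : ℂ) - β j = 0 := fun j => by
      have e : ∑ k, ((α k : ℂ) - β k) = 0 := by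
        rw [Finset.sum_sub_distrib, ← Nat.cast_sum, ← Nat.cast_sum, hsum, sub_self]
      rw [Finset.sum_congr rfl (fun k _ => heq k j), Finset.sum_const, Finset.card_univ,
        Fintype.card_fin, nsmul_eq_mul, mul_eq_zero] at e
      exact e.resolve_left (Nat.cast_ne_zero.2 hn.ne')
    funext j
    have := hz (σ.symm j)
    rw [sub_eq_zero, Nat.cast_inj] at this
    simpa [hα, hβ] using this

theorem differentiableOn_genFun {γ : ℂ → Mat n} {U : Set ℂ} (hγ : DifferentiableOn ℂ γ U)
    (i : Option (Rel n)) : DifferentiableOn ℂ (fun t => genFun i (γ t)) U := by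
  classical
  have hentry : ∀ a b, DifferentiableOn ℂ (fun t => γ t a b) U := fun a b =>
    ((LinearMap.toContinuousLinearMap
      (Matrix.entryLinearMap ℂ ℂ a b)).differentiable).comp_differentiableOn hγ
  have e : ∀ (k : Fin n) (t : ℂ), cof (γ t) k = (-1) ^ ((k : ℕ) + 1) * ((-1) ^ ((k : ℕ) + 1) *
      ∑ S ∈ Finset.univ.powersetCard ((k : ℕ) + 1),
        ((γ t).submatrix (Subtype.val : S → Fin n) (Subtype.val : S → Fin n)).det) := fun k t => by
    have hk := k.isLt
    have := Matrix.charpoly_coeff_eq_sum_minors (γ t) ((k : ℕ) + 1) (by simp)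
    rw [cof]
    congr 1
    simpa using this
  simp only [genFun, symFun, MvPolynomial.eval_eq, e, Matrix.det_apply', Matrix.submatrix_apply]
  fun_prop

/-- Independence holds off a countable set of parameters. -/
theorem countable_not_indep {γ : ℂ → Mat n} {U : Set ℂ} (hU : IsOpen U) (hc : IsPreconnected U)
    {t₀ : ℂ} (ht₀ : t₀ ∈ U) (hγ : DifferentiableOn ℂ γ U) (hdet : ∀ t ∈ U, (γ t).det = 1)
    (hi : Indep (γ t₀)) : {t | t ∈ U ∧ ¬ Indep (γ t)}.Countable := by
  have hz : ∀ i : Option (Rel n), {t | t ∈ U ∧ genFun i (γ t) = 0}.Countable := by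
    intro i
    set f := fun t => genFun i (γ t) with hf
    have han : AnalyticOnNhd ℂ f U := (differentiableOn_genFun hγ i).analyticOnNhd hU
    have hne : f t₀ ≠ 0 := Gen.of_indep hi i
    have hiso : ∀ t ∈ U, ∀ᶠ u in 𝓝[≠] t, f u ≠ 0 := fun t ht => by
      refine (han t ht).eventually_eq_zero_or_eventually_ne_zero.resolve_left fun h0 => hne ?_
      exact han.eqOn_zero_of_preconnected_of_eventuallyEq_zero hc ht h0 ht₀
    have hdisc : IsDiscrete {t | t ∈ U ∧ f t = 0} := by
      rw [isDiscrete_iff_nhdsNE]
      rintro t ⟨ht, -⟩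
      rw [inf_principal_eq_bot]
      filter_upwards [hiso t ht] with u hu h
      exact hu h.2
    exact (HereditarilyLindelofSpace.isLindelof _).countable hdisc.to_subtype
  refine (Set.countable_iUnion hz).mono fun t ht => ?_
  by_contra hn
  simp only [Set.mem_iUnion, not_exists] at hn
  exact ht.2 (Gen.indep (fun i hi0 => hn i ⟨ht.1, hi0⟩) (hdet t ht.1))

end P002Punct
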