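import Vale.Agent.P002Punct.Move
import Vale.Agent.P002Punct.IndepAnalytic
import Vale.Agent.P002Surf.Section

/-!
Holomorphic families of representations in the closure, and the velocities by which they extend.

Only one point of the closure is needed: along a line through that point the keys of a family have
independent eigenvalues on a dense set, and the closure is closed.
-/

namespace P002Punct

open Matrix Filter Topology P002Surf

open scoped Matrix.Norms.Operator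

variable {g s n : ℕ} (R : Subring ℂ) (J : Fin s → Mat n) (X : Set (St g s n))

/-- The move `M` preserves `X`. -/
def Inv (M : Move g R J) : Prop :=
  ∀ x z, x ∈ X → z.det = 1 → M.key x * z = z * M.key x → M.act x z ∈ X

/-- A holomorphic family inside `X` and the closure. -/
def Fam (x0 : St g s n) {m : ℕ} (Ψ : (Fin m → ℂ) → St g s n) : Prop :=
  Ψ 0 = x0 ∧ ∀ᶠ τ in 𝓝 0, ContDiffAt ℂ 1 Ψ τ ∧ Ψ τ ∈ X ∧ PRep J (Ψ τ) ∧ Zd R J (Ψ τ)

/-- Velocities by which every family extends by one parameter. -/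
def IsVel (x0 v : St g s n) : Prop :=
  ∃ F : ℂ × St g s n → St g s n, ContDiffAt ℂ 1 F (0, x0) ∧ (∀ᶠ x in 𝓝 x0, F (0, x) = x) ∧
    HasDerivAt (fun t => F (t, x0)) v 0 ∧
    ∀ (m : ℕ) (Ψ : (Fin m → ℂ) → St g s n), Fam R J X x0 Ψ →
      Fam R J X x0 (fun τ : Fin (m + 1) → ℂ => F (τ (Fin.last m), Ψ fun j => τ j.castSucc))

variable {R J X} {x0 : St g s n}

theorem fam_const (hx : x0 ∈ X) (hr : PRep J x0) (hz : Zd R J x0) {m : ℕ} :
    Fam R J X x0 (fun _ : Fin m → ℂ => x0) :=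
  ⟨rfl, Eventually.of_forall fun _ => ⟨contDiffAt_const, hx, hr, hz⟩⟩

/-- Along a line from an independent key, the torus action stays in the closure. -/
theorem zd_line (M : Move g R J) {A : ℂ → St g s n} {Z : ℂ → Mat n} {U : Set ℂ} (hU : IsOpen U)
    (hc : IsPreconnected U) (h0 : (0 : ℂ) ∈ U) {t : ℂ} (ht : t ∈ U) (hi : Indep (M.key (A 0)))
    (h : ∀ u ∈ U, ContDiffAt ℂ 1 A u ∧ ContDiffAt ℂ 1 Z u ∧ PRep J (A u) ∧ Zd R J (A u) ∧
      (Z u).det = 1 ∧ M.key (A u) * Z u = Z u * M.key (A u)) :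
    Zd R J (M.act (A t) (Z t)) := by
  have hd : DifferentiableOn ℂ (fun u => M.key (A u)) U := fun u hu =>
    ((M.contDiff_key (h u hu).1).differentiableAt one_ne_zero).differentiableWithinAt
  have hcl : t ∈ closure {u | u ∈ U ∧ Indep (M.key (A u))} := by
    have hcount := countable_not_indep hU hc h0 hd (fun u hu => M.key_det _ (h u hu).2.2.1) hi
    refine closure_mono ?_ ((hcount.dense_compl ℂ).open_subset_closure_inter hU ht)
    rintro u ⟨hu, hu'⟩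
    exact ⟨hu, not_not.1 fun hn => hu' ⟨hu, hn⟩⟩
  have hcont : ContinuousAt (fun u => M.act (A u) (Z u)) t :=
    (M.contDiff_act (h t ht).1 (h t ht).2.1).continuousAt
  have hmem := hcont.continuousWithinAt.mem_closure hcl (t := {x | Zd R J x})
    (fun u hu => M.zd_act (h u hu.1).2.2.2.1 hu.2 (h u hu.1).2.2.2.2.1 (h u hu.1).2.2.2.2.2)
  rw [isClosed_zd.closure_eq] at hmem
  exact hmem

theorem isPreconnected_line {E : Type*} [NormedAddCommGroup E] [NormedSpace ℂ E] (τ : E) (ε : ℝ) :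
    IsPreconnected ((fun u : ℂ => u • τ) ⁻¹' Metric.ball 0 ε) := by
  rcases eq_or_ne τ 0 with rfl | hτ
  · rcases lt_or_ge 0 ε with h | h
    · rw [show (fun u : ℂ => u • (0 : E)) ⁻¹' Metric.ball 0 ε = Set.univ by ext u; simp [h]]
      exact isPreconnected_univ
    · rw [show (fun u : ℂ => u • (0 : E)) ⁻¹' Metric.ball 0 ε = ∅ by ext u; simp [h]]
      exact isPreconnected_empty
  · rw [show (fun u : ℂ => u • τ) ⁻¹' Metric.ball 0 ε = Metric.ball 0 (ε / ‖τ‖) by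
      ext u
      simp [norm_smul, lt_div_iff₀ (norm_pos_iff.2 hτ)]]
    exact (convex_ball (0 : ℂ) (ε / ‖τ‖)).isPreconnected

/-- Acting along a family keeps it in the closure, if the key at the centre is independent. -/
theorem fam_act (M : Move g R J) (hX : Inv R J X M) {m : ℕ} {Ψ : (Fin m → ℂ) → St g s n}
    (hΨ : Fam R J X x0 Ψ) (hi : Indep (M.key x0)) {m' : ℕ}
    (P : (Fin m' → ℂ) →L[ℂ] (Fin m → ℂ)) {z : (Fin m' → ℂ) → Mat n}
    (hz : ∀ᶠ τ in 𝓝 0, ContDiffAt ℂ 1 z τ ∧ (z τ).det = 1 ∧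
      M.key (Ψ (P τ)) * z τ = z τ * M.key (Ψ (P τ))) :
    Fam R J X (M.act x0 (z 0)) (fun τ => M.act (Ψ (P τ)) (z τ)) := by
  obtain ⟨h0, hev⟩ := hΨ
  refine ⟨by simp [h0], ?_⟩
  have hP : ∀ᶠ τ in 𝓝 (0 : Fin m' → ℂ), ContDiffAt ℂ 1 Ψ (P τ) ∧ Ψ (P τ) ∈ X ∧ PRep J (Ψ (P τ)) ∧
      Zd R J (Ψ (P τ)) := by
    have ht : Tendsto P (𝓝 0) (𝓝 0) := by simpa using P.continuous.tendsto 0
    exact ht.eventually hev
  obtain ⟨ε, hε, hball⟩ := Metric.eventually_nhds_iff_ball.1 (hP.and hz)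
  refine Metric.eventually_nhds_iff_ball.2 ⟨ε, hε, fun τ hτ => ?_⟩
  have hcd : ∀ σ ∈ Metric.ball (0 : Fin m' → ℂ) ε,
      ContDiffAt ℂ 1 (fun τ => M.act (Ψ (P τ)) (z τ)) σ := fun σ hσ =>
    M.contDiff_act ((hball σ hσ).1.1.comp σ P.contDiff.contDiffAt) (hball σ hσ).2.1
  obtain ⟨⟨-, hX', hr, -⟩, -, hd, hc⟩ := hball τ hτ
  refine ⟨hcd τ hτ, hX _ _ hX' hd hc, M.rep _ _ hr hd hc, ?_⟩
  have hl : ∀ u : ℂ, ContDiffAt ℂ 1 (fun u : ℂ => u • τ) u := fun u =>
    (contDiff_id.smul contDiff_const).contDiffAt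
  have hU : ∀ u ∈ (fun u : ℂ => u • τ) ⁻¹' Metric.ball (0 : Fin m' → ℂ) ε,
      ContDiffAt ℂ 1 (fun u => Ψ (P (u • τ))) u ∧ ContDiffAt ℂ 1 (fun u => z (u • τ)) u ∧
      PRep J (Ψ (P (u • τ))) ∧ Zd R J (Ψ (P (u • τ))) ∧ (z (u • τ)).det = 1 ∧
      M.key (Ψ (P (u • τ))) * z (u • τ) = z (u • τ) * M.key (Ψ (P (u • τ))) := fun u hu =>
    ⟨(hball _ hu).1.1.comp u (P.contDiff.contDiffAt.comp u (hl u)),
      (hball _ hu).2.1.comp u (hl u), (hball _ hu).1.2.2.1, (hball _ hu).1.2.2.2, (hball _ hu).2.2⟩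
  have h := zd_line M (A := fun u => Ψ (P (u • τ))) (Z := fun u => z (u • τ))
    (Metric.isOpen_ball.preimage (continuous_id.smul continuous_const)) (isPreconnected_line τ ε)
    (by simpa using hε) (t := 1) (by simpa using hτ) (by simpa [h0] using hi) hU
  simpa using h

/-- The projection forgetting the last parameter. -/
noncomputable def initL (m : ℕ) : (Fin (m + 1) → ℂ) →L[ℂ] (Fin m → ℂ) :=
  ContinuousLinearMap.pi fun j => ContinuousLinearMap.proj j.castSucc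

/-- A one parameter family of commuting matrices gives a velocity. -/
theorem isVel_act (M : Move g R J) (hX : Inv R J X M) (hi : Indep (M.key x0))
    {z : ℂ × St g s n → Mat n} (hz0 : ∀ᶠ x in 𝓝 x0, z (0, x) = 1)
    (hz : ∀ᶠ a in 𝓝 ((0 : ℂ), x0), ContDiffAt ℂ 1 z a ∧ (z a).det = 1 ∧
      M.key a.2 * z a = z a * M.key a.2)
    {v : St g s n} (hv : HasDerivAt (fun t => M.act x0 (z (t, x0))) v 0) :
    IsVel R J X x0 v := by
  refine ⟨fun a => M.act a.2 (z a), M.contDiff_act contDiff_snd.contDiffAt hz.self_of_nhds.1,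
    hz0.mono fun x hx => by simp [hx, M.act_one], hv, fun m Ψ hΨ => ?_⟩
  let f : (Fin (m + 1) → ℂ) → ℂ × St g s n := fun τ => (τ (Fin.last m), Ψ (initL m τ))
  have hf0 : f 0 = (0, x0) := by simp [f, hΨ.1]
  have hf : ∀ᶠ τ in 𝓝 0, ContDiffAt ℂ 1 f τ := by
    have ht : Tendsto (initL m) (𝓝 0) (𝓝 0) := by simpa using (initL m).continuous.tendsto 0
    filter_upwards [ht.eventually hΨ.2] with τ hτ
    exact (contDiff_apply ℂ ℂ (Fin.last m)).contDiffAt.prodMk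
      (hτ.1.comp τ (initL m).contDiff.contDiffAt)
  have hzf : ∀ᶠ τ in 𝓝 0, ContDiffAt ℂ 1 (fun τ => z (f τ)) τ ∧ (z (f τ)).det = 1 ∧
      M.key (Ψ (initL m τ)) * z (f τ) = z (f τ) * M.key (Ψ (initL m τ)) := by
    have ht : Tendsto f (𝓝 0) (𝓝 (0, x0)) := hf0 ▸ hf.self_of_nhds.continuousAt.tendsto
    filter_upwards [hf, ht.eventually hz] with τ h1 h2
    exact ⟨h2.1.comp τ h1, h2.2⟩
  have h := fam_act M hX hΨ hi (initL m) (z := fun τ => z (f τ)) hzf
  rw [hf0, hz0.self_of_nhds, M.act_one] at h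
  exact h

/-- Acting by a function of the key. -/
def actBy (M : Move g R J) (φ : Mat n → Mat n) (x : St g s n) : St g s n := M.act x (φ (M.key x))

theorem fam_actBy (M : Move g R J) (hX : Inv R J X M) (hi : Indep (M.key x0)) {φ : Mat n → Mat n}
    (hφ : ∀ᶠ K in 𝓝 (M.key x0), ContDiffAt ℂ 1 φ K ∧ (φ K).det = 1 ∧ K * φ K = φ K * K)
    {m : ℕ} {Ψ : (Fin m → ℂ) → St g s n} (hΨ : Fam R J X x0 Ψ) :
    Fam R J X (actBy M φ x0) (fun τ => actBy M φ (Ψ τ)) := by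
  have hk : ContinuousAt (fun τ => M.key (Ψ τ)) 0 :=
    (M.contDiff_key hΨ.2.self_of_nhds.1).continuousAt
  have hzf : ∀ᶠ τ in 𝓝 0, ContDiffAt ℂ 1 (fun τ => φ (M.key (Ψ τ))) τ ∧
      (φ (M.key (Ψ τ))).det = 1 ∧ M.key (Ψ τ) * φ (M.key (Ψ τ)) = φ (M.key (Ψ τ)) * M.key (Ψ τ) := by
    have ht : Tendsto (fun τ => M.key (Ψ τ)) (𝓝 0) (𝓝 (M.key x0)) := by
      simpa [hΨ.1] using hk.tendsto
    filter_upwards [hΨ.2, ht.eventually hφ] with τ h1 h2
    exact ⟨h2.1.comp τ (M.contDiff_key h1.1), h2.2⟩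
  have h := fam_act M hX hΨ hi (ContinuousLinearMap.id ℂ _) (z := fun τ => φ (M.key (Ψ τ))) hzf
  simpa only [hΨ.1, actBy, ContinuousLinearMap.id_apply] using h

theorem eventually_fderiv_actBy (M : Move g R J) {φ : Mat n → Mat n}
    (hφ : ∀ᶠ K in 𝓝 (M.key x0), ContDiffAt ℂ 1 φ K ∧ (φ K).det = 1 ∧ K * φ K = φ K * K) :
    ContDiffAt ℂ 1 (actBy M φ) x0 ∧ ∀ᶠ x in 𝓝 x0,
      actBy M (fun K => (φ K).adjugate) (actBy M φ x) = x ∧ M.key (actBy M φ x) = M.key x := by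
  refine ⟨M.contDiff_act contDiffAt_id
    (hφ.self_of_nhds.1.comp x0 (M.contDiff_key contDiffAt_id)), ?_⟩
  have ht : Tendsto M.key (𝓝 x0) (𝓝 (M.key x0)) :=
    (M.contDiff_key (F := id) contDiffAt_id).continuousAt.tendsto
  filter_upwards [ht.eventually hφ] with x hx
  obtain ⟨-, hd, hc⟩ := hx
  have hk := M.key_act x _ hd hc
  refine ⟨?_, hk⟩
  show M.act (M.act x (φ (M.key x))) (φ (M.key (M.act x (φ (M.key x))))).adjugate = x
  rw [hk, M.act_act x _ _ hd hc, mul_adj_one hd, M.act_one]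

/-- Velocities are carried back by moves. -/
theorem isVel_conj (M : Move g R J) (hX : Inv R J X M) (hi : Indep (M.key x0)) {φ : Mat n → Mat n}
    (hφ : ∀ᶠ K in 𝓝 (M.key x0), ContDiffAt ℂ 1 φ K ∧ (φ K).det = 1 ∧ K * φ K = φ K * K)
    {v : St g s n} (hv : IsVel R J X (actBy M φ x0) v) :
    IsVel R J X x0
      (fderiv ℂ (actBy M fun K => (φ K).adjugate) (actBy M φ x0) v) := by
  obtain ⟨F, hF, hF0, hFd, hFm⟩ := hv
  obtain ⟨hW, hinv⟩ := eventually_fderiv_actBy M hφ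
  obtain ⟨hinv0, hk0⟩ := hinv.self_of_nhds
  have hφ' : ∀ᶠ K in 𝓝 (M.key (actBy M φ x0)), ContDiffAt ℂ 1 (fun K => (φ K).adjugate) K ∧
      (φ K).adjugate.det = 1 ∧ K * (φ K).adjugate = (φ K).adjugate * K := by
    rw [hk0]
    filter_upwards [hφ] with K ⟨h1, h2, h3⟩
    refine ⟨contDiff_adjugate.contDiffAt.comp K h1, det_adj_one h2, ?_⟩
    calc K * (φ K).adjugate = (φ K).adjugate * (φ K * K) * (φ K).adjugate := by
          rw [← Matrix.mul_assoc _ (φ K) K, adj_mul_one h2, Matrix.one_mul]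
      _ = _ := by rw [← h3, Matrix.mul_assoc, Matrix.mul_assoc K, mul_adj_one h2, Matrix.mul_one]
  have hW' := (eventually_fderiv_actBy M hφ').1
  have hp : ContDiffAt ℂ 1 (fun a : ℂ × St g s n => (a.1, actBy M φ a.2)) ((0 : ℂ), x0) :=
    contDiff_fst.contDiffAt.prodMk (hW.comp ((0 : ℂ), x0) contDiff_snd.contDiffAt)
  have hin : ContDiffAt ℂ 1 (fun a : ℂ × St g s n => F (a.1, actBy M φ a.2)) ((0 : ℂ), x0) :=
    ContDiffAt.comp (g := F) _ hF hp
  refine ⟨fun a => actBy M (fun K => (φ K).adjugate) (F (a.1, actBy M φ a.2)), ?_, ?_, ?_,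
    fun m Ψ hΨ => ?_⟩
  · refine ContDiffAt.comp (g := actBy M fun K => (φ K).adjugate) _ ?_ hin
    show ContDiffAt ℂ 1 _ (F (0, actBy M φ x0))
    rw [hF0.self_of_nhds]
    exact hW'
  · filter_upwards [hinv, hW.continuousAt.tendsto.eventually hF0] with x h1 h2
    simp only [h2, h1.1]
  · exact HasFDerivAt.comp_hasDerivAt_of_eq (0 : ℂ) (hW'.differentiableAt one_ne_zero).hasFDerivAt
      hFd hF0.self_of_nhds.symm
  · have h := fam_actBy M hX (by rw [hk0]; exact hi) hφ' (hFm m _ (fam_actBy M hX hi hφ hΨ))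
    rw [hinv0] at h
    exact h

/-- Velocities can be realised together in one family. -/
theorem exists_fam_finset (hx : x0 ∈ X) (hr : PRep J x0) (hz : Zd R J x0) (t : Finset (St g s n))
    (ht : ∀ v ∈ t, IsVel R J X x0 v) :
    ∃ (m : ℕ) (Ψ : (Fin m → ℂ) → St g s n), Fam R J X x0 Ψ ∧
      Submodule.span ℂ (t : Set (St g s n)) ≤ (fderiv ℂ Ψ 0).range := by
  classical
  induction t using Finset.induction with
  | empty => exact ⟨0, _, fam_const hx hr hz, by simp⟩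
  | insert v t hvt ih =>
    obtain ⟨m, Ψ, hΨ, hle⟩ := ih fun w hw => ht w (Finset.mem_insert_of_mem hw)
    obtain ⟨F, hF, hF0, hFd, hFm⟩ := ht v (Finset.mem_insert_self v t)
    refine ⟨m + 1, _, hFm m Ψ hΨ, ?_⟩
    let D := fderiv ℂ F (0, x0)
    have hFs : HasFDerivAt F D (0, x0) := (hF.differentiableAt one_ne_zero).hasFDerivAt
    have hΨd : HasFDerivAt Ψ (fderiv ℂ Ψ 0) 0 :=
      (hΨ.2.self_of_nhds.1.differentiableAt one_ne_zero).hasFDerivAt
    let Pl : (Fin (m + 1) → ℂ) →L[ℂ] ℂ := ContinuousLinearMap.proj (Fin.last m)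
    have hD0 : ∀ u : St g s n, D (0, u) = u := by
      have h1 : HasFDerivAt (fun x : St g s n => F ((0 : ℂ), x))
          (D.comp (ContinuousLinearMap.inr ℂ ℂ (St g s n))) x0 :=
        HasFDerivAt.comp x0 hFs (ContinuousLinearMap.inr ℂ ℂ (St g s n)).hasFDerivAt
      have h2 : HasFDerivAt (fun x : St g s n => F ((0 : ℂ), x))
          (ContinuousLinearMap.id ℂ (St g s n)) x0 :=
        (hasFDerivAt_id x0).congr_of_eventuallyEq hF0
      intro u
      exact congrArg (fun T : St g s n →L[ℂ] St g s n => T u) (h1.unique h2)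
    have hD1 : D (1, 0) = v := by
      have h1 : HasDerivAt (fun t : ℂ => F (t, x0)) (D (1, 0)) 0 :=
        HasFDerivAt.comp_hasDerivAt (0 : ℂ) hFs
          ((hasDerivAt_id (0 : ℂ)).prodMk (hasDerivAt_const (0 : ℂ) x0))
      exact h1.unique hFd
    have hd : HasFDerivAt (fun τ => F (Pl τ, Ψ (initL m τ)))
        (D.comp (Pl.prod ((fderiv ℂ Ψ 0).comp (initL m)))) 0 := by
      refine HasFDerivAt.comp (g := F) 0 ?_ (Pl.hasFDerivAt.prodMk
        (HasFDerivAt.comp (g := Ψ) 0 (by rw [map_zero]; exact hΨd) (initL m).hasFDerivAt))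
      rw [map_zero, map_zero, hΨ.1]
      exact hFs
    have hd' : fderiv ℂ (fun τ : Fin (m + 1) → ℂ => F (τ (Fin.last m), Ψ fun j => τ j.castSucc)) 0 =
        D.comp (Pl.prod ((fderiv ℂ Ψ 0).comp (initL m))) := hd.fderiv
    rw [hd', Finset.coe_insert, Submodule.span_le, Set.insert_subset_iff]
    refine ⟨⟨Fin.snoc 0 1, ?_⟩, fun w hw => ?_⟩
    · show D (Pl (Fin.snoc 0 1), fderiv ℂ Ψ 0 (initL m (Fin.snoc 0 1))) = v
      rw [show Pl (Fin.snoc (0 : Fin m → ℂ) 1) = 1 by simp [Pl],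
        show initL m (Fin.snoc (0 : Fin m → ℂ) (1 : ℂ)) = 0 by ext j; simp [initL], map_zero, hD1]
    · obtain ⟨τ, rfl⟩ := hle (Submodule.subset_span hw)
      refine ⟨Fin.snoc τ 0, ?_⟩
      show D (Pl (Fin.snoc τ 0), fderiv ℂ Ψ 0 (initL m (Fin.snoc τ 0))) = fderiv ℂ Ψ 0 τ
      rw [show Pl (Fin.snoc τ (0 : ℂ)) = 0 by simp [Pl],
        show initL m (Fin.snoc τ (0 : ℂ)) = τ by ext j; simp [initL], hD0]

/-- If the velocities fill the kernel of the differential of `N`, which is constant on `X`, then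
the level set of `N` near the point lies in the closure. -/
theorem nhds_of_span {E : Type*} [NormedAddCommGroup E] [NormedSpace ℂ E] {N : St g s n → E}
    (hN : ContDiffAt ℂ 1 N x0) (hconst : ∀ y ∈ X, N y = N x0) (hx : x0 ∈ X) (hr : PRep J x0)
    (hz : Zd R J x0)
    (hspan : ∀ u, fderiv ℂ N x0 u = 0 → u ∈ Submodule.span ℂ {v | IsVel R J X x0 v}) :
    ∀ᶠ y in 𝓝 x0, N y = N x0 → Zd R J y := by
  classical
  obtain ⟨b, hb, hsp, hli⟩ := exists_linearIndependent ℂ {v | IsVel R J X x0 v}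
  have hfin : b.Finite := hli.setFinite
  obtain ⟨m, Ψ, hΨ, hle⟩ := exists_fam_finset hx hr hz hfin.toFinset
    (fun v hv => hb (hfin.mem_toFinset.1 hv))
  rw [Set.Finite.coe_toFinset, hsp] at hle
  have hd : HasStrictFDerivAt Ψ (fderiv ℂ Ψ 0) 0 :=
    hΨ.2.self_of_nhds.1.hasStrictFDerivAt one_ne_zero
  set L := fderiv ℂ Ψ 0 with hL
  have hker : (fderiv ℂ N x0).ker ≤ L.range := fun u hu => hle (hspan u (LinearMap.mem_ker.1 hu))
  have hNs : HasStrictFDerivAt N (fderiv ℂ N x0) x0 := hN.hasStrictFDerivAt one_ne_zero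
  obtain ⟨K, hK⟩ := Submodule.exists_isCompl L.range
  let ι : K →L[ℂ] St g s n := K.subtypeL
  have hinj : ((fderiv ℂ N x0).comp ι).toLinearMap.ker = ⊥ := by
    rw [Submodule.eq_bot_iff]
    rintro ⟨c, hc⟩ hc0
    have : c ∈ L.range ⊓ K := ⟨hker hc0, hc⟩
    rw [hK.inf_eq_bot, Submodule.mem_bot] at this
    exact Subtype.ext this
  obtain ⟨κ, hκ0, hκ⟩ := LinearMap.exists_antilipschitzWith _ hinj
  let Λ : (Fin m → ℂ) × K → St g s n := fun p => Ψ p.1 + ι p.2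
  have hΛ : HasStrictFDerivAt Λ (L.comp (ContinuousLinearMap.fst ℂ _ _) +
      ι.comp (ContinuousLinearMap.snd ℂ _ _)) 0 :=
    (HasStrictFDerivAt.comp (g := Ψ) (0 : (Fin m → ℂ) × K) hd hasStrictFDerivAt_fst).fun_add
      (HasStrictFDerivAt.comp (g := fun c => ι c) (0 : (Fin m → ℂ) × K) ι.hasStrictFDerivAt
        hasStrictFDerivAt_snd)
  have hmap := hΛ.map_nhds_eq_of_surj (by
    rw [eq_top_iff]
    intro u _
    have : u ∈ L.range ⊔ K := by rw [hK.sup_eq_top]; trivial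
    obtain ⟨a, ⟨τ, rfl⟩, c, hc, rfl⟩ := Submodule.mem_sup.1 this
    exact ⟨(τ, ⟨c, hc⟩), rfl⟩)
  have hΛ0 : Λ 0 = x0 := by simp [Λ, hΨ.1]
  rw [hΛ0] at hmap
  have hε : ∀ᶠ p in 𝓝 (x0, x0), ‖N p.1 - N p.2 - fderiv ℂ N x0 (p.1 - p.2)‖ ≤
      (2 * (κ : ℝ))⁻¹ * ‖p.1 - p.2‖ :=
    (hasStrictFDerivAt_iff_isLittleO.1 hNs).def (by positivity)
  have hgood : ∀ᶠ p : (Fin m → ℂ) × K in 𝓝 0, N (Λ p) = N x0 → Zd R J (Λ p) := by
    have ht1 : Tendsto (fun p : (Fin m → ℂ) × K => (Λ p, Ψ p.1)) (𝓝 0) (𝓝 (x0, x0)) := by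
      have := (hΛ.continuousAt.prodMk
        (ContinuousAt.comp (g := Ψ) (x := (0 : (Fin m → ℂ) × K)) hd.continuousAt
          continuous_fst.continuousAt)).tendsto
      simpa [hΛ0, hΨ.1] using this
    have ht2 : Tendsto (fun p : (Fin m → ℂ) × K => p.1) (𝓝 0) (𝓝 0) :=
      continuous_fst.tendsto _
    filter_upwards [ht1.eventually hε, ht2.eventually hΨ.2] with p hp hmv hNp
    have hdiff : Λ p - Ψ p.1 = ι p.2 := by simp [Λ]
    simp only [hNp, hconst _ hmv.2.1, hdiff, sub_self, zero_sub, norm_neg] at hp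
    have hanti := hκ.le_mul_dist p.2 0
    simp only [dist_zero_right, map_zero] at hanti
    have hnorm : ‖p.2‖ = ‖ι p.2‖ := rfl
    have hc0 : p.2 = 0 := by
      rw [← norm_eq_zero]
      have h3 : ‖p.2‖ ≤ (κ : ℝ) * ((2 * (κ : ℝ))⁻¹ * ‖p.2‖) :=
        hanti.trans (mul_le_mul_of_nonneg_left (by rw [hnorm]; exact hp) κ.coe_nonneg)
      have h4 : (κ : ℝ) * ((2 * (κ : ℝ))⁻¹ * ‖p.2‖) = ‖p.2‖ / 2 := by
        have : (κ : ℝ) ≠ 0 := by positivity
        field_simp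
      rw [h4] at h3
      linarith [norm_nonneg p.2]
    have : Λ p = Ψ p.1 := by simp [Λ, hc0]
    rw [this]
    exact hmv.2.2.2
  have : ∀ᶠ y in Filter.map Λ (𝓝 0), N y = N x0 → Zd R J y := eventually_map.2 hgood
  exact this.filter_mono hmap.ge

end P002Punct
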