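import Vale.Agent.P002Punct.Defs
import Vale.Agent.P002.Surface.Height

/-!
Rings of integers of number fields inside `ℂ`.
-/

namespace P002Punct

/-- The algebraic integers of a subfield of `ℂ`. -/
noncomputable def intRing (L : IntermediateField ℚ ℂ) : Subring ℂ :=
  (integralClosure ℤ ℂ).toSubring ⊓ L.toSubalgebra.toSubring

theorem mem_intRing {L : IntermediateField ℚ ℂ} {z : ℂ} :
    z ∈ intRing L ↔ IsIntegral ℤ z ∧ z ∈ L := Iff.rfl

theorem acl_of_mem_intRing {L : IntermediateField ℚ ℂ} {z : ℂ} (h : z ∈ intRing L) :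
    z ∈ Vale.Agent.P002.Surface.acl (∅ : Set ℂ) := by
  have h1 : IsAlgebraic ℚ z := (IsIntegral.tower_top (R := ℤ) (A := ℚ) (mem_intRing.1 h).1).isAlgebraic
  rw [Vale.Agent.P002.Surface.mem_acl_iff]
  exact h1.extendScalars (FaithfulSMul.algebraMap_injective ℚ _)

/-- A number field containing the roots of unity of order `N` and a given one, as integers. -/
theorem exists_field {N : ℕ} (hN : 0 < N) {ω : ℂ} (hω : IsIntegral ℤ ω) :
    ∃ L : IntermediateField ℚ ℂ, FiniteDimensional ℚ L ∧ ω ∈ intRing L ∧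
      ∀ z : ℂ, z ^ N = 1 → z ∈ intRing L := by
  have hroot : ∀ z : ℂ, z ^ N = 1 → IsIntegral ℤ z := fun z hz =>
    ⟨Polynomial.X ^ N - 1, Polynomial.monic_X_pow_sub_C _ hN.ne', by simp [hz]⟩
  let S : Set ℂ := insert ω {z : ℂ | z ^ N = 1}
  have hfin : S.Finite := by
    refine (Set.Finite.subset (Multiset.toFinset (Polynomial.nthRoots N (1 : ℂ))).finite_toSet ?_).insert ω
    intro z hz
    simpa [Polynomial.mem_nthRoots hN] using hz
  have := hfin.to_subtype
  refine ⟨IntermediateField.adjoin ℚ S, IntermediateField.finiteDimensional_adjoin fun z hz => ?_,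
    mem_intRing.2 ⟨hω, IntermediateField.subset_adjoin ℚ S (Set.mem_insert ω _)⟩, fun z hz =>
      mem_intRing.2 ⟨hroot z hz, IntermediateField.subset_adjoin ℚ S (Set.mem_insert_of_mem ω hz)⟩⟩
  rcases hz with rfl | hz
  · exact hω.tower_top
  · exact (hroot z hz).tower_top

end P002Punct
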