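import Vale.Agent.P002Punct.Assemble
import Vale.Agent.P002Punct.Ring
import Vale.Agent.P002Punct.ClassRep

/-!
Translation to tuples in the special linear group.
-/

namespace P002Punct

open Matrix P002Surf

open scoped Matrix.Norms.Operator

variable {g s n : ℕ}

/-- The tuple of a state. -/
noncomputable def tupleOf (J : Fin s → Mat n) (a : St g s n) :
    (Fin g × Bool) ⊕ Fin s → Mat n :=
  Sum.elim (fun v => cond v.2 (a.1 v.1).2 (a.1 v.1).1) fun j => bd (J j) (a.2 j)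

theorem polyM_tuple (J : Fin s → Mat n) (v : (Fin g × Bool) ⊕ Fin s) :
    PolyM fun w : Var g s n → ℂ => tupleOf J (unev w) v := by
  obtain ⟨h1, h2⟩ := polyS_iff.1 (polyS_unev (g := g) (s := s) (n := n))
  rcases v with ⟨i, b⟩ | j
  · cases b
    · exact (h1 i).1
    · exact (h1 i).2
  · exact ((h2 j).mul (polyM_const (J j))).mul (h2 j).adjugate

theorem coe_listProd {k : ℕ} (f : Fin k → Matrix.SpecialLinearGroup (Fin n) ℂ) :
    ((List.ofFn f).prod : Matrix.SpecialLinearGroup (Fin n) ℂ).1 =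
      (List.ofFn fun i => (f i).1).prod := by
  induction k with
  | zero => simp
  | succ k ih =>
    rw [List.ofFn_succ, List.ofFn_succ, List.prod_cons, List.prod_cons, ← ih]
    rfl

theorem coe_comm (a b : Matrix.SpecialLinearGroup (Fin n) ℂ) :
    (a * b * a⁻¹ * b⁻¹ : Matrix.SpecialLinearGroup (Fin n) ℂ).1 = cm (a.1, b.1) := by
  simp [cm, Matrix.SpecialLinearGroup.coe_inv]

/-- The statement for the tuples: dense irreducible integral tuples over one number field. -/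
def DenseTuples (g : ℕ) (C : Fin s → Matrix.SpecialLinearGroup (Fin n) ℂ) : Prop :=
    ∃ L : IntermediateField ℚ ℂ, FiniteDimensional ℚ L ∧
      ∀ p : MvPolynomial (((Fin g × Bool) ⊕ Fin s) × Fin n × Fin n) ℂ,
        (∀ ρ : (Fin g × Bool) ⊕ Fin s → Matrix.SpecialLinearGroup (Fin n) ℂ,
          (List.ofFn fun i => ρ (.inl (i, false)) * ρ (.inl (i, true)) * (ρ (.inl (i, false)))⁻¹ *
            (ρ (.inl (i, true)))⁻¹).prod * (List.ofFn fun j => ρ (.inr j)).prod = 1 →
          (∀ j, IsConj (C j) (ρ (.inr j))) →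
          (∀ v a b, (ρ v).1 a b ∈ L ∧ IsIntegral ℤ ((ρ v).1 a b)) →
          (∀ W : Submodule ℂ (Fin n → ℂ), (∀ v, ∀ w ∈ W, (ρ v).1 *ᵥ w ∈ W) → W = ⊥ ∨ W = ⊤) →
          MvPolynomial.eval (fun t => (ρ t.1).1 t.2.1 t.2.2) p = 0) →
        ∀ ρ : (Fin g × Bool) ⊕ Fin s → Matrix.SpecialLinearGroup (Fin n) ℂ,
          (List.ofFn fun i => ρ (.inl (i, false)) * ρ (.inl (i, true)) * (ρ (.inl (i, false)))⁻¹ *
            (ρ (.inl (i, true)))⁻¹).prod * (List.ofFn fun j => ρ (.inr j)).prod = 1 →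
          (∀ j, IsConj (C j) (ρ (.inr j))) →
          MvPolynomial.eval (fun t => (ρ t.1).1 t.2.1 t.2.2) p = 0

/-- From states to tuples: the integral irreducible states suffice. -/
theorem dense_of_eval (C : Fin s → Matrix.SpecialLinearGroup (Fin n) ℂ)
    (L : IntermediateField ℚ ℂ) (hL : FiniteDimensional ℚ L) (J : Fin s → Mat n)
    (hJd : ∀ j, (J j).det = 1) (hJR : ∀ j, IntM (intRing L) (J j)) {h0 : Fin s → Mat n}
    (hh0 : ∀ j, (h0 j).det = 1) (hh0C : ∀ j, bd (J j) (h0 j) = (C j).1)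
    (heval : ∀ p : MvPolynomial (Var g s n) ℂ,
      (∀ a : St g s n, PRep J a → IntSt (intRing L) a → (∃ i, PairIrr (a.1 i)) →
        MvPolynomial.eval (sev a) p = 0) →
      ∀ x : St g s n, PRep J x → MvPolynomial.eval (sev x) p = 0) : DenseTuples g C := by
  classical
  refine ⟨L, hL, fun p hp ρ hρ hρC => ?_⟩
  choose T hT using fun t : ((Fin g × Bool) ⊕ Fin s) × Fin n × Fin n =>
    polyM_tuple (g := g) J t.1 t.2.1 t.2.2
  have key : ∀ a : St g s n, MvPolynomial.eval (sev a) (MvPolynomial.aeval T p) =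
      MvPolynomial.eval (fun t => tupleOf J a t.1 t.2.1 t.2.2) p := fun a => by
    rw [eval_subst]
    congr 2
    funext t
    exact (hT t (sev a)).symm
  have hq : ∀ a : St g s n, PRep J a → IntSt (intRing L) a → (∃ i, PairIrr (a.1 i)) →
      MvPolynomial.eval (sev a) (MvPolynomial.aeval T p) = 0 := by
    intro a ha hai ⟨i₀, hirr⟩
    rw [key]
    have hdet : ∀ v, (tupleOf J a v).det = 1 := by
      rintro (⟨i, b⟩ | j)
      · cases b
        · exact (ha.1 i).1
        · exact (ha.1 i).2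
      · simp [tupleOf, bd, Matrix.det_mul, hJd j, ha.2.1 j, det_adj_one (ha.2.1 j)]
    let σ : (Fin g × Bool) ⊕ Fin s → Matrix.SpecialLinearGroup (Fin n) ℂ :=
      fun v => ⟨tupleOf J a v, hdet v⟩
    refine hp σ ?_ (fun j => ?_) (fun v x y => ?_) (fun W hW => ?_)
    · apply Subtype.ext
      rw [Matrix.SpecialLinearGroup.coe_mul, coe_listProd, coe_listProd]
      simp only [coe_comm]
      exact ha.2.2
    · let h' : Matrix.SpecialLinearGroup (Fin n) ℂ := ⟨h0 j, hh0 j⟩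
      let a' : Matrix.SpecialLinearGroup (Fin n) ℂ := ⟨a.2 j, ha.2.1 j⟩
      refine isConj_iff.2 ⟨a' * h'⁻¹, ?_⟩
      apply Subtype.ext
      show a.2 j * (h0 j).adjugate * (C j).1 * (a.2 j * (h0 j).adjugate).adjugate = bd (J j) (a.2 j)
      simp only [Matrix.adjugate_mul_distrib, adj_adj_one (hh0 j), ← hh0C j, bd]
      simp only [Matrix.mul_assoc]
      rw [← Matrix.mul_assoc (h0 j).adjugate (h0 j), adj_mul_one (hh0 j), Matrix.one_mul,
        ← Matrix.mul_assoc (h0 j).adjugate (h0 j), adj_mul_one (hh0 j), Matrix.one_mul]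
    · obtain ⟨h1, h2⟩ := intSt_iff.1 hai
      have hmem : tupleOf J a v x y ∈ intRing L := by
        rcases v with ⟨i, b⟩ | j
        · cases b
          · exact (h1 i).1 x y
          · exact (h1 i).2 x y
        · exact ((h2 j).mul (hJR j)).mul (h2 j).adjugate x y
      exact ⟨(mem_intRing.1 hmem).2, (mem_intRing.1 hmem).1⟩
    · exact hirr W fun w hw => ⟨hW (.inl (i₀, false)) w hw, hW (.inl (i₀, true)) w hw⟩
  choose c hc using fun j => isConj_iff.1 (hρC j)
  let x : St g s n := (fun i => ((ρ (.inl (i, false))).1, (ρ (.inl (i, true))).1),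
    fun j => (c j).1 * h0 j)
  have hxbd : ∀ j, bd (J j) (x.2 j) = (ρ (.inr j)).1 := fun j => by
    rw [← hc j]
    simp only [x, bd, Matrix.SpecialLinearGroup.coe_mul, Matrix.SpecialLinearGroup.coe_inv,
      Matrix.adjugate_mul_distrib, ← hh0C j, Matrix.mul_assoc]
  have hx : PRep J x := by
    refine ⟨fun i => ⟨(ρ _).2, (ρ _).2⟩, fun j => by simp [x, Matrix.det_mul, (c j).2, hh0 j], ?_⟩
    have h := congrArg Subtype.val hρ
    rw [Matrix.SpecialLinearGroup.coe_mul, coe_listProd, coe_listProd] at h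
    simp only [coe_comm] at h
    simpa only [hprod, bdList, hxbd, Matrix.SpecialLinearGroup.coe_one] using h
  have := heval _ hq x hx
  rw [key] at this
  convert this using 3
  funext t
  obtain ⟨v, a, b⟩ := t
  rcases v with ⟨i, q⟩ | j
  · cases q <;> rfl
  · show (ρ (.inr j)).1 a b = bd (J j) (x.2 j) a b
    rw [hxbd]

/-- Dense irreducible integral tuples, given seeds. -/
theorem density_of_seed (hg : 2 ≤ g) (hn : 2 ≤ n) (C : Fin s → Matrix.SpecialLinearGroup (Fin n) ℂ)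
    (hC : ∀ j, ∀ z : ℂ, (C j).1.charpoly.IsRoot z → ∃ m : ℕ, 0 < m ∧ z ^ m = 1) {ω : ℂ}
    (hω : IsIntegral ℤ ω)
    (hseed : ∀ (R : Subring ℂ) (J : Fin s → Mat n), ω ∈ R →
      (∀ j, (J j).BlockTriangular (id : Fin n → Fin n)) → (∀ j, (J j).det = 1) →
      (∀ j, IntM R (J j)) → ∃ x : St 2 s n, Zd R J x ∧ Generic (g := 1) J x) :
    ∃ L : IntermediateField ℚ ℂ, FiniteDimensional ℚ L ∧
      ∀ p : MvPolynomial (((Fin g × Bool) ⊕ Fin s) × Fin n × Fin n) ℂ,
        (∀ ρ : (Fin g × Bool) ⊕ Fin s → Matrix.SpecialLinearGroup (Fin n) ℂ,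
          (List.ofFn fun i => ρ (.inl (i, false)) * ρ (.inl (i, true)) * (ρ (.inl (i, false)))⁻¹ *
            (ρ (.inl (i, true)))⁻¹).prod * (List.ofFn fun j => ρ (.inr j)).prod = 1 →
          (∀ j, IsConj (C j) (ρ (.inr j))) →
          (∀ v a b, (ρ v).1 a b ∈ L ∧ IsIntegral ℤ ((ρ v).1 a b)) →
          (∀ W : Submodule ℂ (Fin n → ℂ), (∀ v, ∀ w ∈ W, (ρ v).1 *ᵥ w ∈ W) → W = ⊥ ∨ W = ⊤) →
          MvPolynomial.eval (fun t => (ρ t.1).1 t.2.1 t.2.2) p = 0) →
        ∀ ρ : (Fin g × Bool) ⊕ Fin s → Matrix.SpecialLinearGroup (Fin n) ℂ,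
          (List.ofFn fun i => ρ (.inl (i, false)) * ρ (.inl (i, true)) * (ρ (.inl (i, false)))⁻¹ *
            (ρ (.inl (i, true)))⁻¹).prod * (List.ofFn fun j => ρ (.inr j)).prod = 1 →
          (∀ j, IsConj (C j) (ρ (.inr j))) →
          MvPolynomial.eval (fun t => (ρ t.1).1 t.2.1 t.2.2) p = 0 := by
  classical
  obtain ⟨N, hN, hrep⟩ := exists_class_rep (fun j => (C j).1) (fun j => (C j).2) hC
  obtain ⟨L, hL, hωR, hroots⟩ := exists_field hN hω
  obtain ⟨J, hJ, hJC⟩ := hrep (intRing L) hroots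
  have hJd : ∀ j, (J j).det = 1 := fun j => (hJ j).2.2.1
  have hJR : ∀ j, IntM (intRing L) (J j) := fun j => (hJ j).2.1
  choose h0 hh0 hh0C using hJC
  exact dense_of_eval C L hL J hJd hJR hh0 hh0C fun p hq x hx =>
    all_eval_zero hg (by omega) (fun z hz => acl_of_mem_intRing hz) hJd hJR
      (hseed _ J hωR (fun j => (hJ j).1) hJd hJR) hq hx

/-- In rank at most one there is only one tuple. -/
theorem density_small (hn : n ≤ 1) (C : Fin s → Matrix.SpecialLinearGroup (Fin n) ℂ) :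
    ∃ L : IntermediateField ℚ ℂ, FiniteDimensional ℚ L ∧
      ∀ p : MvPolynomial (((Fin g × Bool) ⊕ Fin s) × Fin n × Fin n) ℂ,
        (∀ ρ : (Fin g × Bool) ⊕ Fin s → Matrix.SpecialLinearGroup (Fin n) ℂ,
          (List.ofFn fun i => ρ (.inl (i, false)) * ρ (.inl (i, true)) * (ρ (.inl (i, false)))⁻¹ *
            (ρ (.inl (i, true)))⁻¹).prod * (List.ofFn fun j => ρ (.inr j)).prod = 1 →
          (∀ j, IsConj (C j) (ρ (.inr j))) →
          (∀ v a b, (ρ v).1 a b ∈ L ∧ IsIntegral ℤ ((ρ v).1 a b)) →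
          (∀ W : Submodule ℂ (Fin n → ℂ), (∀ v, ∀ w ∈ W, (ρ v).1 *ᵥ w ∈ W) → W = ⊥ ∨ W = ⊤) →
          MvPolynomial.eval (fun t => (ρ t.1).1 t.2.1 t.2.2) p = 0) →
        ∀ ρ : (Fin g × Bool) ⊕ Fin s → Matrix.SpecialLinearGroup (Fin n) ℂ,
          (List.ofFn fun i => ρ (.inl (i, false)) * ρ (.inl (i, true)) * (ρ (.inl (i, false)))⁻¹ *
            (ρ (.inl (i, true)))⁻¹).prod * (List.ofFn fun j => ρ (.inr j)).prod = 1 →
          (∀ j, IsConj (C j) (ρ (.inr j))) →
          MvPolynomial.eval (fun t => (ρ t.1).1 t.2.1 t.2.2) p = 0 := by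
  have hone : ∀ (A : Matrix.SpecialLinearGroup (Fin n) ℂ) (a b : Fin n), A.1 a b = 1 := fun A a b => by
    interval_cases n
    · exact a.elim0
    · have h := A.2
      rw [Matrix.det_fin_one] at h
      rwa [Subsingleton.elim a 0, Subsingleton.elim b 0]
  refine ⟨⊥, inferInstance, fun p hp ρ hρ hρC => hp ρ hρ hρC (fun v a b => ?_) (fun W _ => ?_)⟩
  · rw [hone]
    exact ⟨IntermediateField.one_mem _, isIntegral_one⟩
  · have h : Module.finrank ℂ (Fin n → ℂ) ≤ 1 := by rw [Module.finrank_fin_fun]; exact hn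
    have hW := Submodule.finrank_le W
    rcases Nat.eq_zero_or_pos (Module.finrank ℂ W) with h0 | h0
    · exact Or.inl (Submodule.finrank_eq_zero.1 h0)
    · exact Or.inr (Submodule.eq_top_of_finrank_eq (le_antisymm hW (by omega)))

end P002Punct
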