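import Vale.Agent.P002Punct.Indep
import Vale.Agent.P002Surf.Flow

/-!
`G0` as the nonvanishing of one function of a pair that is rational along rational curves.
-/

namespace P002Punct

open P002Surf Matrix

variable {n : ℕ}

/-- Polynomials in the entries of a pair. -/
abbrev PairRing (n : ℕ) := MvPolynomial (Bool × Fin n × Fin n) ℂ

/-- Polynomials in eigenvalues over the entries. -/
abbrev EigRing (n : ℕ) := MvPolynomial (Fin n) (PairRing n)

/-- The generic entry matrices. -/
noncomputable def genMat (b : Bool) : Matrix (Fin n) (Fin n) (EigRing n) :=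
  Matrix.of fun i j => MvPolynomial.C (MvPolynomial.X (b, i, j))

/-- The polynomial vanishing at the other eigenvalues. -/
noncomputable def numPoly {S : Type} [CommRing S] (μ : Fin n → S) (i : Fin n) : Polynomial S :=
  ∏ k ∈ Finset.univ.erase i, (Polynomial.X - Polynomial.C (μ k))

/-- The numerator of a spectral projection. -/
noncomputable def proj {S : Type} [CommRing S] (B : Matrix (Fin n) (Fin n) S) (μ : Fin n → S)
    (i : Fin n) : Matrix (Fin n) (Fin n) S := Polynomial.aeval B (numPoly μ i)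

/-- The product of all conditions of `G0`, in terms of eigenvalues. -/
noncomputable def g0Prod {S : Type} [CommRing S] (A B : Matrix (Fin n) (Fin n) S) (μ : Fin n → S) : S :=
  (∏ i, (proj B μ i * A).trace) * (∏ p : {p : Fin n × Fin n // p.1 ≠ p.2},
      (μ p.1.1 - μ p.1.2) * (proj B μ p.1.1 * A * proj B μ p.1.2 * A).trace) *
    ∏ p : {p : Fin n × Fin n × Fin n // p.1 ≠ p.2.1 ∧ p.2.1 ≠ p.2.2 ∧ p.1 ≠ p.2.2},
      ((proj B μ p.1.1 * A * proj B μ p.1.2.1 * A * proj B μ p.1.2.2 * A).trace -
        (proj B μ p.1.1 * A * proj B μ p.1.2.2 * A * proj B μ p.1.2.1 * A).trace)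

theorem map_aeval_matrix {S T : Type} [CommRing S] [CommRing T] (f : S →+* T)
    (B : Matrix (Fin n) (Fin n) S) (p : Polynomial S) :
    (Polynomial.aeval B p).map f = Polynomial.aeval (B.map f) (p.map f) := by
  show f.mapMatrix _ = _
  induction p using Polynomial.induction_on' with
  | add p q hp hq => simp only [map_add, Polynomial.map_add, hp, hq]
  | monomial k c =>
    rw [Polynomial.map_monomial, Polynomial.aeval_monomial, Polynomial.aeval_monomial, map_mul, map_pow]
    congr 1
    ext a b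
    simp [Matrix.algebraMap_matrix_apply, apply_ite f]

theorem map_g0Prod {S T : Type} [CommRing S] [CommRing T] (f : S →+* T)
    (A B : Matrix (Fin n) (Fin n) S) (μ : Fin n → S) :
    f (g0Prod A B μ) = g0Prod (A.map f) (B.map f) (fun i => f (μ i)) := by
  have hp : ∀ i, (proj B μ i).map f = proj (B.map f) (fun i => f (μ i)) i := fun i => by
    rw [proj, map_aeval_matrix]
    simp [proj, numPoly, Polynomial.map_prod]
  have htr : ∀ M : Matrix (Fin n) (Fin n) S, f M.trace = (M.map f).trace := fun M => by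
    simp [Matrix.trace, map_sum]
  simp only [g0Prod, map_mul, map_prod, map_sub, htr, Matrix.map_mul, hp]

theorem g0Prod_perm {S : Type} [CommRing S] (A B : Matrix (Fin n) (Fin n) S) (μ : Fin n → S)
    (σ : Equiv.Perm (Fin n)) : g0Prod A B (fun i => μ (σ i)) = g0Prod A B μ := by
  have hp : ∀ i, proj B (fun i => μ (σ i)) i = proj B μ (σ i) := fun i => by
    unfold proj numPoly
    congr 1
    exact Finset.prod_equiv σ (fun k => by simp [σ.injective.ne_iff]) (fun k _ => rfl)
  let e₂ : {p : Fin n × Fin n // p.1 ≠ p.2} ≃ {p : Fin n × Fin n // p.1 ≠ p.2} :=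
    (Equiv.prodCongr σ σ).subtypeEquiv fun p => by simp
  let e₃ : {p : Fin n × Fin n × Fin n // p.1 ≠ p.2.1 ∧ p.2.1 ≠ p.2.2 ∧ p.1 ≠ p.2.2} ≃
      {p : Fin n × Fin n × Fin n // p.1 ≠ p.2.1 ∧ p.2.1 ≠ p.2.2 ∧ p.1 ≠ p.2.2} :=
    (Equiv.prodCongr σ (Equiv.prodCongr σ σ)).subtypeEquiv fun p => by simp
  simp only [g0Prod, hp]
  rw [← Equiv.prod_comp e₂ (fun p => (μ p.1.1 - μ p.1.2) *
      (proj B μ p.1.1 * A * proj B μ p.1.2 * A).trace),
    ← Equiv.prod_comp e₃ (fun p =>
      (proj B μ p.1.1 * A * proj B μ p.1.2.1 * A * proj B μ p.1.2.2 * A).trace -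
        (proj B μ p.1.1 * A * proj B μ p.1.2.2 * A * proj B μ p.1.2.1 * A).trace)]
  rw [← Equiv.prod_comp σ (fun i => (proj B μ i * A).trace)]
  simp only [e₂, e₃, Equiv.subtypeEquiv_apply, Equiv.prodCongr_apply, Prod.map_fst, Prod.map_snd]

theorem g0Prod_fixed {S : Type} [CommRing S] (f : S →+* S) {A B : Matrix (Fin n) (Fin n) S}
    (hA : A.map f = A) (hB : B.map f = B) {μ : Fin n → S} {σ : Equiv.Perm (Fin n)}
    (hμ : ∀ i, f (μ i) = μ (σ i)) : f (g0Prod A B μ) = g0Prod A B μ := by
  rw [map_g0Prod, hA, hB, funext hμ, g0Prod_perm]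

theorem g0Prod_symm :
    (g0Prod (genMat false) (genMat true) (fun i => MvPolynomial.X i) : EigRing n).IsSymmetric := by
  intro σ
  have h := g0Prod_fixed (MvPolynomial.rename σ : EigRing n →ₐ[PairRing n] EigRing n).toRingHom
    (A := genMat (n := n) false) (B := genMat true)
    (by ext i j; simp [genMat]) (by ext i j; simp [genMat])
    (μ := fun i => (MvPolynomial.X i : EigRing n)) (σ := σ) (fun i => by simp)
  simpa only [AlgHom.toRingHom_eq_coe, RingHom.coe_coe] using h

/-- Its expression in the coefficients. -/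
noncomputable def g0In (n : ℕ) : EigRing n :=
  ((MvPolynomial.esymmAlgHom_fin_bijective (PairRing n) n).2 ⟨_, g0Prod_symm⟩).choose

theorem g0In_spec :
    MvPolynomial.aeval (fun i : Fin n => MvPolynomial.esymm (Fin n) (PairRing n) ((i : ℕ) + 1))
      (g0In n) = g0Prod (genMat false) (genMat true) (fun i => MvPolynomial.X i) := by
  have h := ((MvPolynomial.esymmAlgHom_fin_bijective (PairRing n) n).2 ⟨_, g0Prod_symm⟩).choose_spec
  rw [← MvPolynomial.esymmAlgHom_apply]
  exact congrArg Subtype.val h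

/-- The evaluation of the coefficients at a pair. -/
noncomputable def pairEval (x : Pair n) : PairRing n →+* ℂ :=
  MvPolynomial.eval fun v => cond v.1 (x.2 v.2.1 v.2.2) (x.1 v.2.1 v.2.2)

/-- The function whose nonvanishing is `G0`. -/
noncomputable def g0Fun (x : Pair n) : ℂ := MvPolynomial.eval₂ (pairEval x) (cof x.2) (g0In n)

theorem g0Fun_eq (x : Pair n) {μ : Fin n → ℂ}
    (h : x.2.charpoly = ∏ i, (Polynomial.X - Polynomial.C (μ i))) :
    g0Fun x = g0Prod x.1 x.2 μ := by
  let Φ : EigRing n →+* ℂ := MvPolynomial.eval₂Hom (pairEval x) μ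
  have h1 : Φ (g0Prod (genMat false) (genMat true) (fun i => MvPolynomial.X i)) =
      g0Prod x.1 x.2 μ := by
    rw [map_g0Prod]
    congr 1
    · ext i j; simp [Φ, genMat, pairEval]
    · ext i j; simp [Φ, genMat, pairEval]
    · funext i; simp [Φ]
  rw [← h1, ← g0In_spec]
  have hcomp : Φ.comp (MvPolynomial.aeval
      (fun i : Fin n => MvPolynomial.esymm (Fin n) (PairRing n) ((i : ℕ) + 1))).toRingHom =
      MvPolynomial.eval₂Hom (pairEval x) (cof x.2) := by
    refine MvPolynomial.ringHom_ext (fun a => by simp [Φ]) fun i => ?_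
    simp only [RingHom.comp_apply, AlgHom.toRingHom_eq_coe, RingHom.coe_coe, MvPolynomial.aeval_X,
      MvPolynomial.eval₂Hom_X', Φ]
    rw [cof_eq h, MvPolynomial.aeval_def, MvPolynomial.esymm, MvPolynomial.esymm]
    simp [map_sum, map_prod]
  exact (RingHom.congr_fun hcomp (g0In n)).symm

theorem proj_diagBy {B P : Mat n} {μ : Fin n → ℂ} (h : DiagBy B P μ) (i : Fin n) :
    proj B μ i =
      P * diagonal (Pi.single i (∏ k ∈ Finset.univ.erase i, (μ i - μ k))) * P⁻¹ := by
  rw [proj, h.2.2, aeval_conj h.1]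
  suffices e : (fun k => (numPoly μ i).eval (μ k)) =
      Pi.single i (∏ k ∈ Finset.univ.erase i, (μ i - μ k)) by rw [e]
  funext k
  rcases eq_or_ne k i with rfl | hk
  · simp [numPoly, Polynomial.eval_prod]
  · rw [Pi.single_eq_of_ne hk, numPoly, Polynomial.eval_prod]
    exact Finset.prod_eq_zero (Finset.mem_erase.2 ⟨hk, Finset.mem_univ k⟩) (by simp)

theorem g0Fun_ne_iff (x : Pair n) : g0Fun x ≠ 0 ↔ Simple x.2 ∧ G0 x := by
  have hcp : ∀ {P : Mat n} {μ : Fin n → ℂ}, DiagBy x.2 P μ →
      x.2.charpoly = ∏ i, (Polynomial.X - Polynomial.C (μ i)) := fun {P μ} hP => by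
    rw [hP.2.2]
    exact (Matrix.charpoly_units_conj (Matrix.nonsingInvUnit P (isUnit_det_of_ne hP.1))
      (diagonal μ)).trans (charpoly_diagonal μ)
  have key : ∀ {P : Mat n} {μ : Fin n → ℂ}, DiagBy x.2 P μ →
      (g0Fun x ≠ 0 ↔ Triple (P⁻¹ * x.1 * P)) := by
    intro P μ hP
    rw [g0Fun_eq x (hcp hP), g0Prod]
    set A' := P⁻¹ * x.1 * P with hA'
    set D := fun i => ∏ k ∈ Finset.univ.erase i, (μ i - μ k) with hD
    have hu := isUnit_det_of_ne hP.1
    have hD0 : ∀ i, D i ≠ 0 := fun i => Finset.prod_ne_zero_iff.2 fun k hk =>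
      sub_ne_zero.2 (hP.2.1.ne (Finset.ne_of_mem_erase hk).symm)
    have hd : ∀ (i a b : Fin n), (diagonal (Pi.single i (D i)) * A') a b =
        (if a = i then D i * A' a b else 0) := fun i a b => by
      rw [Matrix.diagonal_mul, Pi.single_apply]
      split_ifs <;> simp
    have e2 : ∀ i j, (proj x.2 μ i * x.1 * proj x.2 μ j * x.1).trace =
        D i * D j * (A' i j * A' j i) := by
      intro i j
      rw [proj_diagBy hP, proj_diagBy hP]
      have : (P * diagonal (Pi.single i (D i)) * P⁻¹ * x.1 * (P * diagonal (Pi.single j (D j)) * P⁻¹) * x.1) =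
          P * (diagonal (Pi.single i (D i)) * A' * (diagonal (Pi.single j (D j)) * A')) * P⁻¹ := by
        simp only [hA', Matrix.mul_assoc, Matrix.mul_nonsing_inv _ hu, Matrix.mul_one]
      rw [this, Matrix.trace_mul_comm, Matrix.nonsing_inv_mul_cancel_left _ _ hu]
      simp only [Matrix.trace, Matrix.diag, Matrix.mul_apply (M := diagonal (Pi.single i (D i)) * A'),
        hd, ite_mul, zero_mul, mul_ite, mul_zero, Finset.sum_ite_eq', Finset.mem_univ, if_true]
      ring
    have e3 : ∀ i j k,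
        (proj x.2 μ i * x.1 * proj x.2 μ j * x.1 * proj x.2 μ k * x.1).trace =
          D i * D j * D k * (A' i j * A' j k * A' k i) := by
      intro i j k
      rw [proj_diagBy hP, proj_diagBy hP, proj_diagBy hP]
      have : (P * diagonal (Pi.single i (D i)) * P⁻¹ * x.1 * (P * diagonal (Pi.single j (D j)) * P⁻¹) *
            x.1 * (P * diagonal (Pi.single k (D k)) * P⁻¹) * x.1) =
          P * (diagonal (Pi.single i (D i)) * A' * (diagonal (Pi.single j (D j)) * A' *
            (diagonal (Pi.single k (D k)) * A'))) * P⁻¹ := by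
        simp only [hA', Matrix.mul_assoc, Matrix.mul_nonsing_inv _ hu, Matrix.mul_one]
      rw [this, Matrix.trace_mul_comm, Matrix.nonsing_inv_mul_cancel_left _ _ hu]
      simp only [Matrix.trace, Matrix.diag, Matrix.mul_apply (M := diagonal (Pi.single i (D i)) * A'),
        Matrix.mul_apply (M := diagonal (Pi.single j (D j)) * A'), hd, ite_mul, zero_mul, mul_ite,
        mul_zero, Finset.sum_ite_eq',
        Finset.mem_univ, if_true]
      ring
    have e1 : ∀ i, (proj x.2 μ i * x.1).trace = D i * A' i i := by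
      intro i
      rw [proj_diagBy hP]
      have : P * diagonal (Pi.single i (D i)) * P⁻¹ * x.1 =
          P * (diagonal (Pi.single i (D i)) * A') * P⁻¹ := by
        simp only [hA', Matrix.mul_assoc, Matrix.mul_nonsing_inv _ hu, Matrix.mul_one]
      rw [this, Matrix.trace_mul_comm, Matrix.nonsing_inv_mul_cancel_left _ _ hu]
      simp only [Matrix.trace, Matrix.diag, hd, Finset.sum_ite_eq', Finset.mem_univ, if_true]
    simp only [e1, e2, e3, mul_ne_zero_iff, Finset.prod_ne_zero_iff, Finset.mem_univ,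
      forall_true_left, Subtype.forall, Prod.forall, and_imp]
    constructor
    · rintro ⟨⟨h0, h1⟩, h2⟩
      refine ⟨fun i j => ?_, fun i j k a b c he =>
        h2 i j k a b c (by linear_combination (D i * D j * D k) * he)⟩
      rcases eq_or_ne i j with rfl | hij
      · exact (h0 i).2
      · exact (h1 i j hij).2.2.1
    · rintro ⟨h1, h2⟩
      refine ⟨⟨fun i => ⟨hD0 i, h1 i i⟩, fun i j hij =>
          ⟨sub_ne_zero.2 (hP.2.1.ne hij), ⟨hD0 i, hD0 j⟩, h1 i j, h1 j i⟩⟩,
        fun i j k a b c => ?_⟩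
      have e : D i * D k * D j = D i * D j * D k := by ring
      rw [e, ← mul_sub]
      exact mul_ne_zero (mul_ne_zero (mul_ne_zero (hD0 i) (hD0 j)) (hD0 k))
        (sub_ne_zero.2 fun he => h2 i j k a b c (by linear_combination he))
  constructor
  · intro h
    have hs : Simple x.2 := by
      obtain ⟨ν, hν⟩ := exists_roots x.2
      refine simple_of_separable ?_
      rw [hν]
      refine Polynomial.separable_prod_X_sub_C_iff.2 fun a b hab => ?_
      by_contra hne
      rw [g0Fun_eq x hν, g0Prod, mul_ne_zero_iff] at h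
      rw [mul_ne_zero_iff, Finset.prod_ne_zero_iff, Finset.prod_ne_zero_iff] at h
      exact h.1.2 ⟨(a, b), hne⟩ (Finset.mem_univ _) (by simp [hab])
    obtain ⟨P, μ, hP⟩ := hs
    exact ⟨⟨P, μ, hP⟩, P, μ, hP, (key hP).1 h⟩
  · rintro ⟨-, P, μ, hP, hT⟩
    exact (key hP).2 hT

theorem g0_of_fun {x : Pair n} (h : g0Fun x ≠ 0) : G0 x := ((g0Fun_ne_iff x).1 h).2

theorem g0Fun_ne {x : Pair n} (h : G0 x) : g0Fun x ≠ 0 :=
  (g0Fun_ne_iff x).2 ⟨by obtain ⟨P, μ, hP, -⟩ := h; exact ⟨P, μ, hP⟩, h⟩

theorem ratOn_g0Fun {A B : ℂ → Mat n} (hA : RatM A) (hB : RatM B) :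
    RatOn fun s => g0Fun (A s, B s) := by
  simp only [g0Fun, MvPolynomial.eval₂_eq, pairEval, MvPolynomial.eval_eq]
  refine ratOn_sum _ fun m _ => RatOn.mul ?_ (ratOn_prod _ fun v _ => RatOn.pow ?_ _)
  · refine ratOn_sum _ fun k _ => (ratOn_const _).mul (ratOn_prod _ fun v _ => RatOn.pow ?_ _)
    obtain ⟨b, i, j⟩ := v
    cases b
    · exact hA i j
    · exact hB i j
  · simp only [cof]
    exact (ratOn_const _).mul (ratOn_coeff_charpoly hB (by omega))

end P002Punct
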