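import Vale.Agent.P002Punct.Lines
import Vale.Agent.P002Surf.Span

/-!
A functional killing the twist velocities of a generic handle kills its whole commutator fibre.
-/

namespace P002Punct

open Matrix Filter Topology P002Surf

open scoped Matrix.Norms.Operator

variable {n : ℕ}

/-- The twist velocities of a generic handle span the kernel of the differential of the commutator. -/
theorem handle_kernel {A B : Mat n} (hA : A.det = 1) (hB : B.det = 1) (hG : G0 (A, B))
    (hIA : Indep A) (φ : Pair n →ₗ[ℂ] ℂ)
    (hd : ∀ p : Polynomial ℂ, φ (A * ((n : ℂ) • Polynomial.aeval B p -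
      (Polynomial.aeval B p).trace • (1 : Mat n)), 0) = 0)
    (hw : ∀ q p : Polynomial ℂ, (Polynomial.aeval B q).det ≠ 0 → Indep (A * zq q B) →
      φ (A * zq q B * fderiv ℂ (fun K => (zq q K).adjugate) B
          (B * ((n : ℂ) • Polynomial.aeval (A * zq q B) p -
            (Polynomial.aeval (A * zq q B) p).trace • (1 : Mat n))),
        B * ((n : ℂ) • Polynomial.aeval (A * zq q B) p -
          (Polynomial.aeval (A * zq q B) p).trace • (1 : Mat n))) = 0)
    {u : Pair n} (he : u.1 * B + A * u.2 = cm (A, B) * (u.2 * A + B * u.1))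
    (ht1 : (A.adjugate * u.1).trace = 0) (ht2 : (B.adjugate * u.2).trace = 0) : φ u = 0 := by
  rcases Nat.eq_zero_or_pos n with hn | hn
  · subst hn
    rw [Subsingleton.elim u 0, map_zero]
  have hn' : (n : ℂ) ≠ 0 := by exact_mod_cast hn.ne'
  obtain ⟨P, b, hb, hT⟩ := hG
  simp only at hb hT
  have hP := isUnit_det_of_ne hb.1
  have PP : P * P⁻¹ = 1 := Matrix.mul_nonsing_inv P hP
  have PP' : P⁻¹ * P = 1 := Matrix.nonsing_inv_mul P hP
  have cc : ∀ X : Mat n, P * (P⁻¹ * X) = X := fun X => by
    rw [← Matrix.mul_assoc, PP, Matrix.one_mul]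
  have cc' : ∀ X : Mat n, P⁻¹ * (P * X) = X := fun X => by
    rw [← Matrix.mul_assoc, PP', Matrix.one_mul]
  have trc : ∀ X : Mat n, (P⁻¹ * X * P).trace = X.trace := fun X => by
    rw [Matrix.trace_mul_comm, cc]
  -- the functional in eigen coordinates
  let f1 : Mat n →ₗ[ℂ] ℂ :=
    { toFun := fun X => φ (A * (P * X * P⁻¹), 0)
      map_add' := fun X Y => by
        rw [← map_add]; congr 1
        simp [Matrix.mul_add, Matrix.add_mul]
      map_smul' := fun t X => by
        rw [RingHom.id_apply, ← map_smul]; congr 1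
        simp }
  let f2 : Mat n →ₗ[ℂ] ℂ :=
    { toFun := fun X => φ (0, B * (P * X * P⁻¹))
      map_add' := fun X Y => by
        rw [← map_add]; congr 1
        simp [Matrix.mul_add, Matrix.add_mul]
      map_smul' := fun t X => by
        rw [RingHom.id_apply, ← map_smul]; congr 1
        simp }
  obtain ⟨Pm, hPm⟩ : ∃ Pm : Mat n, ∀ X, f1 X = (Pm * X).trace := ⟨_, functional_trace f1⟩
  obtain ⟨Qm, hQm⟩ : ∃ Qm : Mat n, ∀ X, f2 X = (Qm * X).trace := ⟨_, functional_trace f2⟩
  let cX : Pair n → Mat n := fun v => P⁻¹ * (A.adjugate * v.1) * P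
  let cY : Pair n → Mat n := fun v => P⁻¹ * (B.adjugate * v.2) * P
  have hsplit : ∀ v, φ v = (Pm * cX v).trace + (Qm * cY v).trace := by
    intro v
    rw [← hPm, ← hQm]
    show φ v = φ (A * (P * cX v * P⁻¹), 0) + φ (0, B * (P * cY v * P⁻¹))
    have e1 : A * (P * cX v * P⁻¹) = v.1 := by
      simp only [cX, Matrix.mul_assoc, PP, Matrix.mul_one, cc]
      rw [← Matrix.mul_assoc, mul_adj_one hA, Matrix.one_mul]
    have e2 : B * (P * cY v * P⁻¹) = v.2 := by
      simp only [cY, Matrix.mul_assoc, PP, Matrix.mul_one, cc]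
      rw [← Matrix.mul_assoc, mul_adj_one hB, Matrix.one_mul]
    rw [e1, e2, ← map_add]
    simp
  have hB' : B = P * diagonal b * P⁻¹ := hb.2.2
  have hbp : ∏ j, b j = 1 := by rw [← hb.det]; exact hB
  have hb0 : ∀ j, b j ≠ 0 := fun j hj => one_ne_zero
    (hbp.symm.trans (Finset.prod_eq_zero (Finset.mem_univ j) hj))
  -- diagonal velocities
  have hdiag : ∀ j, Pm j j = Pm.trace / n := by
    intro j
    classical
    let p := Lagrange.basis Finset.univ b j
    have hp : (fun k => p.eval (b k)) = Pi.single j (1 : ℂ) := by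
      funext k
      by_cases hk : k = j
      · subst hk
        rw [Pi.single_eq_same]
        exact Lagrange.eval_basis_self hb.2.1.injOn (Finset.mem_univ _)
      · rw [Pi.single_eq_of_ne hk]
        exact Lagrange.eval_basis_of_ne (Ne.symm hk) (Finset.mem_univ _)
    have hvel := hd p
    have haev : Polynomial.aeval B p = P * diagonal (Pi.single j (1 : ℂ)) * P⁻¹ := by
      rw [hB', aeval_conj hb.1, hp]
    simp only [haev] at hvel
    rw [hsplit] at hvel
    simp only [cX, cY] at hvel
    rw [← Matrix.mul_assoc A.adjugate, adj_mul_one hA, Matrix.one_mul] at hvel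
    have htr : (P * diagonal (Pi.single j (1 : ℂ)) * P⁻¹).trace = 1 := by
      rw [Matrix.trace_mul_comm, cc', Matrix.trace_diagonal]; simp
    rw [htr] at hvel
    simp only [Matrix.mul_sub, Matrix.sub_mul, Matrix.mul_smul, Matrix.smul_mul, Matrix.mul_assoc,
      cc', PP', Matrix.mul_one, one_smul, Matrix.mul_zero, Matrix.zero_mul,
      Matrix.trace_sub, Matrix.trace_smul, Matrix.trace_zero, add_zero, smul_eq_mul] at hvel
    have hd : (Pm * diagonal (Pi.single j (1 : ℂ))).trace = Pm j j := by
      simp [Matrix.trace, Matrix.mul_diagonal, Pi.single_apply]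
    rw [hd] at hvel
    rw [eq_div_iff hn']
    linear_combination hvel
  let P0 : Mat n := Pm - (Pm.trace / n) • 1
  let Q0 : Mat n := Qm - (Qm.trace / n) • 1
  have hP0 : ∀ j, P0 j j = 0 := fun j => by simp [P0, hdiag j]
  have hQ0 : Q0.trace = 0 := by simp [Q0, hn']
  have hsplit0 : ∀ v, (cX v).trace = 0 → (cY v).trace = 0 →
      φ v = (P0 * cX v).trace + (Q0 * cY v).trace := by
    intro v hx hy
    rw [hsplit]
    simp [P0, Q0, Matrix.sub_mul, hx, hy]
  let A' : Mat n := P⁻¹ * A * P
  have hA' : A'.det = 1 := by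
    simp only [A', Matrix.det_mul]
    rw [hA, mul_one, ← Matrix.det_mul, PP', Matrix.det_one]
  have hAu : A'⁻¹ = P⁻¹ * A.adjugate * P := by
    apply Matrix.inv_eq_right_inv
    simp only [A', Matrix.mul_assoc, cc]
    rw [← Matrix.mul_assoc A, mul_adj_one hA, Matrix.one_mul, PP']
  have key0 : ∀ e : Fin n → ℂ, (∀ j, e j ≠ 0) →
      Indep (A * zq (Lagrange.interpolate Finset.univ b e) B) → ∀ k : ℕ,
      ((A' * diagonal (fun j => e j ^ n)) ^ (k + 1) *
        (Q0 - (Matrix.of fun j l => P0 j l * b l / (b j - b l)) +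
          diagonal (fun j => (e j ^ n)⁻¹) * (Matrix.of fun j l => P0 j l * b l / (b j - b l)) *
            diagonal (fun j => e j ^ n))).trace = 0 := by
    intro e he0 hIe k
    classical
    let d : Fin n → ℂ := fun j => e j ^ n
    have hd : ∀ j, d j ≠ 0 := fun j => pow_ne_zero _ (he0 j)
    set K : Mat n := Matrix.of fun j l => P0 j l * b l / (b j - b l) with hK
    set R : Mat n := Q0 - K + diagonal (fun j => (d j)⁻¹) * K * diagonal d with hR
    have hKd : ∀ j, K j j = 0 := fun j => by simp [hK]
    have hRt : R.trace = 0 := by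
      have h1 : K.trace = 0 := by simp [Matrix.trace, hKd]
      have h2 : (diagonal (fun j => (d j)⁻¹) * K * diagonal d).trace = 0 := by
        simp [Matrix.trace, Matrix.mul_diagonal, Matrix.diagonal_mul, hKd]
      simp [hR, hQ0, h1, h2]
    have hen : ∀ j, e j ^ n = d j := fun j => rfl
    let q := Lagrange.interpolate Finset.univ b e
    have hqe : (fun j => q.eval (b j)) = e := funext fun j =>
      Lagrange.eval_interpolate_at_node e hb.2.1.injOn (Finset.mem_univ j)
    have hqB : Polynomial.aeval B q = P * diagonal e * P⁻¹ := by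
      rw [hB', aeval_conj hb.1, hqe]
    have hep : (∏ j, e j) ≠ 0 := Finset.prod_ne_zero_iff.2 fun j _ => he0 j
    have hqd : (Polynomial.aeval B q).det ≠ 0 := by
      rw [hqB, Matrix.det_mul, Matrix.det_mul, mul_comm P.det, mul_assoc, ← Matrix.det_mul, PP,
        Matrix.det_one, mul_one, det_diagonal]
      exact hep
    set c : ℂ := (∏ j, e j)⁻¹ with hc
    have hc0 : c ≠ 0 := inv_ne_zero hep
    have hZ : zq q B = P * diagonal (fun j => c * d j) * P⁻¹ := by
      rw [zq, hqB, zN_smul_diag P hb.1]
    have hZd : (zq q B).det = 1 := det_zN hqd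
    have hG0 : (zq q B).adjugate = P * diagonal (fun j => (c * d j)⁻¹) * P⁻¹ := by
      refine adj_eq_of_mul hZd ?_
      rw [hZ]
      simp only [Matrix.mul_assoc, cc']
      rw [← Matrix.mul_assoc (diagonal _) (diagonal _), diagonal_mul_diagonal,
        show (fun i => c * d i * (c * d i)⁻¹) = fun _ => (1 : ℂ) from
          funext fun i => mul_inv_cancel₀ (mul_ne_zero hc0 (hd i)), diagonal_one, Matrix.one_mul, PP]
    have hv := hw q (Polynomial.X ^ (k + 1)) hqd hIe
    simp only [map_pow, Polynomial.aeval_X] at hv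
    set M : Mat n := (A * zq q B) ^ (k + 1) with hM
    set zd : Mat n := (n : ℂ) • M - M.trace • (1 : Mat n) with hzd
    set G1 : Mat n := fderiv ℂ (fun K => (zq q K).adjugate) B (B * zd) with hG1
    have hM' : P⁻¹ * M * P = c ^ (k + 1) • (A' * diagonal d) ^ (k + 1) := by
      have : ∀ m : ℕ, P⁻¹ * (A * zq q B) ^ m * P = c ^ m • (A' * diagonal d) ^ m := by
        intro m
        induction m with
        | zero => simp [PP']
        | succ m ih =>
          have h1 : P⁻¹ * (A * zq q B) * P = c • (A' * diagonal d) := by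
            rw [hZ, show (fun j => c * d j) = c • d from rfl, Matrix.diagonal_smul]
            simp only [A', Matrix.mul_smul, Matrix.smul_mul, Matrix.mul_assoc, PP', Matrix.mul_one]
          calc P⁻¹ * (A * zq q B) ^ (m + 1) * P
              = (P⁻¹ * (A * zq q B) ^ m * P) * (P⁻¹ * (A * zq q B) * P) := by
                simp only [pow_succ, Matrix.mul_assoc, cc]
            _ = _ := by
                rw [ih, h1, Matrix.smul_mul, Matrix.mul_smul, smul_smul, ← pow_succ, ← pow_succ]
      exact this (k + 1)
    -- differentiate the commutation of G with its argument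
    have hGd : DifferentiableAt ℂ (fun K : Mat n => (zq q K).adjugate) B := by
      have h1 : ContDiffAt ℂ 1 (zq q) B :=
        ContDiffAt.comp B (contDiffAt_zN hqd) (contDiff_aeval q).contDiffAt
      exact (ContDiffAt.comp (g := fun Q : Mat n => Q.adjugate) B contDiff_adjugate.contDiffAt
        h1).differentiableAt one_ne_zero
    have hcomm : ∀ δ : Mat n, (zq q B).adjugate * δ +
        fderiv ℂ (fun K => (zq q K).adjugate) B δ * B =
          B * fderiv ℂ (fun K => (zq q K).adjugate) B δ + δ * (zq q B).adjugate := by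
      intro δ
      have h1 := hGd.hasFDerivAt.fun_mul' (hasFDerivAt_id (𝕜 := ℂ) B)
      have h2 := (hasFDerivAt_id (𝕜 := ℂ) B).fun_mul' hGd.hasFDerivAt
      have hev : (fun K : Mat n => K * (zq q K).adjugate) =ᶠ[𝓝 B]
          fun K => (zq q K).adjugate * K := by
        filter_upwards [(contDiff_aeval q).continuous.matrix_det.continuousAt.eventually_ne hqd]
          with K hK
        have hd1 : (zq q K).det = 1 := det_zN hK
        have hcom : K * zq q K = zq q K * K := (commute_zN (commute_aeval q K)).eq
        calc K * (zq q K).adjugate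
            = (zq q K).adjugate * (zq q K * K) * (zq q K).adjugate := by
              rw [← Matrix.mul_assoc _ (zq q K) K, adj_mul_one hd1, Matrix.one_mul]
          _ = _ := by
              rw [← hcom, Matrix.mul_assoc, Matrix.mul_assoc K, mul_adj_one hd1, Matrix.mul_one]
      have h3 := congrArg (fun T : Mat n →L[ℂ] Mat n => T δ) (h1.unique (h2.congr_of_eventuallyEq hev.symm))
      exact h3
    set v : Pair n := (A * zq q B * G1, B * zd) with hvdef
    have htr : (A.adjugate * v.1).trace = 0 ∧ (B.adjugate * v.2).trace = 0 := by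
      have hzt : zd.trace = 0 := by simp [hzd, mul_comm]
      refine ⟨?_, ?_⟩
      · simp only [hvdef]
        rw [← Matrix.mul_assoc, ← Matrix.mul_assoc, adj_mul_one hA, Matrix.one_mul]
        have hl : HasDerivAt (fun t : ℂ => B + t • (B * zd)) (B * zd) 0 :=
          HasDerivAt.const_add _ (by simpa using (hasDerivAt_id (0 : ℂ)).smul_const (B * zd))
        have h1 : HasDerivAt (fun t : ℂ => (zq q (B + t • (B * zd))).adjugate) G1 0 :=
          HasFDerivAt.comp_hasDerivAt_of_eq (0 : ℂ) (l := fun K => (zq q K).adjugate)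
            hGd.hasFDerivAt hl (by simp)
        have hev : ∀ᶠ t in 𝓝 (0 : ℂ), (zq q (B + t • (B * zd))).adjugate.det = 1 := by
          have hne : ∀ᶠ t in 𝓝 (0 : ℂ), (Polynomial.aeval (B + t • (B * zd)) q).det ≠ 0 :=
            ((contDiff_aeval q).continuous.matrix_det.continuousAt.comp
              hl.continuousAt).eventually_ne (by simpa using hqd)
          exact hne.mono fun t ht => det_adj_one (det_zN ht)
        have h2 := trace_eq_zero_of_det h1 hev
        simp only [zero_smul, add_zero] at h2
        rwa [adj_eq_of_mul (det_adj_one hZd) (adj_mul_one hZd)] at h2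
      · simp only [hvdef]
        rw [← Matrix.mul_assoc, adj_mul_one hB, Matrix.one_mul, hzt]
    have hcy : cY v = P⁻¹ * zd * P := by
      simp only [cY, hvdef]
      rw [← Matrix.mul_assoc B.adjugate, adj_mul_one hB, Matrix.one_mul]
    have hcx : cX v = diagonal (fun j => c * d j) * (P⁻¹ * G1 * P) := by
      simp only [cX, hvdef, Matrix.mul_assoc]
      rw [← Matrix.mul_assoc A.adjugate A, adj_mul_one hA, Matrix.one_mul, hZ]
      simp only [Matrix.mul_assoc, cc']
    have hφ0 : φ v = 0 := hv
    rw [hsplit0 v (by simp only [cX]; rw [trc]; exact htr.1)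
      (by simp only [cY]; rw [trc]; exact htr.2), hcx, hcy] at hφ0
    set z' : Mat n := P⁻¹ * zd * P with hz'
    set G' : Mat n := P⁻¹ * G1 * P with hG'
    have hcoord : ∀ j l, (c * d j)⁻¹ * (b j * z' j l) + G' j l * b l =
        b j * G' j l + b j * z' j l * (c * d l)⁻¹ := by
      intro j l
      have h3 := congrArg (fun T => P⁻¹ * T * P) (hcomm (B * zd))
      simp only [← hG1, hG0] at h3
      have e1 : P⁻¹ * (P * diagonal (fun j => (c * d j)⁻¹) * P⁻¹ * (B * zd) + G1 * B) * P =
          diagonal (fun j => (c * d j)⁻¹) * (diagonal b * z') + G' * diagonal b := by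
        simp only [hB', hz', hG', Matrix.mul_add, Matrix.add_mul, Matrix.mul_assoc, cc', PP',
          Matrix.mul_one]
      have e2 : P⁻¹ * (B * G1 + B * zd * (P * diagonal (fun j => (c * d j)⁻¹) * P⁻¹)) * P =
          diagonal b * G' + diagonal b * z' * diagonal (fun j => (c * d j)⁻¹) := by
        simp only [hB', hz', hG', Matrix.mul_add, Matrix.add_mul, Matrix.mul_assoc, cc', PP',
          Matrix.mul_one]
      rw [e1, e2] at h3
      have := congrFun (congrFun h3 j) l
      simpa only [Matrix.add_apply, Matrix.mul_diagonal, Matrix.diagonal_mul] using this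
    have hmid : (P0 * (diagonal (fun j => c * d j) * G')).trace =
        ((diagonal (fun j => (d j)⁻¹) * K * diagonal d - K) * z').trace := by
      simp only [Matrix.trace, Matrix.diag, Matrix.mul_apply (M := P0),
        Matrix.mul_apply (M := _ - K)]
      refine Finset.sum_congr rfl fun j _ => Finset.sum_congr rfl fun l _ => ?_
      rw [Matrix.diagonal_mul, Matrix.sub_apply, Matrix.mul_diagonal, Matrix.diagonal_mul]
      by_cases hjl : j = l
      · subst hjl; simp [hP0, hKd]
      · have hbb : b j - b l ≠ 0 := sub_ne_zero.2 (hb.2.1.ne hjl)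
        simp only [hK, Matrix.of_apply]
        have h4 := hcoord l j
        field_simp [hc0, hd j, hd l, hbb] at h4 ⊢
        linear_combination P0 j l * h4
    rw [hmid, ← Matrix.trace_add, ← Matrix.add_mul,
      show diagonal (fun j => (d j)⁻¹) * K * diagonal d - K + Q0 = R by rw [hR]; abel] at hφ0
    have hz'' : z' = (n : ℂ) • (c ^ (k + 1) • (A' * diagonal d) ^ (k + 1)) - M.trace • 1 := by
      simp only [hz', hzd, Matrix.mul_sub, Matrix.sub_mul, Matrix.mul_smul, Matrix.smul_mul,
        Matrix.mul_one, PP']
      rw [← hM']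
    rw [hz'', Matrix.mul_sub, Matrix.trace_sub, Matrix.mul_smul, Matrix.mul_smul, Matrix.mul_smul,
      Matrix.mul_one, Matrix.trace_smul, Matrix.trace_smul, Matrix.trace_smul, hRt] at hφ0
    rw [Matrix.trace_mul_comm]
    simpa [hn', hc0] using hφ0
  have key : ∀ d : Fin n → ℂ, (∀ j, d j ≠ 0) → ∀ k : ℕ, k ≤ 2 →
      ((A' * diagonal d) ^ (k + 1) * (Q0 - (Matrix.of fun j l => P0 j l * b l / (b j - b l)) +
        diagonal (fun j => (d j)⁻¹) * (Matrix.of fun j l => P0 j l * b l / (b j - b l)) *
          diagonal d)).trace = 0 := by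
    intro d hd k _
    classical
    let e : Fin n → ℂ := fun j => Complex.exp (Complex.log (d j) / n)
    have hen : (fun j => e j ^ n) = d := funext fun j => by
      simp only [e]
      rw [← Complex.exp_nat_mul, mul_div_cancel₀ _ hn', Complex.exp_log (hd j)]
    let et : ℂ → Fin n → ℂ := fun t j => 1 + t * (e j - 1)
    set Q := P * diagonal e * P⁻¹ with hQ
    have hseg : ∀ t, seg Q t = P * diagonal (et t) * P⁻¹ := by
      intro t
      have : diagonal (et t) = 1 + t • (diagonal e - 1) := by
        ext a c
        rcases eq_or_ne a c with rfl | h <;> simp [et, *]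
      rw [this]
      simp only [seg, hQ, Matrix.mul_add, Matrix.add_mul, Matrix.mul_sub, Matrix.sub_mul,
        Matrix.mul_smul, Matrix.smul_mul, Matrix.mul_one, PP]
    have hzq : ∀ t, zq (Lagrange.interpolate Finset.univ b (et t)) B = zseg Q t := by
      intro t
      rw [zq, zseg, hseg]
      conv_lhs => rw [hB', aeval_conj hb.1]
      congr 4
      exact funext fun j => Lagrange.eval_interpolate_at_node (et t) hb.2.1.injOn (Finset.mem_univ j)
    have hne : ∀ t, t ∈ segOk Q → ∀ j, et t j ≠ 0 := by
      intro t ht j hj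
      apply ht
      rw [hseg, Matrix.det_mul, Matrix.det_mul, det_diagonal,
        Finset.prod_eq_zero (Finset.mem_univ j) hj, mul_zero, zero_mul]
    have hbad := countable_bad (Q := Q) (F := fun t => A * zseg Q t)
      (fun t ht => contDiffAt_const.mul (contDiffAt_zseg ht))
      (fun t ht => by simp [Matrix.det_mul, hA, det_zseg ht])
      (zero_mem_segOk Q) (by simpa [zseg_zero] using hIA)
    let K : Mat n := Matrix.of fun j l => P0 j l * b l / (b j - b l)
    have hF : ContinuousAt (fun t => ((A' * diagonal (fun j => et t j ^ n)) ^ (k + 1) *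
        (Q0 - K + diagonal (fun j => (et t j ^ n)⁻¹) * K * diagonal (fun j => et t j ^ n))).trace) 1 := by
      have hE : Continuous fun t => (fun j => et t j ^ n) :=
        continuous_pi fun j => (continuous_const.add (continuous_id.mul continuous_const)).pow n
      have h1 : ContinuousAt (fun t => diagonal (fun j => et t j ^ n)) 1 :=
        hE.matrix_diagonal.continuousAt
      have h2 : ContinuousAt (fun t => diagonal (fun j => (et t j ^ n)⁻¹)) 1 :=
        continuous_id.matrix_diagonal.continuousAt.comp
          (continuousAt_pi.2 fun j => ((continuous_apply j).comp hE).continuousAt.inv₀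
            (pow_ne_zero n (by simp [et, e])))
      exact continuous_id.matrix_trace.continuousAt.comp
        (((continuousAt_const.mul h1).pow (k + 1)).mul
          (continuousAt_const.add ((h2.mul continuousAt_const).mul h1)))
    have h := eq_zero_of_cocountable hbad hF (Eventually.of_forall fun t ht => by
      obtain ⟨ht1, ht2⟩ := of_notMem_bad ht
      exact key0 (et t) (hne t ht1) (by rwa [hzq]) k)
    have e1 : et 1 = e := funext fun j => by simp [et]
    simpa only [e1, ← hen, K] using h
  obtain ⟨H, hQH, hPH⟩ := annihilator_eq hT (by rw [hA']; exact one_ne_zero) hb.2.1 hb0 hP0 key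
  have hXt : (cX u).trace = 0 := by simp only [cX]; rw [trc]; exact ht1
  have hYt : (cY u).trace = 0 := by simp only [cY]; rw [trc]; exact ht2
  rw [hsplit0 u hXt hYt]
  have heq : B.adjugate * (A.adjugate * u.1) * B + B.adjugate * u.2 =
      A.adjugate * (B.adjugate * u.2) * A + A.adjugate * u.1 := by
    have hC : B.adjugate * (A.adjugate * cm (A, B)) = A.adjugate * B.adjugate := by
      simp only [cm, Matrix.mul_assoc]
      rw [← Matrix.mul_assoc A.adjugate A, adj_mul_one hA, Matrix.one_mul,
        ← Matrix.mul_assoc B.adjugate B, adj_mul_one hB, Matrix.one_mul]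
    have h := congrArg (fun T => B.adjugate * (A.adjugate * T)) he
    simp only [← Matrix.mul_assoc] at h hC
    rw [hC] at h
    simp only [Matrix.mul_add, Matrix.mul_assoc] at h
    rw [← Matrix.mul_assoc A.adjugate A u.2, adj_mul_one hA, Matrix.one_mul,
      ← Matrix.mul_assoc B.adjugate B u.1, adj_mul_one hB, Matrix.one_mul] at h
    simpa only [Matrix.mul_assoc] using h
  have heq' : diagonal (fun j => (b j)⁻¹) * cX u * diagonal b + cY u =
      A'⁻¹ * cY u * A' + cX u := by
    have h := congrArg (fun T => P⁻¹ * T * P) heq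
    have hBi : P⁻¹ * B.adjugate * P = diagonal (fun j => (b j)⁻¹) := by
      have hBa : B.adjugate = P * diagonal (fun j => (b j)⁻¹) * P⁻¹ := by
        refine adj_eq_of_mul hB ?_
        rw [hB']
        simp only [Matrix.mul_assoc, cc']
        rw [← Matrix.mul_assoc (diagonal _) (diagonal _), diagonal_mul_diagonal]
        simp [hb0, PP]
      rw [hBa]
      simp only [Matrix.mul_assoc, cc', PP', Matrix.mul_one]
    rw [← hBi, hAu, ← hb.conj]
    simpa only [cX, cY, A', Matrix.mul_add, Matrix.add_mul, Matrix.mul_assoc, cc] using h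
  have e3 : ∀ U V X : Mat n, (U * H * V * X).trace = (H * (V * X * U)).trace := by
    intro U V X
    rw [Matrix.mul_assoc U H, Matrix.mul_assoc U, Matrix.trace_mul_comm]
    simp only [Matrix.mul_assoc]
  rw [hPH, hQH, Matrix.sub_mul, Matrix.sub_mul, Matrix.trace_sub, Matrix.trace_sub, e3, e3,
    sub_add_sub_comm, ← Matrix.trace_add, ← Matrix.trace_add, ← Matrix.mul_add, ← Matrix.mul_add,
    heq', add_comm (A'⁻¹ * cY u * A'), sub_self]

end P002Punct
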