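import Vale.Agent.P002Surf.Param

/-!
Multiplicative independence of eigenvalues as countably many polynomial conditions, and a
dominance criterion for the matrices `diag d * M`.
-/

namespace P002Punct

open P002Surf Matrix Polynomial

variable {n : ℕ}

/-- The signed coefficients of the characteristic polynomial. -/
noncomputable def cof (K : Mat n) (i : Fin n) : ℂ :=
  (-1) ^ ((i : ℕ) + 1) * K.charpoly.coeff (n - ((i : ℕ) + 1))

theorem exists_roots (K : Mat n) : ∃ μ : Fin n → ℂ, K.charpoly = ∏ i, (X - C (μ i)) := by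
  classical
  have hcard : Multiset.card K.charpoly.roots = n := by
    rw [← (IsAlgClosed.splits K.charpoly).natDegree_eq_card_roots, charpoly_natDegree_eq_dim,
      Fintype.card_fin]
  obtain ⟨l, hl⟩ : ∃ l : List ℂ, (l : Multiset ℂ) = K.charpoly.roots :=
    ⟨K.charpoly.roots.toList, Multiset.coe_toList _⟩
  have hlen : l.length = n := by rw [← hcard, ← hl, Multiset.coe_card]
  subst hlen
  refine ⟨fun i => l.get i, ?_⟩
  conv_lhs => rw [(IsAlgClosed.splits K.charpoly).eq_prod_roots_of_monic (charpoly_monic K), ← hl]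
  rw [Multiset.map_coe, Multiset.prod_coe]
  conv_lhs => rw [← List.ofFn_get l, List.map_ofFn, List.prod_ofFn]
  rfl

theorem cof_eq {K : Mat n} {μ : Fin n → ℂ} (h : K.charpoly = ∏ i, (X - C (μ i))) (i : Fin n) :
    cof K i = MvPolynomial.aeval μ (MvPolynomial.esymm (Fin n) ℂ ((i : ℕ) + 1)) := by
  have hc : Multiset.card (Multiset.map μ (Finset.univ : Finset (Fin n)).val) = n := by simp
  have h2 := Multiset.prod_X_sub_C_coeff (Multiset.map μ (Finset.univ : Finset (Fin n)).val)
    (k := n - ((i : ℕ) + 1)) (by rw [hc]; omega)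
  have hi := i.isLt
  rw [hc, show n - (n - ((i : ℕ) + 1)) = (i : ℕ) + 1 by omega, Multiset.map_map] at h2
  rw [cof, h, MvPolynomial.aeval_esymm_eq_multiset_esymm]
  rw [show (∏ j, (X - C (μ j))) =
    (Multiset.map ((fun t => X - C t) ∘ μ) (Finset.univ : Finset (Fin n)).val).prod from rfl, h2,
    ← mul_assoc, ← mul_pow, neg_one_mul, neg_neg, one_pow, one_mul]

/-- A preimage of a symmetric polynomial in the elementary symmetric ones. -/
noncomputable def inEsymm (P : MvPolynomial (Fin n) ℂ) (hP : P.IsSymmetric) :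
    MvPolynomial (Fin n) ℂ :=
  ((MvPolynomial.esymmAlgHom_fin_bijective ℂ n).2 ⟨P, hP⟩).choose

theorem inEsymm_spec (P : MvPolynomial (Fin n) ℂ) (hP : P.IsSymmetric) :
    MvPolynomial.aeval (fun i : Fin n => MvPolynomial.esymm (Fin n) ℂ ((i : ℕ) + 1))
      (inEsymm P hP) = P := by
  have h := ((MvPolynomial.esymmAlgHom_fin_bijective ℂ n).2 ⟨P, hP⟩).choose_spec
  rw [← MvPolynomial.esymmAlgHom_apply]
  exact congrArg Subtype.val h

/-- A symmetric polynomial of the eigenvalues, as a polynomial in the entries. -/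
noncomputable def symFun (P : MvPolynomial (Fin n) ℂ) (hP : P.IsSymmetric) (K : Mat n) : ℂ :=
  MvPolynomial.eval (cof K) (inEsymm P hP)

theorem symFun_eq (P : MvPolynomial (Fin n) ℂ) (hP : P.IsSymmetric) {K : Mat n} {μ : Fin n → ℂ}
    (h : K.charpoly = ∏ i, (X - C (μ i))) : symFun P hP K = MvPolynomial.eval μ P := by
  conv_rhs => rw [← inEsymm_spec P hP]
  rw [symFun, funext (cof_eq h), ← MvPolynomial.aeval_eq_eval]
  exact (MvPolynomial.comp_aeval_apply _ (MvPolynomial.aeval μ) (inEsymm P hP)).symm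

/-- Pairs of exponents with equal totals. -/
abbrev Rel (n : ℕ) :=
  {m : (Fin n → ℕ) × (Fin n → ℕ) // (∑ i, m.1 i) = ∑ i, m.2 i ∧ m.1 ≠ m.2}

/-- The monomial with the given exponents. -/
noncomputable def mon (α : Fin n → ℕ) : MvPolynomial (Fin n) ℂ := ∏ i, MvPolynomial.X i ^ α i

theorem mon_eq_monomial (α : Fin n → ℕ) :
    mon α = MvPolynomial.monomial (Finsupp.equivFunOnFinite.symm α) 1 := by
  rw [MvPolynomial.monomial_eq, MvPolynomial.C_1, one_mul, Finsupp.prod_fintype _ _ (by simp)]
  rfl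

theorem rename_mon (σ : Equiv.Perm (Fin n)) (α : Fin n → ℕ) :
    MvPolynomial.rename σ (mon α) = mon fun i => α (σ.symm i) := by
  simp only [mon, map_prod, map_pow, MvPolynomial.rename_X]
  exact Fintype.prod_equiv σ _ _ fun i => by rw [Equiv.symm_apply_apply]

theorem mon_homogeneous (α : Fin n → ℕ) : (mon α).IsHomogeneous (∑ i, α i) := by
  have := MvPolynomial.IsHomogeneous.prod Finset.univ (fun i => MvPolynomial.X i ^ α i) α
    fun i _ => by simpa using (MvPolynomial.isHomogeneous_X ℂ i).pow (α i)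
  exact this

/-- The product of the conjugates of a relation. -/
noncomputable def relPoly (α β : Fin n → ℕ) : MvPolynomial (Fin n) ℂ :=
  ∏ σ : Equiv.Perm (Fin n), (mon (fun i => α (σ i)) - mon (fun i => β (σ i)))

/-- The discriminant. -/
noncomputable def discPoly (n : ℕ) : MvPolynomial (Fin n) ℂ :=
  ∏ p ∈ (Finset.univ : Finset (Fin n)).offDiag, (MvPolynomial.X p.1 - MvPolynomial.X p.2)

/-- The conditions for generic eigenvalues. -/
noncomputable def genPoly : Option (Rel n) → MvPolynomial (Fin n) ℂ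
  | none => discPoly n
  | some m => relPoly m.1.1 m.1.2

theorem genPoly_symm (i : Option (Rel n)) : (genPoly i).IsSymmetric := by
  intro σ
  cases i with
  | none =>
    simp only [genPoly, discPoly, map_prod, map_sub, MvPolynomial.rename_X]
    refine Finset.prod_equiv (Equiv.prodCongr σ σ) (fun p => ?_) (fun p _ => rfl)
    simp [Finset.mem_offDiag]
  | some m =>
    simp only [genPoly, relPoly, map_prod, map_sub, rename_mon]
    exact Fintype.prod_equiv (Equiv.mulRight σ.symm) _ _ fun τ => by simp [Equiv.Perm.mul_apply]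

theorem genPoly_ne (i : Option (Rel n)) : genPoly i ≠ 0 := by
  cases i with
  | none =>
    simp only [genPoly, discPoly]
    refine Finset.prod_ne_zero_iff.2 fun p hp h => ?_
    exact (Finset.mem_offDiag.1 hp).2.2 (MvPolynomial.X_injective (sub_eq_zero.1 h))
  | some m =>
    refine Finset.prod_ne_zero_iff.2 fun σ _ h0 => m.2.2 ?_
    have h := sub_eq_zero.1 h0
    rw [mon_eq_monomial, mon_eq_monomial] at h
    have h2 := MvPolynomial.monomial_left_injective (one_ne_zero (α := ℂ)) h
    funext j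
    have := congrFun (Finsupp.equivFunOnFinite.symm.injective h2) (σ.symm j)
    simpa using this

theorem genPoly_homogeneous (i : Option (Rel n)) : ∃ D, (genPoly i).IsHomogeneous D := by
  cases i with
  | none =>
    exact ⟨_, MvPolynomial.IsHomogeneous.prod _ _ (fun _ => 1) fun p _ =>
      (MvPolynomial.isHomogeneous_X ℂ p.1).sub (MvPolynomial.isHomogeneous_X ℂ p.2)⟩
  | some m =>
    refine ⟨_, MvPolynomial.IsHomogeneous.prod _ _ (fun _ => ∑ j, m.1.1 j) fun σ _ => ?_⟩
    refine MvPolynomial.IsHomogeneous.sub ?_ ?_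
    · simpa [Equiv.sum_comp σ m.1.1] using mon_homogeneous fun j => m.1.1 (σ j)
    · rw [m.2.1]
      simpa [Equiv.sum_comp σ m.1.2] using mon_homogeneous fun j => m.1.2 (σ j)

/-- The conditions as functions of a matrix. -/
noncomputable def genFun (i : Option (Rel n)) (K : Mat n) : ℂ :=
  symFun (genPoly i) (genPoly_symm i) K

/-- All conditions hold. -/
def Gen (K : Mat n) : Prop := ∀ i, genFun i K ≠ 0

instance : Countable (Option (Rel n)) := inferInstance

theorem Gen.indep {K : Mat n} (h : Gen K) (hd : K.det = 1) : Indep K := by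
  classical
  obtain ⟨ν, hν⟩ := exists_roots K
  have hd0 := h none
  rw [genFun, symFun_eq _ _ hν] at hd0
  simp only [genPoly, discPoly, map_prod, map_sub, MvPolynomial.eval_X] at hd0
  have hinj : Function.Injective ν := fun a b hab => by
    by_contra hne
    exact Finset.prod_ne_zero_iff.1 hd0 (a, b) (by simp [Finset.mem_offDiag, hne])
      (sub_eq_zero.2 hab)
  have hsep : K.charpoly.Separable := by
    rw [hν]; exact Polynomial.separable_prod_X_sub_C_iff.2 hinj
  obtain ⟨P, μ, hP⟩ := simple_of_separable hsep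
  refine ⟨P, μ, hP, fun α β hαβ d hd1 => ?_⟩
  have hμ : K.charpoly = ∏ i, (X - C (μ i)) := by
    rw [hP.2.2]
    have hu := isUnit_det_of_ne hP.1
    have := Matrix.charpoly_units_conj (Matrix.nonsingInvUnit P hu) (diagonal μ)
    exact this.trans (charpoly_diagonal μ)
  by_contra hne
  let α' : Fin n → ℕ := fun j => n * α j + ∑ k, β k
  let β' : Fin n → ℕ := fun j => n * β j + ∑ k, α k
  have hsum : ∑ j, α' j = ∑ j, β' j := by
    simp only [α', β', Finset.sum_add_distrib, ← Finset.mul_sum, Finset.sum_const, Finset.card_univ,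
      Fintype.card_fin, smul_eq_mul]
    ring
  have hμ1 : ∏ j, μ j = 1 := by rw [← hP.det, hd]
  have key : ∀ (x : Fin n → ℂ) (γ : Fin n → ℕ) (c : ℕ), ∏ j, x j = 1 →
      ∏ j, x j ^ (n * γ j + c) = (∏ j, x j ^ γ j) ^ n := by
    intro x γ c hx
    simp only [pow_add, Finset.prod_mul_distrib, Finset.prod_pow, hx, one_pow, mul_one]
    rw [← Finset.prod_pow]
    exact Finset.prod_congr rfl fun j _ => by rw [← pow_mul, mul_comm]
  have hne' : α' ≠ β' := fun h' => by
    refine hne ?_
    have hj : ∀ j, n * α j + ∑ k, β k = n * β j + ∑ k, α k := fun j => congrFun h' j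
    rcases Nat.eq_zero_or_pos n with rfl | hn
    · simp
    let o : Fin n := ⟨0, hn⟩
    have hshift : ∀ j, α j + β o = β j + α o := fun j => by
      have e1 := hj j
      have e2 := hj o
      exact Nat.eq_of_mul_eq_mul_left hn (by rw [mul_add, mul_add]; omega)
    have e : ∀ (γ : Fin n → ℕ) (c : ℕ), ∏ j, d j ^ (γ j + c) = ∏ j, d j ^ γ j := fun γ c => by
      simp only [pow_add, Finset.prod_mul_distrib, Finset.prod_pow, hd1, one_pow, mul_one]
    rw [← e α (β o), ← e β (α o)]
    simp only [hshift]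
  have h1 := h (some ⟨(α', β'), hsum, hne'⟩)
  rw [genFun, symFun_eq _ _ hμ] at h1
  simp only [genPoly, relPoly, map_prod] at h1
  refine Finset.prod_ne_zero_iff.1 h1 1 (Finset.mem_univ _) ?_
  simp only [Equiv.Perm.coe_one, id, map_sub, mon, map_prod, map_pow, MvPolynomial.eval_X]
  rw [key μ α _ hμ1, key μ β _ hμ1, hαβ, sub_self]

theorem genFun_smul (i : Option (Rel n)) : ∃ D : ℕ, ∀ (c : ℂ) (K : Mat n),
    genFun i (c • K) = c ^ D * genFun i K := by
  obtain ⟨D, hD⟩ := genPoly_homogeneous i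
  refine ⟨D, fun c K => ?_⟩
  obtain ⟨μ, hμ⟩ := exists_roots K
  have hc : (c • K).charpoly = ∏ j, (X - C (c * μ j)) := by
    rcases eq_or_ne c 0 with rfl | hc0
    · rw [zero_smul, ← diagonal_zero, charpoly_diagonal]
      simp
    · refine Polynomial.funext fun x => ?_
      rw [eval_charpoly, eval_prod]
      have e : (Matrix.scalar (Fin n) x - c • K) = c • (Matrix.scalar (Fin n) (x / c) - K) := by
        rw [smul_sub]
        congr 1
        ext a b
        simp [Matrix.scalar_apply, Matrix.diagonal_apply, mul_div_cancel₀ _ hc0]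
      have e2 := eval_charpoly K (x / c)
      rw [hμ, eval_prod] at e2
      rw [e, Matrix.det_smul, ← e2, Fintype.card_fin]
      rw [show (c ^ n : ℂ) = ∏ _j : Fin n, c by simp, ← Finset.prod_mul_distrib]
      refine Finset.prod_congr rfl fun j _ => ?_
      simp only [eval_sub, eval_X, eval_C]
      field_simp
  rw [genFun, genFun, symFun_eq _ _ hμ, symFun_eq _ _ hc, MvPolynomial.eval_eq, MvPolynomial.eval_eq,
    Finset.mul_sum]
  refine Finset.sum_congr rfl fun m hm => ?_
  have hdeg : ∑ j ∈ m.support, m j = D := by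
    have := hD (MvPolynomial.mem_support_iff.1 hm)
    simpa [Finsupp.weight_apply, Finsupp.sum] using this
  simp only [mul_pow, Finset.prod_mul_distrib, Finset.prod_pow_eq_pow_sum, hdeg]
  ring

/-! ### rationality along curves -/

theorem ratOn_coeff_charpoly {F : ℂ → Mat n} (hF : RatM F) {k : ℕ} (hk : k ≤ n) :
    RatOn fun s => (F s).charpoly.coeff (n - k) := by
  have e : ∀ s, (F s).charpoly.coeff (n - k) = (-1) ^ k *
      ∑ S ∈ Finset.univ.powersetCard k,
        ((F s).submatrix (Subtype.val : S → Fin n) (Subtype.val : S → Fin n)).det := fun s => by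
    have := Matrix.charpoly_coeff_eq_sum_minors (F s) k (by simpa using hk)
    simpa using this
  simp only [e]
  exact (ratOn_const _).mul (ratOn_sum _ fun S _ => (hF.submatrix _ _).det)

theorem ratOn_genFun {F : ℂ → Mat n} (hF : RatM F) (i : Option (Rel n)) :
    RatOn fun s => genFun i (F s) := by
  simp only [genFun, symFun, MvPolynomial.eval_eq]
  refine ratOn_sum _ fun m _ => (ratOn_const _).mul (ratOn_prod _ fun v _ => RatOn.pow ?_ _)
  simp only [cof]
  exact (ratOn_const _).mul (ratOn_coeff_charpoly hF (by omega))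

/-! ### dominance -/

/-- Weights: the first indices dominate. -/
def wt (B : ℕ) (i : Fin n) : ℕ := B ^ (n - 1 - (i : ℕ))

theorem wt_lt {B : ℕ} (hB : 2 ≤ B) {i j : Fin n} (h : i < j) : wt B j < wt B i :=
  Nat.pow_lt_pow_right hB (by have := j.isLt; omega)

theorem sum_wt_lt {B : ℕ} (hB : 2 ≤ B) (j : Fin n) {S : Finset (Fin n)}
    (hS : S.card = (j : ℕ) + 1) (hne : S ≠ Finset.Iic j) :
    ∑ i ∈ S, wt B i < ∑ i ∈ Finset.Iic j, wt B i := by
  classical
  have hc : (Finset.Iic j).card = (j : ℕ) + 1 := Fin.card_Iic j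
  have h1 : (S \ Finset.Iic j).card = (Finset.Iic j \ S).card :=
    Finset.card_sdiff_comm (hS.trans hc.symm)
  have hpos : (S \ Finset.Iic j).Nonempty := by
    rw [Finset.sdiff_nonempty]
    exact fun hsub => hne (Finset.eq_of_subset_of_card_le hsub (le_of_eq (hc.trans hS.symm)))
  have e1 : ∑ i ∈ S \ Finset.Iic j, wt B i < (S \ Finset.Iic j).card * wt B j := by
    rw [← smul_eq_mul, ← Finset.sum_const]
    refine Finset.sum_lt_sum_of_nonempty hpos fun i hi => wt_lt hB ?_
    simpa using (Finset.mem_sdiff.1 hi).2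
  have e2 : (Finset.Iic j \ S).card * wt B j ≤ ∑ i ∈ Finset.Iic j \ S, wt B i := by
    rw [← smul_eq_mul, ← Finset.sum_const]
    refine Finset.sum_le_sum fun i hi => ?_
    have hle : i ≤ j := Finset.mem_Iic.1 (Finset.mem_sdiff.1 hi).1
    rcases hle.eq_or_lt with rfl | hlt
    · exact le_rfl
    · exact (wt_lt hB hlt).le
  rw [← Finset.sum_sdiff_lt_sum_sdiff]
  rw [h1] at e1
  exact e1.trans_le e2

theorem digits_unique {B : ℕ} : ∀ {n : ℕ} (a b : Fin n → ℕ), (∀ i, a i < B) → (∀ i, b i < B) →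
    ∑ i, a i * wt B i = ∑ i, b i * wt B i → a = b
  | 0, _, _, _, _, _ => funext fun i => i.elim0
  | n + 1, a, b, ha, hb, h => by
    have e : ∀ c : Fin (n + 1) → ℕ, ∑ i, c i * wt B i =
        B * (∑ i : Fin n, c i.castSucc * wt B i) + c (Fin.last n) := fun c => by
      rw [Fin.sum_univ_castSucc, Finset.mul_sum]
      congr 1
      · refine Finset.sum_congr rfl fun i _ => ?_
        have hi := i.isLt
        rw [wt, wt, Fin.val_castSucc, show n + 1 - 1 - (i : ℕ) = n - 1 - i + 1 by omega, pow_succ]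
        ring
      · simp [wt]
    rw [e, e] at h
    have hlast : a (Fin.last n) = b (Fin.last n) := by
      have := congrArg (· % B) h
      simpa [Nat.mod_eq_of_lt (ha _), Nat.mod_eq_of_lt (hb _)] using this
    rw [hlast, Nat.add_right_cancel_iff] at h
    have hB : 0 < B := (Nat.zero_le _).trans_lt (ha (Fin.last n))
    have ih := digits_unique (fun i => a i.castSucc) (fun i => b i.castSucc) (fun i => ha _)
      (fun i => hb _) (Nat.eq_of_mul_eq_mul_left hB h)
    funext i
    induction i using Fin.lastCases with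
    | last => exact hlast
    | cast i => exact congrFun ih i

theorem det_diag_mul_sub {m : Type} [Fintype m] [DecidableEq m] (d : Fin n → ℂ) (M : Mat n)
    (f : m → Fin n) :
    ((diagonal d * M).submatrix f f).det = (∏ a, d (f a)) * (M.submatrix f f).det := by
  rw [← det_diagonal, ← Matrix.det_mul]
  congr 1
  ext a b
  simp [Matrix.diagonal_mul]

/-- Nonzero leading minors make `diag d * M` generic for suitable `d`. -/
theorem exists_gen_diag {M : Mat n} (hM : ∀ j, minor M j ≠ 0) (P : MvPolynomial (Fin n) ℂ)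
    (hP : P.IsSymmetric) (hP0 : P ≠ 0) :
    ∃ d : Fin n → ℂ, (∀ i, d i ≠ 0) ∧ symFun P hP (diagonal d * M) ≠ 0 := by
  classical
  set Q := inEsymm P hP with hQ
  have hQ0 : Q ≠ 0 := fun h => hP0 (by rw [← inEsymm_spec P hP, ← hQ, h, map_zero])
  let B := Q.totalDegree + 2
  let pre : Fin n → ℕ := fun j => ∑ i ∈ Finset.Iic j, wt B i
  let cs : Fin n → ℂ[X] := fun j => ∑ S ∈ Finset.univ.powersetCard ((j : ℕ) + 1),
    C ((M.submatrix (Subtype.val : S → Fin n) (Subtype.val : S → Fin n)).det) *
      Polynomial.X ^ (∑ i ∈ S, wt B i)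
  have hmem : ∀ j : Fin n, Finset.Iic j ∈ Finset.univ.powersetCard ((j : ℕ) + 1) := fun j =>
    Finset.mem_powersetCard.2 ⟨Finset.subset_univ _, Fin.card_Iic j⟩
  have hdeg : ∀ j, (cs j).natDegree = pre j ∧ cs j ≠ 0 := by
    intro j
    have hco : (cs j).coeff (pre j) ≠ 0 := by
      simp only [cs, finsetSum_coeff, coeff_C_mul, coeff_X_pow]
      rw [Finset.sum_eq_single (Finset.Iic j) (fun S hS hne => ?_) (fun h => absurd (hmem j) h)]
      · rw [if_pos rfl, mul_one]
        let e : Fin ((j : ℕ) + 1) ≃ (Finset.Iic j : Finset (Fin n)) :=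
          Equiv.ofBijective (fun a => ⟨emb j a, Finset.mem_Iic.2 (emb_le j a)⟩)
            ⟨fun a b h => emb_inj j (congrArg Subtype.val h), fun ⟨i, hi⟩ => by
              obtain ⟨a, ha⟩ := mem_range_emb (Finset.mem_Iic.1 hi)
              exact ⟨a, Subtype.ext ha⟩⟩
        rw [← Matrix.det_submatrix_equiv_self e, Matrix.submatrix_submatrix]
        exact hM j
      · rw [if_neg (sum_wt_lt (by omega) j (Finset.mem_powersetCard.1 hS).2 hne).ne', mul_zero]
    refine ⟨le_antisymm (natDegree_sum_le_of_forall_le _ _ fun S hS => ?_)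
      (le_natDegree_of_ne_zero hco), fun h => hco (by rw [h, coeff_zero])⟩
    refine (natDegree_C_mul_X_pow_le _ _).trans ?_
    rcases eq_or_ne S (Finset.Iic j) with rfl | hne
    · exact le_rfl
    · exact (sum_wt_lt (by omega) j (Finset.mem_powersetCard.1 hS).2 hne).le
  let f : ℂ[X] := MvPolynomial.eval₂ C cs Q
  let dg : (Fin n →₀ ℕ) → ℕ := fun m => ∑ j, m j * pre j
  have hterm : ∀ m ∈ Q.support,
      (C (Q.coeff m) * ∏ j, cs j ^ m j).natDegree = dg m ∧ C (Q.coeff m) * ∏ j, cs j ^ m j ≠ 0 := by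
    intro m hm
    have hc : Q.coeff m ≠ 0 := MvPolynomial.mem_support_iff.1 hm
    have hp : ∀ j ∈ (Finset.univ : Finset (Fin n)), cs j ^ m j ≠ 0 := fun j _ =>
      pow_ne_zero _ (hdeg j).2
    refine ⟨?_, mul_ne_zero (C_ne_zero.2 hc) (Finset.prod_ne_zero_iff.2 hp)⟩
    rw [natDegree_C_mul hc, natDegree_prod _ _ hp]
    simp only [natDegree_pow, (hdeg _).1, dg]
  have hinj : ∀ m ∈ Q.support, ∀ m' ∈ Q.support, dg m = dg m' → m = m' := by
    intro m hm m' hm' h
    let b : (Fin n →₀ ℕ) → Fin n → ℕ := fun m i => ∑ j ∈ Finset.Ici i, m j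
    have e : ∀ m : Fin n →₀ ℕ, dg m = ∑ i, b m i * wt B i := fun m => by
      simp only [dg, pre, b, Finset.mul_sum, Finset.sum_mul]
      exact Finset.sum_comm' fun j i => by simp [and_comm]
    have hb : ∀ m ∈ Q.support, ∀ i, b m i < B := fun m hm i => by
      have h1 : ∑ j ∈ Finset.Ici i, m j ≤ ∑ j, m j :=
        Finset.sum_le_sum_of_subset (Finset.subset_univ _)
      have h2 := MvPolynomial.le_totalDegree hm
      rw [Finsupp.sum_fintype _ _ (by simp)] at h2
      simp only [b, B]
      omega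
    rw [e, e] at h
    have h' := digits_unique _ _ (hb m hm) (hb m' hm') h
    have hpeel : ∀ (m : Fin n →₀ ℕ) (i : Fin n), b m i = m i + ∑ j ∈ Finset.Ioi i, m j := fun m i => by
      simp only [b]
      rw [Finset.Ici_eq_cons_Ioi, Finset.sum_cons]
    ext i
    induction i using WellFoundedGT.induction with
    | _ i ih =>
      have e1 := congrFun h' i
      rw [hpeel, hpeel] at e1
      have e2 : ∑ j ∈ Finset.Ioi i, m j = ∑ j ∈ Finset.Ioi i, m' j :=
        Finset.sum_congr rfl fun j hj => ih j (Finset.mem_Ioi.1 hj)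
      omega
  have hf0 : f ≠ 0 := by
    obtain ⟨m₀, hm₀, hmax⟩ := Finset.exists_max_image Q.support dg
      (Finset.nonempty_iff_ne_empty.2 fun h => hQ0 (MvPolynomial.support_eq_empty.1 h))
    intro h
    have h1 := congrArg (fun p => Polynomial.coeff p (dg m₀)) h
    simp only [f, MvPolynomial.eval₂_eq', finsetSum_coeff, coeff_zero] at h1
    rw [Finset.sum_eq_single m₀ (fun m hm hne => coeff_eq_zero_of_natDegree_lt ?_)
      (fun h => absurd hm₀ h)] at h1
    · obtain ⟨e1, e2⟩ := hterm m₀ hm₀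
      rw [← e1] at h1
      exact leadingCoeff_ne_zero.2 e2 h1
    · rw [(hterm m hm).1]
      exact lt_of_le_of_ne (hmax m hm) fun h => hne (hinj m hm m₀ hm₀ h)
  obtain ⟨s, hs⟩ := ((Polynomial.finite_setOfPred_isRoot hf0).union
    (Set.finite_singleton (0 : ℂ))).infinite_compl.nonempty
  simp only [Set.mem_compl_iff, Set.mem_union, Set.mem_ofPred_eq, Set.mem_singleton_iff,
    not_or] at hs
  refine ⟨fun i => s ^ wt B i, fun i => pow_ne_zero _ hs.2, ?_⟩
  have hcof : cof (diagonal (fun i => s ^ wt B i) * M) = fun j => (cs j).eval s := by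
    funext j
    have := j.isLt
    have h1 := Matrix.charpoly_coeff_eq_sum_minors (diagonal (fun i => s ^ wt B i) * M)
      ((j : ℕ) + 1) (by simp)
    rw [Fintype.card_fin] at h1
    rw [cof, h1, ← mul_assoc, ← mul_pow, neg_one_mul, neg_neg, one_pow, one_mul, eval_finsetSum]
    refine Finset.sum_congr rfl fun S _ => ?_
    rw [det_diag_mul_sub, eval_mul, eval_C, eval_pow, eval_X, Finset.prod_coe_sort S
      (fun i => s ^ wt B i), Finset.prod_pow_eq_pow_sum, mul_comm]
  rw [symFun, hcof, ← hQ]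
  intro h
  refine hs.1 ?_
  show f.eval s = 0
  rw [show f.eval s = Polynomial.evalRingHom s (MvPolynomial.eval₂ C cs Q) from rfl,
    MvPolynomial.eval₂_comp_left, ← h, MvPolynomial.eval, MvPolynomial.coe_eval₂Hom]
  congr 1
  ext x
  simp

/-- For each condition, some `diag d * M` of determinant `det M` satisfies it. -/
theorem exists_gen_sl {M : Mat n} (hM : ∀ j, minor M j ≠ 0) (i : Option (Rel n)) :
    ∃ d : Fin n → ℂ, (∏ j, d j) = 1 ∧ genFun i (diagonal d * M) ≠ 0 := by
  obtain ⟨d, hd0, hd⟩ := exists_gen_diag hM _ (genPoly_symm i) (genPoly_ne i)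
  obtain ⟨D, hD⟩ := genFun_smul i
  rcases Nat.eq_zero_or_pos n with rfl | hn
  · exact ⟨d, by simp, hd⟩
  have hp : (∏ j, d j) ≠ 0 := Finset.prod_ne_zero_iff.2 fun j _ => hd0 j
  obtain ⟨c, hc⟩ := IsAlgClosed.exists_pow_nat_eq (∏ j, d j)⁻¹ hn
  have hc0 : c ≠ 0 := fun h => by
    rw [h, zero_pow hn.ne'] at hc
    exact inv_ne_zero hp hc.symm
  refine ⟨c • d, ?_, ?_⟩
  · simp only [Pi.smul_apply, smul_eq_mul, Finset.prod_mul_distrib, Finset.prod_const,
      Finset.card_univ, Fintype.card_fin, hc]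
    exact inv_mul_cancel₀ hp
  · rw [Matrix.diagonal_smul, Matrix.smul_mul, hD]
    exact mul_ne_zero (pow_ne_zero _ hc0) hd

end P002Punct
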