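import Vale.Agent.P002Punct.Poly
import Vale.Agent.P002Punct.Cond

/-!
A polynomial vanishing at the irreducible integral representations vanishes at generic points of
the closure of all integral representations.
-/

namespace P002Punct

open Matrix P002Surf

open scoped Kronecker

variable {g s n : ℕ}

/-- The pair has no common invariant subspace other than the trivial ones. -/
def PairIrr (x : Pair n) : Prop :=
  ∀ W : Submodule ℂ (Fin n → ℂ), (∀ v ∈ W, x.1 *ᵥ v ∈ W ∧ x.2 *ᵥ v ∈ W) → W = ⊥ ∨ W = ⊤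

/-- The entries of the words `B ^ k * A * B ^ l`. -/
def wordMat (x : Pair n) : Matrix (Fin n × Fin n) (Fin n × Fin n) ℂ :=
  Matrix.of fun kl rc => (x.2 ^ (kl.1 : ℕ) * x.1 * x.2 ^ (kl.2 : ℕ)) rc.1 rc.2

/-- The words of a generic pair span all matrices. -/
theorem det_wordMat_ne {x : Pair n} (h : G0 x) : (wordMat x).det ≠ 0 := by
  obtain ⟨P, μ, ⟨hP, hμ, hB⟩, hT⟩ := h
  have hu := isUnit_det_of_ne hP
  have hpow : ∀ m : ℕ, x.2 ^ m = P * diagonal (fun a => μ a ^ m) * P⁻¹ := by
    intro m
    induction m with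
    | zero => simp [Matrix.mul_nonsing_inv P hu]
    | succ m ih =>
      rw [pow_succ, ih, hB]
      simp only [Matrix.mul_assoc]
      rw [← Matrix.mul_assoc P⁻¹ P, Matrix.nonsing_inv_mul P hu, Matrix.one_mul,
        ← Matrix.mul_assoc (diagonal _) (diagonal μ), diagonal_mul_diagonal]
      simp [pow_succ]
  set A' := P⁻¹ * x.1 * P with hA'
  have hword : ∀ k l : ℕ, x.2 ^ k * x.1 * x.2 ^ l =
      P * diagonal (fun a => μ a ^ k) * A' * diagonal (fun a => μ a ^ l) * P⁻¹ := by
    intro k l
    rw [hpow, hpow, hA']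
    simp only [Matrix.mul_assoc]
  have e : wordMat x = ((vandermonde μ)ᵀ ⊗ₖ (vandermonde μ)ᵀ) *
      diagonal (fun ab : Fin n × Fin n => A' ab.1 ab.2) * (Pᵀ ⊗ₖ P⁻¹) := by
    ext ⟨k, l⟩ ⟨r, c⟩
    simp only [wordMat, Matrix.of_apply, hword]
    rw [Matrix.mul_apply, Matrix.mul_apply]
    simp only [mul_diagonal, kroneckerMap_apply, transpose_apply, vandermonde_apply,
      Fintype.sum_prod_type]
    simp only [Matrix.mul_apply (M := P * diagonal fun a => μ a ^ (k : ℕ)), mul_diagonal,
      Finset.sum_mul]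
    rw [Finset.sum_comm]
    exact Finset.sum_congr rfl fun a _ => Finset.sum_congr rfl fun b _ => by ring
  have hV := det_vandermonde_ne_zero_iff.2 hμ
  rw [e, det_mul, det_mul, det_kronecker, det_kronecker, det_diagonal, det_transpose,
    det_transpose]
  refine mul_ne_zero (mul_ne_zero (mul_ne_zero (pow_ne_zero _ hV) (pow_ne_zero _ hV))
    (Finset.prod_ne_zero_iff.2 fun ab _ => hT.1 ab.1 ab.2)) (mul_ne_zero (pow_ne_zero _ hP)
    (pow_ne_zero _ ?_))
  rw [det_nonsing_inv, Ring.inverse_eq_inv']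
  exact inv_ne_zero hP

/-- If the words span, the pair is irreducible. -/
theorem pairIrr_of_det {x : Pair n} (h : (wordMat x).det ≠ 0) : PairIrr x := by
  intro W hW
  have hpow : ∀ (m : ℕ) v, v ∈ W → x.2 ^ m *ᵥ v ∈ W := by
    intro m
    induction m with
    | zero => intro v hv; simpa using hv
    | succ m ih =>
      intro v hv
      rw [pow_succ, ← Matrix.mulVec_mulVec]
      exact ih _ (hW v hv).2
  have hall : ∀ (M : Mat n) v, v ∈ W → M *ᵥ v ∈ W := by
    intro M v hv
    obtain ⟨c, hc⟩ := Matrix.vecMul_surjective_iff_isUnit.2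
      ((Matrix.isUnit_iff_isUnit_det _).2 (isUnit_iff_ne_zero.2 h))
      (fun rc : Fin n × Fin n => M rc.1 rc.2)
    have e : M = ∑ kl : Fin n × Fin n, c kl • (x.2 ^ (kl.1 : ℕ) * x.1 * x.2 ^ (kl.2 : ℕ)) := by
      ext r d
      have := congrFun hc (r, d)
      simp only [Matrix.vecMul, dotProduct, wordMat, Matrix.of_apply] at this
      simp only [Matrix.sum_apply, Matrix.smul_apply, smul_eq_mul]
      exact this.symm
    rw [e, Matrix.sum_mulVec]
    refine W.sum_mem fun kl _ => ?_
    rw [Matrix.smul_mulVec, ← Matrix.mulVec_mulVec, ← Matrix.mulVec_mulVec]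
    exact W.smul_mem _ (hpow _ _ (hW _ (hpow _ _ hv)).1)
  refine or_iff_not_imp_left.2 fun hne => Submodule.eq_top_iff'.2 fun w => ?_
  obtain ⟨v, hv, hv0⟩ := Submodule.exists_mem_ne_zero_of_ne_bot hne
  obtain ⟨j, hj⟩ := Function.ne_iff.1 hv0
  convert hall (Matrix.of fun r c => if c = j then w r / v j else 0) v hv
  funext r
  simp only [Matrix.mulVec, dotProduct, Matrix.of_apply, ite_mul, zero_mul, Finset.sum_ite_eq',
    Finset.mem_univ, if_true]
  exact (div_mul_cancel₀ _ hj).symm

theorem polyF_wordDet (i : Fin g) :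
    PolyF fun v : Var g s n → ℂ => (wordMat ((unev (g := g) (s := s) (n := n) v).1 i)).det := by
  have hu := (polyS_iff.1 (polyS_unev (g := g) (s := s) (n := n))).1 i
  choose P hP using fun kl rc : Fin n × Fin n =>
    ((hu.2.pow kl.1).mul hu.1).mul (hu.2.pow kl.2) rc.1 rc.2
  refine ⟨(Matrix.of P).det, fun v =>
    (congrArg Matrix.det ?_).trans (RingHom.map_det _ _).symm⟩
  ext kl rc
  exact hP kl rc v

/-- Irreducible integral representations suffice at points with a generic handle. -/
theorem eval_zero_of_irr {R : Subring ℂ} {J : Fin s → Mat n}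
    (hall : ∀ x : St g s n, PRep J x → Zd R J x) {p : MvPolynomial (Var g s n) ℂ}
    (hp : ∀ a : St g s n, PRep J a → IntSt R a → (∃ i, PairIrr (a.1 i)) →
      MvPolynomial.eval (sev a) p = 0)
    {x : St g s n} (hx : PRep J x) {i : Fin g} (hG : G0 (x.1 i)) :
    MvPolynomial.eval (sev x) p = 0 := by
  obtain ⟨D, hD⟩ := polyF_wordDet (g := g) (s := s) (n := n) i
  have hval : ∀ a : St g s n, MvPolynomial.eval (sev a) D = (wordMat (a.1 i)).det := fun a => by
    simp only [← hD, unev_sev]
  have h := hall x hx (p * D) fun a ha ha' => by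
    rw [map_mul, hval]
    by_cases hd : (wordMat (a.1 i)).det = 0
    · rw [hd, mul_zero]
    · rw [hp a ha ha' ⟨i, pairIrr_of_det hd⟩, zero_mul]
  rw [map_mul, hval] at h
  exact (mul_eq_zero.1 h).resolve_right (det_wordMat_ne hG)

end P002Punct
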