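import Vale.Agent.P002Surf.Twist
import Vale.Agent.P002Surf.Span

/-!
The linear algebra of the mixing move: functionals killing all mixing velocities along a twist
orbit are multiples of `1 - C⁻¹`, where `C` is the commutator.
-/

namespace P002Punct

open P002Surf Matrix Filter Topology

variable {n : ℕ}

/-- A linear form vanishing at the inverses of the determinant one torus near `1` is zero. -/
theorem linear_zero_of_torus {c : Fin n → ℂ} {U : Set (Fin n → ℂ)} (hU : U ∈ 𝓝 (1 : Fin n → ℂ))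
    (h : ∀ d ∈ U, (∏ i, d i) = 1 → ∑ i, c i * (d i)⁻¹ = 0) : c = 0 := by
  have hval : ∑ i, c i = 0 := by simpa using h 1 (mem_of_mem_nhds hU) (by simp)
  have heq : ∀ i j, c i = c j := by
    intro i j
    by_contra hne
    have hij : i ≠ j := fun e => hne (e ▸ rfl)
    let w : Fin n → ℂ := Pi.single i 1 - Pi.single j 1
    have hw : ∑ k, w k = 0 := by simp [w, Finset.sum_sub_distrib]
    let d : ℂ → Fin n → ℂ := fun t k => Complex.exp (t * w k)
    have hd : Continuous d := by
      refine continuous_pi fun k => ?_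
      simp only [d]
      fun_prop
    have hev : ∀ᶠ t in 𝓝 (0 : ℂ), ∑ k, c k * (d t k)⁻¹ = 0 := by
      have h0 : d 0 = 1 := funext fun k => by simp [d]
      filter_upwards [hd.continuousAt.preimage_mem_nhds (h0 ▸ hU)] with t ht
      refine h _ ht ?_
      simp only [d, ← Complex.exp_sum, ← Finset.mul_sum, hw, mul_zero, Complex.exp_zero]
    have hder : HasDerivAt (fun t => ∑ k, c k * (d t k)⁻¹) (∑ k, c k * -w k) 0 := by
      refine HasDerivAt.fun_sum fun k _ => HasDerivAt.const_mul _ ?_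
      have h1 : HasDerivAt (fun t : ℂ => Complex.exp (t * -w k)) (-w k) 0 := by
        simpa using ((hasDerivAt_id (0 : ℂ)).mul_const (-w k)).cexp
      refine h1.congr_of_eventuallyEq (Eventually.of_forall fun t => ?_)
      simp [d, Complex.exp_neg, mul_neg]
    have h0 := hder.unique ((hasDerivAt_const (0 : ℂ) (0 : ℂ)).congr_of_eventuallyEq hev)
    simp [w, Pi.single_apply, mul_sub, Finset.sum_sub_distrib] at h0
    exact hne (sub_eq_zero.1 (by linear_combination -h0))
  funext i
  have hn : (n : ℂ) ≠ 0 := Nat.cast_ne_zero.2 (Fin.pos i).ne'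
  rw [Finset.sum_congr rfl (fun k _ => heq k i), Finset.sum_const, Finset.card_univ,
    Fintype.card_fin, nsmul_eq_mul] at hval
  exact (mul_eq_zero.1 hval).resolve_left hn

/-- The inverse of the commutator. -/
theorem inv_cm_eq {A B : Mat n} (hA : A.det = 1) (hB : B.det = 1) :
    (cm (A, B))⁻¹ = B * A * B⁻¹ * A⁻¹ := by
  have hA' : A⁻¹ = A.adjugate := by rw [Matrix.inv_def, hA, Ring.inverse_one, one_smul]
  have hB' : B⁻¹ = B.adjugate := by rw [Matrix.inv_def, hB, Ring.inverse_one, one_smul]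
  rw [hA', hB']
  exact Matrix.inv_eq_right_inv (cm_mul_swap hA hB)

/-- From one point of the orbit: `span_key` gives the shape of `B⁻¹ * Φ`. -/
theorem shape_of_orbit {A B Φ P : Mat n} {μ : Fin n → ℂ} (hA : A.det = 1) (hP : DiagBy B P μ)
    (hT : Triple (P⁻¹ * A * P))
    (h : ∀ δ : Fin n → ℂ, (∀ i, δ i ≠ 0) → ∀ k : ℕ, k ≤ 2 →
      ((A * (P * diagonal δ * P⁻¹)) ^ (k + 1) * (B⁻¹ * Φ)).trace = 0) :
    ∃ H : Mat n, H * B = B * H ∧ B⁻¹ * Φ = H - A * H * A⁻¹ := by
  have hu := isUnit_det_of_ne hP.1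
  have PP : P * P⁻¹ = 1 := Matrix.mul_nonsing_inv P hu
  have cc : ∀ Z : Mat n, P * (P⁻¹ * Z) = Z := fun Z => by
    rw [← Matrix.mul_assoc, PP, Matrix.one_mul]
  set X := P⁻¹ * A * P with hX
  set Y := P⁻¹ * (B⁻¹ * Φ) * P with hY
  have hkey : ∀ δ : Fin n → ℂ, (∀ i, δ i ≠ 0) → ∀ k : ℕ, k ≤ 2 →
      ((X * diagonal δ) ^ k * (Y * X * diagonal δ)).trace = 0 := by
    intro δ hδ k hk
    have e1 : P⁻¹ * (A * (P * diagonal δ * P⁻¹)) * P = X * diagonal δ := by
      simp only [hX, Matrix.mul_assoc, Matrix.nonsing_inv_mul P hu, Matrix.mul_one]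
    have e2 : ∀ m : ℕ, (X * diagonal δ) ^ m = P⁻¹ * (A * (P * diagonal δ * P⁻¹)) ^ m * P := by
      intro m
      induction m with
      | zero => simp [Matrix.nonsing_inv_mul P hu]
      | succ m ih =>
        rw [pow_succ, pow_succ, ih, ← e1]
        simp only [Matrix.mul_assoc, cc]
    calc ((X * diagonal δ) ^ k * (Y * X * diagonal δ)).trace
        = ((X * diagonal δ) ^ (k + 1) * Y).trace := by
          rw [Matrix.mul_assoc Y, ← Matrix.mul_assoc _ Y, Matrix.trace_mul_comm, ← Matrix.mul_assoc,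
            pow_succ']
      _ = ((A * (P * diagonal δ * P⁻¹)) ^ (k + 1) * (B⁻¹ * Φ)).trace := by
          rw [e2, hY]
          simp only [Matrix.mul_assoc, cc]
          rw [Matrix.trace_mul_comm]
          simp only [Matrix.mul_assoc, PP, Matrix.mul_one]
      _ = 0 := h δ hδ k hk
  obtain ⟨x, hx⟩ := span_key hT hkey
  have hAu : IsUnit A.det := by rw [hA]; exact isUnit_one
  refine ⟨P * diagonal x * P⁻¹, ?_, ?_⟩
  · rw [hP.2.2]
    simp only [Matrix.mul_assoc, Matrix.nonsing_inv_mul_cancel_left _ _ hu]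
    rw [← Matrix.mul_assoc (diagonal x), ← Matrix.mul_assoc (diagonal μ), diagonal_mul_diagonal,
      diagonal_mul_diagonal]
    simp only [mul_comm]
  · have e := congrArg (fun T => P * T * P⁻¹) hx
    simp only [hY, hX, Matrix.mul_sub, Matrix.sub_mul, Matrix.mul_assoc, cc, PP, Matrix.mul_one] at e
    have e' : B⁻¹ * (Φ * A) = P * (diagonal x * (P⁻¹ * A)) - A * (P * (diagonal x * P⁻¹)) := e
    calc B⁻¹ * Φ = B⁻¹ * (Φ * A) * A⁻¹ := by
          rw [← Matrix.mul_assoc, Matrix.mul_nonsing_inv_cancel_right _ _ hAu]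
      _ = _ := by
          rw [e', Matrix.sub_mul]
          simp only [Matrix.mul_assoc, Matrix.mul_nonsing_inv _ hAu, Matrix.mul_one]

/-- The key lemma: along the twist orbit of a generic pair only multiples of `1 - C⁻¹` are killed. -/
theorem kernel_of_orbit {A B Φ Q : Mat n} {a : Fin n → ℂ} (hA : A.det = 1) (hB : B.det = 1)
    (hQ : DiagBy A Q a) (hoff : ∀ i j, i ≠ j → (Q⁻¹ * B * Q) i j ≠ 0)
    (h : ∀ᶠ d in 𝓝 (1 : Fin n → ℂ), (∏ i, d i) = 1 → ∃ H : Mat n,
      H * (B * (Q * diagonal d * Q⁻¹)) = B * (Q * diagonal d * Q⁻¹) * H ∧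
      (B * (Q * diagonal d * Q⁻¹))⁻¹ * Φ = H - A * H * A⁻¹) :
    ∃ e : ℂ, Φ = e • (1 - (cm (A, B))⁻¹) := by
  rcases Nat.lt_or_ge n 2 with hn | hn
  · refine ⟨0, ?_⟩
    obtain ⟨H, -, e2⟩ := h.self_of_nhds (by simp)
    interval_cases n
    · exact Subsingleton.elim _ _
    have hu : IsUnit B.det := by rw [hB]; exact isUnit_one
    have hc : A * H = H * A := by ext i j; fin_cases i; fin_cases j; simp [Matrix.mul_apply, mul_comm]
    rw [diagonal_one', Matrix.mul_one, Matrix.mul_nonsing_inv _ (isUnit_det_of_ne hQ.1),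
      Matrix.mul_one, hc, Matrix.mul_nonsing_inv_cancel_right _ _ (by rw [hA]; exact isUnit_one),
      sub_self] at e2
    rw [zero_smul]
    rw [← Matrix.mul_nonsing_inv_cancel_left B Φ hu, e2, Matrix.mul_zero]
  have hu := isUnit_det_of_ne hQ.1
  have cc : ∀ Z : Mat n, Q * (Q⁻¹ * Z) = Z := fun Z => by
    rw [← Matrix.mul_assoc, Matrix.mul_nonsing_inv _ hu, Matrix.one_mul]
  have cc' : ∀ Z : Mat n, Q⁻¹ * (Q * Z) = Z := fun Z => Matrix.nonsing_inv_mul_cancel_left _ _ hu
  have ha0 : ∀ i, a i ≠ 0 := fun i hi => by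
    have := hQ.det
    rw [hA, Finset.prod_eq_zero (Finset.mem_univ i) hi] at this
    exact one_ne_zero this
  set B' := Q⁻¹ * B * Q with hB'
  set M := Q⁻¹ * (B⁻¹ * Φ) * Q with hM
  let K : Mat n := Matrix.of fun i j => if i = j then 0 else M i j / (1 - a i / a j)
  have hA'inv : A⁻¹ = Q * diagonal (fun i => (a i)⁻¹) * Q⁻¹ := by
    refine Matrix.inv_eq_right_inv ?_
    rw [hQ.2.2]
    simp only [Matrix.mul_assoc, cc']
    rw [← Matrix.mul_assoc (diagonal a), diagonal_mul_diagonal]
    simp [ha0, Matrix.mul_nonsing_inv _ hu]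
  -- coordinates at each point of the torus
  have hev : ∀ᶠ d in 𝓝 (1 : Fin n → ℂ), (∏ i, d i) = 1 → ∃ x : Fin n → ℂ,
      (∀ i, M i i = 0) ∧ ∀ i j, (B' * K) i j + B' i j * d j * x j =
        (d i)⁻¹ * d j * (K * B') i j + x i * B' i j * d j := by
    filter_upwards [h] with d hd hd1
    obtain ⟨H, e1, e2⟩ := hd hd1
    have hd0 : ∀ i, d i ≠ 0 := fun i hi => by
      rw [Finset.prod_eq_zero (Finset.mem_univ i) hi] at hd1
      exact zero_ne_one hd1
    set Dd := diagonal d with hDd
    set Di := diagonal fun i => (d i)⁻¹ with hDi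
    have hDD : Di * Dd = 1 := by
      rw [hDd, hDi, diagonal_mul_diagonal, ← diagonal_one]
      exact congrArg _ (funext fun i => inv_mul_cancel₀ (hd0 i))
    have hinv : (B * (Q * Dd * Q⁻¹))⁻¹ = Q * Di * Q⁻¹ * B⁻¹ := by
      rw [Matrix.mul_inv_rev]
      congr 1
      refine Matrix.inv_eq_left_inv ?_
      simp only [Matrix.mul_assoc, cc']
      rw [← Matrix.mul_assoc Di, hDD, Matrix.one_mul, Matrix.mul_nonsing_inv _ hu]
    set H' := Q⁻¹ * H * Q with hH'
    have f1 : H' * (B' * Dd) = B' * Dd * H' := by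
      have e := congrArg (fun T => Q⁻¹ * T * Q) e1
      simpa only [hH', hB', Matrix.mul_assoc, cc, cc', Matrix.nonsing_inv_mul _ hu,
        Matrix.mul_one] using e
    have f2 : Di * M = H' - diagonal a * H' * diagonal (fun i => (a i)⁻¹) := by
      rw [hinv, hA'inv, hQ.2.2] at e2
      have e := congrArg (fun T => Q⁻¹ * T * Q) e2
      simpa only [hH', hM, Matrix.mul_sub, Matrix.sub_mul, Matrix.mul_assoc, cc, cc',
        Matrix.nonsing_inv_mul _ hu, Matrix.mul_one] using e
    have g2 : ∀ i j, (d i)⁻¹ * M i j = H' i j * (1 - a i / a j) := fun i j => by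
      have := congrFun (congrFun f2 i) j
      rw [hDi, Matrix.diagonal_mul, Matrix.sub_apply, Matrix.mul_diagonal, Matrix.diagonal_mul] at this
      rw [this]; ring
    have hMd : ∀ i, M i i = 0 := fun i => by
      have := g2 i i
      rw [div_self (ha0 i), sub_self, mul_zero, mul_eq_zero] at this
      exact this.resolve_left (inv_ne_zero (hd0 i))
    refine ⟨H'.diag, hMd, fun i j => ?_⟩
    have hH : H' = Di * K + diagonal H'.diag := by
      ext i j
      rw [Matrix.add_apply, hDi, Matrix.diagonal_mul]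
      rcases eq_or_ne i j with rfl | hij
      · simp [K]
      · have hne : (1 : ℂ) - a i / a j ≠ 0 := by
          rw [sub_ne_zero]
          intro he
          exact hQ.2.1.ne hij ((div_eq_one_iff_eq (ha0 j)).1 he.symm)
        rw [diagonal_apply_ne _ hij, add_zero]
        simp only [K, Matrix.of_apply, if_neg hij]
        rw [← mul_div_assoc, g2, mul_div_cancel_right₀ _ hne]
    rw [hH, Matrix.add_mul, Matrix.mul_add] at f1
    have hDD' : Dd * Di = 1 := mul_eq_one_comm.1 hDD
    rw [Matrix.mul_assoc B' Dd (Di * K), ← Matrix.mul_assoc Dd, hDD', Matrix.one_mul,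
      Matrix.mul_assoc Di K, ← Matrix.mul_assoc K] at f1
    have := congrFun (congrFun f1 i) j
    simp only [Matrix.add_apply, hDi, hDd, Matrix.mul_diagonal, Matrix.diagonal_mul] at this
    linear_combination -this
  obtain ⟨x₁, hMd, hx₁⟩ := hev.self_of_nhds (by simp)
  have hM0 : ∀ i, M i i = 0 := hMd
  have hii : ∀ i, (B' * K) i i = (K * B') i i := fun i => by
    have := hx₁ i i
    simp only [Pi.one_apply, inv_one, one_mul, mul_one] at this
    linear_combination this
  let p : Fin n → Fin n → ℂ := fun i j => (B' * K) i j / B' i j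
  let q : Fin n → Fin n → ℂ := fun i j => (K * B') i j / B' i j
  have hlin : ∀ᶠ d in 𝓝 (1 : Fin n → ℂ), (∏ i, d i) = 1 → ∃ x : Fin n → ℂ, ∀ i j, i ≠ j →
      p i j * (d j)⁻¹ - q i j * (d i)⁻¹ = x i - x j := by
    filter_upwards [hev] with d hd hd1
    obtain ⟨x, -, hx⟩ := hd hd1
    refine ⟨x, fun i j hij => ?_⟩
    have hd0 : d j ≠ 0 := fun hj => by
      rw [Finset.prod_eq_zero (Finset.mem_univ j) hj] at hd1
      exact zero_ne_one hd1
    have hne := hoff i j hij
    have hx' := hx i j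
    simp only [p, q]
    field_simp
    have hdi : d i ≠ 0 := fun hj => by
      rw [Finset.prod_eq_zero (Finset.mem_univ i) hj] at hd1
      exact zero_ne_one hd1
    field_simp at hx' ⊢
    linear_combination hx'
  have pair : ∀ i j, i ≠ j → p i j = q j i := by
    intro i j hij
    have h0 := linear_zero_of_torus (c := Pi.single j (p i j - q j i) + Pi.single i (p j i - q i j))
      hlin (fun d hd hd1 => by
        obtain ⟨x, hx⟩ := hd hd1
        have e1 := hx i j hij
        have e2 := hx j i hij.symm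
        simp only [Pi.add_apply, add_mul, Finset.sum_add_distrib, Pi.single_apply, ite_mul, zero_mul,
          Finset.sum_ite_eq', Finset.mem_univ, if_true]
        linear_combination e1 + e2)
    have := congrFun h0 j
    simpa [hij.symm, sub_eq_zero] using this
  have triple : ∀ i j k, i ≠ j → j ≠ k → i ≠ k → p i j = q j k := by
    intro i j k hij hjk hik
    have h0 := linear_zero_of_torus (c := Pi.single j (p i j - q j k) +
      Pi.single k (p j k - q k i) + Pi.single i (p k i - q i j))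
      hlin (fun d hd hd1 => by
        obtain ⟨x, hx⟩ := hd hd1
        have e1 := hx i j hij
        have e2 := hx j k hjk
        have e3 := hx k i hik.symm
        simp only [Pi.add_apply, add_mul, Finset.sum_add_distrib, Pi.single_apply, ite_mul, zero_mul,
          Finset.sum_ite_eq', Finset.mem_univ, if_true]
        linear_combination e1 + e2 + e3)
    have := congrFun h0 j
    simpa [hij.symm, hjk, sub_eq_zero] using this
  have hnt : Nontrivial (Fin n) := Fin.nontrivial_iff_two_le.2 hn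
  choose o ho using fun j : Fin n => exists_ne j
  let c : Fin n → ℂ := fun j => q j (o j)
  have hq : ∀ j k, j ≠ k → q j k = c j := by
    intro j k hjk
    rcases eq_or_ne k (o j) with rfl | hk
    · rfl
    · show q j k = q j (o j)
      rw [← pair (o j) j (ho j), triple (o j) j k (ho j) hjk hk.symm]
  have hp : ∀ i j, i ≠ j → p i j = c j := fun i j hij => by rw [pair i j hij, hq j i hij.symm]
  let r : Fin n → ℂ := fun i => (B' * K) i i - B' i i * c i
  have hBK : B' * K = B' * diagonal c + diagonal r := by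
    ext i j
    rw [Matrix.add_apply, Matrix.mul_diagonal]
    rcases eq_or_ne i j with rfl | hij
    · simp [r]
    · rw [diagonal_apply_ne _ hij, add_zero, ← hp i j hij]
      exact (mul_div_cancel₀ _ (hoff i j hij)).symm
  have hKB : K * B' = diagonal c * B' + diagonal r := by
    ext i j
    rw [Matrix.add_apply, Matrix.diagonal_mul]
    rcases eq_or_ne i j with rfl | hij
    · simp [r, ← hii i]; ring
    · rw [diagonal_apply_ne _ hij, add_zero, ← hq i j hij]
      exact (div_mul_cancel₀ _ (hoff i j hij)).symm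
  have hB'd : B'.det = 1 := by
    rw [hB', Matrix.det_mul, Matrix.det_mul, mul_right_comm, ← Matrix.det_mul,
      Matrix.nonsing_inv_mul _ hu, Matrix.det_one, one_mul, hB]
  have hBu : IsUnit B'.det := by rw [hB'd]; exact isUnit_one
  have hK : K = diagonal c + B'⁻¹ * diagonal r := by
    calc K = B'⁻¹ * (B' * K) := (Matrix.nonsing_inv_mul_cancel_left _ _ hBu).symm
      _ = _ := by rw [hBK, Matrix.mul_add, Matrix.nonsing_inv_mul_cancel_left _ _ hBu]
  have hcom : B'⁻¹ * diagonal r * B' = diagonal r := by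
    have := hKB
    rw [hK, Matrix.add_mul] at this
    exact add_left_cancel this
  let i₀ : Fin n := ⟨0, by omega⟩
  have hr : ∀ i, r i = r i₀ := by
    intro i
    rcases eq_or_ne i i₀ with rfl | hi
    · rfl
    have e := congrArg (B' * ·) hcom
    simp only [Matrix.mul_assoc, Matrix.mul_nonsing_inv_cancel_left _ _ hBu] at e
    have := congrFun (congrFun e i) i₀
    rw [Matrix.diagonal_mul, Matrix.mul_diagonal] at this
    exact mul_right_cancel₀ (hoff i i₀ hi) (this.trans (mul_comm _ _))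
  refine ⟨r i₀, ?_⟩
  have hBi : B'⁻¹ = Q⁻¹ * B⁻¹ * Q := by
    rw [hB', Matrix.mul_inv_rev, Matrix.mul_inv_rev, Matrix.nonsing_inv_nonsing_inv _ hu,
      Matrix.mul_assoc]
  have hMeq : M = r i₀ • (B'⁻¹ - diagonal a * B'⁻¹ * diagonal fun i => (a i)⁻¹) := by
    ext i j
    rw [Matrix.smul_apply, Matrix.sub_apply, Matrix.mul_diagonal, Matrix.diagonal_mul, smul_eq_mul]
    rcases eq_or_ne i j with rfl | hij
    · rw [hM0, mul_comm (a i), mul_assoc, mul_inv_cancel₀ (ha0 i), mul_one, sub_self, mul_zero]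
    · have hne : (1 : ℂ) - a i / a j ≠ 0 := by
        rw [sub_ne_zero]
        intro he
        exact hQ.2.1.ne hij ((div_eq_one_iff_eq (ha0 j)).1 he.symm)
      have e := congrFun (congrFun hK i) j
      rw [Matrix.add_apply, diagonal_apply_ne _ hij, zero_add, Matrix.mul_diagonal, hr j] at e
      simp only [K, Matrix.of_apply, if_neg hij, div_eq_iff hne] at e
      rw [e]; ring
  have hBuB : IsUnit B.det := by rw [hB]; exact isUnit_one
  have e1 : Φ = B * (Q * M * Q⁻¹) := by
    rw [hM]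
    simp only [Matrix.mul_assoc, cc, Matrix.mul_nonsing_inv _ hu, Matrix.mul_one]
    rw [Matrix.mul_nonsing_inv_cancel_left _ _ hBuB]
  have e2 : diagonal a * B'⁻¹ * diagonal (fun i => (a i)⁻¹) = Q⁻¹ * (A * B⁻¹ * A⁻¹) * Q := by
    rw [hA'inv, hQ.2.2, hBi]
    simp only [Matrix.mul_assoc, cc', Matrix.nonsing_inv_mul _ hu, Matrix.mul_one]
  rw [e1, hMeq, e2, hBi, inv_cm_eq hA hB]
  simp only [Matrix.mul_smul, Matrix.smul_mul, Matrix.mul_sub, Matrix.sub_mul, Matrix.mul_assoc, cc,
    Matrix.mul_nonsing_inv _ hu, Matrix.mul_one]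
  rw [Matrix.mul_nonsing_inv _ hBuB]

/-- Velocity of a mixing move paired with a functional. -/
theorem mix_pairing {A B A₂ η : Mat n} (hB : B.det = 1) (c : ℂ) :
    (η * (cm (A, B) * ((B⁻¹ * A₂ - c • 1) - B * (B⁻¹ * A₂ - c • 1) * B⁻¹) * (cm (A, B))⁻¹)).trace =
      (B⁻¹ * (A₂ * ((cm (A, B))⁻¹ * η * cm (A, B)) - (cm (A, B))⁻¹ * η * cm (A, B) * A₂)).trace := by
  have hBu : IsUnit B.det := by rw [hB]; exact isUnit_one
  set C := cm (A, B) with hC
  set η₁ := C⁻¹ * η * C with hη
  have e : (B⁻¹ * A₂ - c • 1) - B * (B⁻¹ * A₂ - c • (1 : Mat n)) * B⁻¹ = B⁻¹ * A₂ - A₂ * B⁻¹ := by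
    simp only [Matrix.mul_sub, Matrix.sub_mul, Matrix.mul_nonsing_inv_cancel_left _ _ hBu,
      Matrix.mul_smul, Matrix.smul_mul, Matrix.mul_one, Matrix.mul_nonsing_inv _ hBu]
    abel
  rw [e]
  have e1 : ∀ Z : Mat n, (η * (C * Z * C⁻¹)).trace = (η₁ * Z).trace := fun Z => by
    rw [← Matrix.mul_assoc, Matrix.trace_mul_comm, hη]
    simp only [Matrix.mul_assoc]
  rw [e1, Matrix.mul_sub, Matrix.mul_sub, Matrix.trace_sub, Matrix.trace_sub]
  congr 1
  · rw [Matrix.trace_mul_comm, Matrix.mul_assoc]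
  · rw [← Matrix.mul_assoc η₁, Matrix.trace_mul_comm]

/-- A functional on the conjugator that kills mixing velocities and a torus of the other pair. -/
theorem eq_zero_of_mix {A₂ ζ C : Mat n} {e : ℂ} (hA₂ : A₂.det = 1) (he : A₂ * ζ = e • (1 - C⁻¹))
    (htr : (A₂ * ζ).trace = 0) (hC : (C⁻¹).trace ≠ n) : ζ = 0 := by
  rw [he, Matrix.trace_smul, Matrix.trace_sub, Matrix.trace_one, Fintype.card_fin, smul_eq_mul,
    mul_eq_zero, sub_eq_zero] at htr
  rw [htr.resolve_right (Ne.symm hC), zero_smul] at he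
  have hu : IsUnit A₂.det := by rw [hA₂]; exact isUnit_one
  simpa [Matrix.nonsing_inv_mul_cancel_left _ _ hu] using congrArg (A₂⁻¹ * ·) he

/-- A functional on the commutator that kills mixing velocities is scalar. -/
theorem scalar_of_mix {A₂ B₂ η C : Mat n} (hA₂ : A₂.det = 1) (hs : ScalarCommutant (A₂, B₂))
    (hC : (C⁻¹).trace ≠ n) {e e' : ℂ} (h₁ : A₂ * η - η * A₂ = e • (1 - C⁻¹))
    (h₂ : A₂ * B₂ * η - η * (A₂ * B₂) = e' • (1 - C⁻¹)) : ∃ c : ℂ, η = c • (1 : Mat n) := by
  have hzero : ∀ (M : Mat n) (f : ℂ), M * η - η * M = f • (1 - C⁻¹) → M * η = η * M := by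
    intro M f hf
    have ht := congrArg Matrix.trace hf
    rw [Matrix.trace_sub, Matrix.trace_mul_comm, sub_self, Matrix.trace_smul, Matrix.trace_sub,
      Matrix.trace_one, Fintype.card_fin, smul_eq_mul, eq_comm, mul_eq_zero, sub_eq_zero] at ht
    rw [ht.resolve_right (Ne.symm hC), zero_smul, sub_eq_zero] at hf
    exact hf
  have c1 := hzero _ _ h₁
  have c2 := hzero _ _ h₂
  have hu : IsUnit A₂.det := by rw [hA₂]; exact isUnit_one
  refine hs η c1.symm ?_
  rw [← Matrix.mul_assoc η, ← c1, Matrix.mul_assoc, Matrix.mul_assoc] at c2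
  have := congrArg (A₂⁻¹ * ·) c2
  simpa [Matrix.nonsing_inv_mul_cancel_left _ _ hu] using this.symm

end P002Punct
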