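import Vale.Agent.P002Punct.Poly

/-!
Moves: a key matrix commuting elements of which act on representations.  At a key with
multiplicatively independent eigenvalues the whole torus of the key acts on the closure.
-/

namespace P002Punct

open Matrix P002Surf

open scoped Matrix.Norms.Operator

variable {g s n : ℕ} {R : Subring ℂ} {J : Fin s → Mat n}

/-- A move of representations. -/
structure Move (g : ℕ) (R : Subring ℂ) (J : Fin s → Mat n) where
  /-- The matrix that stays fixed. -/
  key : St g s n → Mat n
  /-- The action of a matrix commuting with the key. -/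
  act : St g s n → Mat n → St g s n
  key_poly : ∀ {σ : Type} (F : (σ → ℂ) → St g s n), PolyS F → PolyM fun v => key (F v)
  act_poly : ∀ {σ : Type} (F : (σ → ℂ) → St g s n) (G : (σ → ℂ) → Mat n), PolyS F → PolyM G →
    PolyS fun v => act (F v) (G v)
  key_det : ∀ x, PRep J x → (key x).det = 1
  act_one : ∀ x, act x 1 = x
  act_act : ∀ x z w, z.det = 1 → key x * z = z * key x → act (act x z) w = act x (z * w)
  key_act : ∀ x z, z.det = 1 → key x * z = z * key x → key (act x z) = key x
  rep : ∀ x z, PRep J x → z.det = 1 → key x * z = z * key x → PRep J (act x z)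
  int_key : ∀ x, IntSt R x → IntM R (key x)
  int_act : ∀ x z, IntSt R x → IntM R z → IntSt R (act x z)

namespace Move

variable (M : Move g R J)

theorem zd_pow {x : St g s n} (hx : Zd R J x) (m : ℕ) : Zd R J (M.act x (M.key x ^ m)) := by
  have h := zd_map (J' := J) (F := fun v => M.act (unev v) (M.key (unev v) ^ m))
    (M.act_poly _ _ polyS_unev ((M.key_poly _ polyS_unev).pow m)) (fun a ha ha' => by
      simp only [unev_sev]
      refine ⟨M.rep a _ ha ?_ (Commute.pow_right (Commute.refl _) m).eq,
        M.int_act a _ ha' ((M.int_key a ha').pow m)⟩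
      rw [Matrix.det_pow, M.key_det a ha, one_pow]) hx
  simpa only [unev_sev] using h

/-- Tori: at an independent key every commuting matrix of determinant one acts. -/
theorem zd_act {x : St g s n} (hx : Zd R J x) (hind : Indep (M.key x)) {Z : Mat n}
    (hdet : Z.det = 1) (hc : M.key x * Z = Z * M.key x) : Zd R J (M.act x Z) := by
  obtain ⟨P, μ, hdiag, hμ⟩ := hind
  obtain ⟨d, rfl⟩ := commute_diag hdiag hc
  have hd : (∏ k, d k) = 1 := by
    rwa [Matrix.det_mul, Matrix.det_mul, mul_comm P.det, mul_assoc, ← Matrix.det_mul,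
      Matrix.mul_nonsing_inv P (isUnit_det_of_ne hdiag.1), Matrix.det_one, mul_one,
      det_diagonal] at hdet
  intro p hp
  have hlin : PolyM fun w : Fin n → ℂ => P * diagonal w * P⁻¹ := by
    refine ((polyM_const P).mul fun a b => ?_).mul (polyM_const P⁻¹)
    by_cases hab : a = b
    · subst hab; simpa using polyF_coord a
    · simpa [hab] using polyF_const (σ := Fin n) 0
  choose T hT using M.act_poly _ _ (polyS_const (σ := Fin n) x) hlin
  let G : MvPolynomial (Fin n) ℂ := MvPolynomial.aeval T p
  have key : ∀ w : Fin n → ℂ, MvPolynomial.eval w G =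
      MvPolynomial.eval (sev (M.act x (P * diagonal w * P⁻¹))) p := by
    intro w
    simp only [G]
    rw [eval_subst]
    congr 2
    funext v
    exact (hT v w).symm
  have hpow : ∀ m : ℕ, MvPolynomial.eval (fun k => μ k ^ m) G = 0 := by
    intro m
    have hm : M.key x ^ m = P * diagonal (fun k => μ k ^ m) * P⁻¹ := by
      induction m with
      | zero => simp [Matrix.mul_nonsing_inv P (isUnit_det_of_ne hdiag.1)]
      | succ m ih =>
        rw [pow_succ, ih, hdiag.2.2]
        simp only [Matrix.mul_assoc]
        rw [← Matrix.mul_assoc P⁻¹ P, Matrix.nonsing_inv_mul P (isUnit_det_of_ne hdiag.1),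
          Matrix.one_mul, ← Matrix.mul_assoc (diagonal _) (diagonal μ), diagonal_mul_diagonal]
        simp [pow_succ]
    rw [key, ← hm]
    exact M.zd_pow hx m p hp
  rw [← key, MvPolynomial.eval_eq']
  refine sum_eq_zero_of_pow_sums _ _ (fun α => ∏ k, μ k ^ α k) _ (fun m => ?_) ?_
  · rw [← hpow m, MvPolynomial.eval_eq']
    refine Finset.sum_congr rfl fun α _ => ?_
    rw [← Finset.prod_pow]
    simp only [← pow_mul, mul_comm]
  · intro α _ β _ h
    exact hμ _ _ h d hd

theorem contDiff_act {E : Type*} [NormedAddCommGroup E] [NormedSpace ℂ E] {F : E → St g s n}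
    {G : E → Mat n} {e : E} (hF : ContDiffAt ℂ 1 F e) (hG : ContDiffAt ℂ 1 G e) :
    ContDiffAt ℂ 1 (fun u => M.act (F u) (G u)) e := by
  have hP := M.act_poly (σ := Var g s n ⊕ (Fin n × Fin n)) (fun v => unev fun w => v (.inl w))
    (fun v => Matrix.of fun a b => v (.inr (a, b)))
    (fun w => by simp only [sev_unev]; exact polyF_coord (Sum.inl w)) (fun a b => polyF_coord _)
  have hc : ContDiffAt ℂ 1 (fun u => Sum.elim (sev (F u)) fun v : Fin n × Fin n => G u v.1 v.2) e := by
    refine contDiffAt_pi.2 fun w => ?_
    rcases w with w | ⟨a, b⟩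
    · exact contDiffAt_pi.1 (contDiff_sev.contDiffAt.comp e hF) w
    · exact (contDiff_entry a b).contDiffAt.comp e hG
  exact hP.contDiff.contDiffAt.comp e hc

theorem contDiff_key {E : Type*} [NormedAddCommGroup E] [NormedSpace ℂ E] {F : E → St g s n}
    {e : E} (hF : ContDiffAt ℂ 1 F e) : ContDiffAt ℂ 1 (fun u => M.key (F u)) e :=
  (M.key_poly (σ := Var g s n) _ polyS_unev).contDiff.contDiffAt.comp e
    (contDiff_sev.contDiffAt.comp e hF)

end Move

end P002Punct
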