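import Vale.Agent.P002Punct.SpanMix

/-!
At one generic point of the closure a neighbourhood in the representation variety is in the closure.
-/

namespace P002Punct

open Matrix Filter Topology P002Surf

open scoped Matrix.Norms.Operator

variable {g s n : ℕ} {R : Subring ℂ} {J : Fin s → Mat n}

theorem contDiff_listProd : ∀ k : ℕ, ContDiff ℂ 1 fun C : Fin k → Mat n => (List.ofFn C).prod := by
  intro k
  induction k with
  | zero => simpa only [List.ofFn_zero, List.prod_nil] using contDiff_const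
  | succ k ih =>
    simp only [List.ofFn_succ, List.prod_cons]
    exact (contDiff_apply ℂ (Mat n) 0).mul
      (ih.comp (contDiff_pi.2 fun i : Fin k => contDiff_apply ℂ (Mat n) i.succ))

theorem hasDerivAt_line {E : Type*} [NormedAddCommGroup E] [NormedSpace ℂ E] (a b : E) :
    HasDerivAt (fun t : ℂ => a + t • b) b 0 :=
  HasDerivAt.const_add _ (by simpa using (hasDerivAt_id (0 : ℂ)).smul_const b)

theorem hasDerivAt_det_line {A : Mat n} (hA : A.det = 1) (X : Mat n) :
    HasDerivAt (fun t : ℂ => (A + t • X).det) (A.adjugate * X).trace 0 := by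
  rw [← fderiv_det_apply hA]
  exact HasFDerivAt.comp_hasDerivAt_of_eq (0 : ℂ)
    ((contDiff_det.differentiable one_ne_zero) A).hasFDerivAt (hasDerivAt_line A X) (by simp)

theorem cm_mul_general (p : Pair n) :
    cm p * p.2 * p.1 = (p.1.det * p.2.det) • (p.1 * p.2) := by
  simp only [cm, Matrix.mul_assoc]
  rw [← Matrix.mul_assoc p.2.adjugate p.2 p.1, Matrix.adjugate_mul, Matrix.smul_mul, Matrix.one_mul,
    Matrix.mul_smul, Matrix.adjugate_mul, smul_smul, Matrix.mul_smul, Matrix.mul_smul, Matrix.mul_one,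
    mul_comm]

theorem det_cm_general (hn : 0 < n) (p : Pair n) : (cm p).det = (p.1.det * p.2.det) ^ n := by
  obtain ⟨m, rfl⟩ : ∃ m, n = m + 1 := ⟨n - 1, by omega⟩
  simp only [cm, Matrix.det_mul, Matrix.det_adjugate, Fintype.card_fin, Nat.add_sub_cancel]
  ring

/-- A tangent vector at a representation, componentwise. -/
theorem tangent_parts (hn : 0 < n) (hJd : ∀ k, (J k).det = 1) {x u : St g s n} (hr : PRep J x)
    (hu : fderiv ℂ (relFun J) x u = 0) :
    (∀ i, ((x.1 i).1.adjugate * (u.1 i).1).trace = 0 ∧ ((x.1 i).2.adjugate * (u.1 i).2).trace = 0 ∧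
      ((fderiv ℂ coords x u).1 i * (cm (x.1 i)).adjugate).trace = 0 ∧
      ((fderiv ℂ coords x u).1 i = 0 → (u.1 i).1 * (x.1 i).2 + (x.1 i).1 * (u.1 i).2 =
        cm (x.1 i) * ((u.1 i).2 * (x.1 i).1 + (x.1 i).2 * (u.1 i).1))) ∧
    (∀ j, ((x.2 j).adjugate * u.2 j).trace = 0) ∧
    (u.2 = 0 → HasDerivAt (fun t : ℂ => (List.ofFn fun k => cm (x.1 k) +
      t • (fderiv ℂ coords x u).1 k).prod) 0 0) := by
  have hline := hasDerivAt_line x u
  have hN : HasDerivAt (fun t : ℂ => relFun J (x + t • u)) 0 0 := by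
    rw [← hu]
    exact HasFDerivAt.comp_hasDerivAt_of_eq (0 : ℂ)
      (((contDiff_relFun J).differentiable one_ne_zero) x).hasFDerivAt hline (by simp)
  set w := fderiv ℂ coords x u with hw
  have hco : HasDerivAt (fun t : ℂ => coords (x + t • u)) w 0 :=
    HasFDerivAt.comp_hasDerivAt_of_eq (0 : ℂ)
      ((contDiff_coords.differentiable one_ne_zero) x).hasFDerivAt hline (by simp)
  have hcf : HasDerivAt (fun t : ℂ => (coords (x + t • u)).1) w.1 0 :=
    HasFDerivAt.comp_hasDerivAt (0 : ℂ) (l := Prod.fst)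
      (l' := ContinuousLinearMap.fst ℂ (Fin g → Mat n) (Fin s → Mat n)) hasFDerivAt_fst hco
  have h2 : HasDerivAt (fun t : ℂ => (relFun J (x + t • u)).2) 0 0 :=
    HasFDerivAt.comp_hasDerivAt (0 : ℂ) (l := Prod.snd)
      (l' := ContinuousLinearMap.snd ℂ (Mat n) ((Fin g → ℂ × ℂ) × (Fin s → ℂ))) hasFDerivAt_snd hN
  have h21 : HasDerivAt (fun t : ℂ => (relFun J (x + t • u)).2.1) 0 0 :=
    HasFDerivAt.comp_hasDerivAt (0 : ℂ) (l := Prod.fst)
      (l' := ContinuousLinearMap.fst ℂ (Fin g → ℂ × ℂ) (Fin s → ℂ)) hasFDerivAt_fst h2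
  have h22 : HasDerivAt (fun t : ℂ => (relFun J (x + t • u)).2.2) 0 0 :=
    HasFDerivAt.comp_hasDerivAt (0 : ℂ) (l := Prod.snd)
      (l' := ContinuousLinearMap.snd ℂ (Fin g → ℂ × ℂ) (Fin s → ℂ)) hasFDerivAt_snd h2
  have hdA : ∀ i, HasDerivAt (fun t : ℂ => ((x.1 i).1 + t • (u.1 i).1).det) 0 0 := fun i =>
    HasFDerivAt.comp_hasDerivAt (0 : ℂ) (l := Prod.fst)
      (l' := ContinuousLinearMap.fst ℂ ℂ ℂ) hasFDerivAt_fst (hasDerivAt_pi.1 h21 i)
  have hdB : ∀ i, HasDerivAt (fun t : ℂ => ((x.1 i).2 + t • (u.1 i).2).det) 0 0 := fun i =>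
    HasFDerivAt.comp_hasDerivAt (0 : ℂ) (l := Prod.snd)
      (l' := ContinuousLinearMap.snd ℂ ℂ ℂ) hasFDerivAt_snd (hasDerivAt_pi.1 h21 i)
  refine ⟨fun i => ⟨(hasDerivAt_det_line (hr.1 i).1 _).unique (hdA i),
    (hasDerivAt_det_line (hr.1 i).2 _).unique (hdB i), ?_, fun h0 => ?_⟩,
    fun j => (hasDerivAt_det_line (hr.2.1 j) _).unique (hasDerivAt_pi.1 h22 j), fun hu2 => ?_⟩
  · have hC : HasDerivAt (fun t : ℂ => cm (x.1 i + t • u.1 i)) (w.1 i) 0 := hasDerivAt_pi.1 hcf i
    have h1 : HasDerivAt (fun t : ℂ => (cm (x.1 i + t • u.1 i)).det)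
        ((cm (x.1 i)).adjugate * w.1 i).trace 0 := by
      rw [← fderiv_det_apply (det_cm (x := x.1 i) (hr.1 i).1 (hr.1 i).2)]
      exact HasFDerivAt.comp_hasDerivAt_of_eq (0 : ℂ)
        ((contDiff_det.differentiable one_ne_zero) _).hasFDerivAt hC (by simp)
    have h3 : HasDerivAt (fun t : ℂ => (cm (x.1 i + t • u.1 i)).det) 0 0 := by
      simp only [det_cm_general hn]
      exact (((hdA i).fun_mul (hdB i)).fun_pow n).congr_deriv (by simp)
    rw [Matrix.trace_mul_comm]
    exact h1.unique h3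
  · have hC : HasDerivAt (fun t : ℂ => cm (x.1 i + t • u.1 i)) (0 : Mat n) 0 := by
      rw [← h0]; exact hasDerivAt_pi.1 hcf i
    have ha := hasDerivAt_line (x.1 i).1 (u.1 i).1
    have hb := hasDerivAt_line (x.1 i).2 (u.1 i).2
    have hl : HasDerivAt (fun t : ℂ => cm (x.1 i + t • u.1 i) * (((x.1 i).2 + t • (u.1 i).2) *
        ((x.1 i).1 + t • (u.1 i).1)))
        (cm (x.1 i) * ((u.1 i).2 * (x.1 i).1 + (x.1 i).2 * (u.1 i).1)) 0 :=
      (hC.fun_mul (hb.fun_mul ha)).congr_deriv (by simp)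
    have hr' : HasDerivAt (fun t : ℂ => cm (x.1 i + t • u.1 i) * (((x.1 i).2 + t • (u.1 i).2) *
        ((x.1 i).1 + t • (u.1 i).1)))
        ((u.1 i).1 * (x.1 i).2 + (x.1 i).1 * (u.1 i).2) 0 := by
      refine ((((hdA i).fun_mul (hdB i)).fun_smul (ha.fun_mul hb)).congr_deriv ?_).congr_of_eventuallyEq
        (Eventually.of_forall fun t => ?_)
      · simp [(hr.1 i).1, (hr.1 i).2]
      · simp only [← Matrix.mul_assoc]
        exact cm_mul_general (x.1 i + t • u.1 i)
    exact (hl.unique hr').symm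
  · have hh : HasDerivAt (fun t : ℂ => hprod (x + t • u)) 0 0 := by
      have h1 : HasDerivAt (fun t : ℂ => (relFun J (x + t • u)).1) 0 0 :=
        HasFDerivAt.comp_hasDerivAt (0 : ℂ) (l := Prod.fst)
          (l' := ContinuousLinearMap.fst ℂ (Mat n) ((Fin g → ℂ × ℂ) × (Fin s → ℂ))) hasFDerivAt_fst hN
      have hb : ∀ t : ℂ, bdList J (x + t • u) = bdList J x := fun t => by simp [bdList, hu2]
      simp only [relFun, hb] at h1
      have hd : (bdList J x).prod.det = 1 := by
        refine List.prod_induction (fun A : Mat n => A.det = 1)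
          (fun A B ha hb => by rw [det_mul, ha, hb, mul_one]) det_one fun A hA => ?_
        obtain ⟨k, rfl⟩ := List.mem_ofFn.1 hA
        simp [bd, Matrix.det_mul, hJd k, hr.2.1 k, det_adj_one (hr.2.1 k)]
      refine ((h1.mul_const (bdList J x).prod.adjugate).congr_deriv (Matrix.zero_mul _)
        ).congr_of_eventuallyEq (Eventually.of_forall fun t => ?_)
      show hprod (x + t • u) = hprod (x + t • u) * (bdList J x).prod * (bdList J x).prod.adjugate
      rw [Matrix.mul_assoc, mul_adj_one hd, Matrix.mul_one]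
    have hG := ((contDiff_listProd g).differentiable one_ne_zero
      (fun k => cm (x.1 k))).hasFDerivAt
    have hA : HasDerivAt (fun t : ℂ => hprod (x + t • u))
        (fderiv ℂ (fun C : Fin g → Mat n => (List.ofFn C).prod) (fun k => cm (x.1 k)) w.1) 0 :=
      HasFDerivAt.comp_hasDerivAt_of_eq (0 : ℂ) hG hcf (by simp [coords])
    have hB : HasDerivAt (fun t : ℂ => (List.ofFn fun k => cm (x.1 k) + t • w.1 k).prod)
        (fderiv ℂ (fun C : Fin g → Mat n => (List.ofFn C).prod) (fun k => cm (x.1 k)) w.1) 0 :=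
      HasFDerivAt.comp_hasDerivAt_of_eq (0 : ℂ) hG
        (hasDerivAt_line (fun k => cm (x.1 k)) w.1) (by simp)
    rw [← hA.unique hh]
    exact hB

/-- The velocities at a generic point fill the tangent space. -/
theorem span_generic (hn : 0 < n) (hJd : ∀ k, (J k).det = 1) (hJR : ∀ k, IntM R (J k))
    {x : St (g + 1) s n} (hx : Generic J x) (hz : Zd R J x) (u : St (g + 1) s n)
    (hu : fderiv ℂ (relFun J) x u = 0) : u ∈ Submodule.span ℂ {v | Vel R J x v} := by
  classical
  have hr := hx.1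
  set V := Submodule.span ℂ {v | Vel R J x v} with hV
  have htan : ∀ v ∈ V, fderiv ℂ (relFun J) x v = 0 := by
    intro v hv
    induction hv using Submodule.span_induction with
    | mem v hv => exact vel_tangent hr hz hv
    | zero => exact map_zero _
    | add a b _ _ ha hb => rw [map_add, ha, hb, add_zero]
    | smul c a _ ha => rw [map_smul, ha, smul_zero]
  have hlift : ∀ e ∈ Submodule.span ℂ (ImV R J x), ∃ w ∈ V, fderiv ℂ coords x w = e := by
    intro e he
    have h : Submodule.span ℂ (ImV R J x) =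
        V.map (fderiv ℂ coords x).toLinearMap := by
      rw [hV, Submodule.map_span]; rfl
    rw [h] at he
    exact Submodule.mem_map.1 he
  -- conjugators
  obtain ⟨e, he, hes⟩ := Submodule.mem_map.1 (bd_span hJd hJR hx u.2 (tangent_parts hn hJd hr hu).2.1)
  obtain ⟨w, hwV, hwe⟩ := hlift e he
  set u1 := u - w with hu1
  have hw2 : w.2 = u.2 := by rw [← fderiv_coords_snd x w, hwe]; exact hes
  have hu12 : u1.2 = 0 := by simp [hu1, hw2]
  have hu1t : fderiv ℂ (relFun J) x u1 = 0 := by rw [hu1, map_sub, hu, htan w hwV, sub_zero]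
  -- commutators
  obtain ⟨hp1, -, hprod1⟩ := tangent_parts hn hJd hr hu1t
  obtain ⟨w', hw'V, hw'e⟩ := hlift _ (mix_span (R := R) hn hx (fun k => (hp1 k).2.2.1) (hprod1 hu12))
  set u2 := u1 - w' with hu2
  have hu2t : fderiv ℂ (relFun J) x u2 = 0 := by rw [hu2, map_sub, hu1t, htan w' hw'V, sub_zero]
  have hu2D : fderiv ℂ coords x u2 = 0 := by
    rw [hu2, map_sub, hw'e]
    ext1
    · simp
    · simp [fderiv_coords_snd, hu12]
  have hu22 : u2.2 = 0 := by rw [← fderiv_coords_snd x u2, hu2D]; rfl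
  -- fibres
  obtain ⟨hp2, -, -⟩ := tangent_parts hn hJd hr hu2t
  have hu2V : u2 ∈ V := by
    have hsum : u2 = ∑ k, emb k (u2.1 k) := by
      refine Prod.ext ?_ ?_
      · rw [Prod.fst_sum]
        exact (Finset.univ_sum_single u2.1).symm
      · rw [Prod.snd_sum]
        simp [emb, hu22]
    rw [hsum]
    refine Submodule.sum_mem _ fun k _ => ?_
    obtain ⟨hsl, -, hG, -, hIA, hIB, -⟩ := hx.2.1 k
    obtain ⟨t1, t2, -, he'⟩ := hp2 k
    exact mem_span_handle hsl hG hIA hIB (he' (by rw [hu2D]; rfl)) t1 t2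
  have : u = u2 + w' + w := by simp [hu2, hu1]
  rw [this]
  exact V.add_mem (V.add_mem hu2V hw'V) hwV

/-- Near a generic point of the closure every representation is in the closure. -/
theorem nhds_generic (hn : 0 < n) (hJd : ∀ k, (J k).det = 1) (hJR : ∀ k, IntM R (J k))
    {x : St (g + 1) s n} (hx : Generic J x) (hz : Zd R J x) :
    ∀ᶠ y in 𝓝 x, PRep J y → Zd R J y := by
  have h := nhds_of_span (R := R) (J := J) (X := {y : St (g + 1) s n | PRep J y})
    (contDiff_relFun J).contDiffAt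
    (fun y hy => (prep_iff_relFun.1 hy).trans (prep_iff_relFun.1 hx.1).symm) hx.1 hx.1 hz
    (span_generic hn hJd hJR hx hz)
  exact h.mono fun y hy hp => hy ((prep_iff_relFun.1 hp).trans (prep_iff_relFun.1 hx.1).symm)

end P002Punct
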