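import Vale.Agent.P002Surf.Fibre

/-!
The fibre parametrisation at integral parameters with unit denominators gives integral pairs.
-/

namespace P002Punct

open P002Surf Matrix Polynomial

variable {n : ℕ} {R : Subring ℂ}

/-- All entries lie in the ring. -/
def InR (R : Subring ℂ) {m k : Type} (M : Matrix m k ℂ) : Prop := ∀ i j, M i j ∈ R

theorem inR_one {m : Type} [DecidableEq m] : InR R (1 : Matrix m m ℂ) := fun i j => by
  rw [Matrix.one_apply]
  split_ifs
  exacts [one_mem R, zero_mem R]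

theorem inR_diagonal {m : Type} [DecidableEq m] {d : m → ℂ} (h : ∀ i, d i ∈ R) :
    InR R (diagonal d) := fun i j => by
  rw [Matrix.diagonal_apply]
  split_ifs
  exacts [h i, zero_mem R]

theorem InR.mul {m k l : Type} [Fintype k] {A : Matrix m k ℂ} {B : Matrix k l ℂ} (hA : InR R A)
    (hB : InR R B) : InR R (A * B) := fun i j => by
  rw [Matrix.mul_apply]
  exact sum_mem fun a _ => mul_mem (hA i a) (hB a j)

theorem InR.det {m : Type} [Fintype m] [DecidableEq m] {A : Matrix m m ℂ} (hA : InR R A) :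
    A.det ∈ R := by
  rw [Matrix.det_apply']
  exact sum_mem fun σ _ => mul_mem (intCast_mem R _) (prod_mem fun i _ => hA _ i)

theorem InR.adjugate {m : Type} [Fintype m] [DecidableEq m] {A : Matrix m m ℂ} (hA : InR R A) :
    InR R A.adjugate := fun i j => by
  rw [Matrix.adjugate_apply]
  refine InR.det fun a b => ?_
  rw [Matrix.updateRow_apply]
  split_ifs
  · rw [Pi.single_apply]
    split_ifs
    exacts [one_mem R, zero_mem R]
  · exact hA a b

theorem InR.submatrix {m k m' k' : Type} {A : Matrix m k ℂ} (hA : InR R A) (r : m' → m)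
    (c : k' → k) : InR R (A.submatrix r c) := fun i j => hA (r i) (c j)

theorem InR.inv {A : Mat n} (hA : InR R A) (hd : A.det = 1) : InR R A⁻¹ := by
  rw [Matrix.inv_def, hd, Ring.inverse_one, one_smul]
  exact hA.adjugate

theorem inR_rMat {M : Mat n} (hM : InR R M) (h : ∀ j, minor M j = 1) : InR R (rMat M) := by
  intro c j
  rw [rMat, Matrix.of_apply]
  split_ifs with hcj
  · rw [h, div_one]
    exact (hM.submatrix _ _).adjugate _ _
  · exact zero_mem R

theorem inR_eig {M : Mat n} {d : Fin n → ℂ} (hM : InR R M) (hd : ∀ i, d i ∈ R)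
    (hdiff : ∀ i j, (d i - d j)⁻¹ ∈ R) : InR R (eig M d) := by
  classical
  intro i j
  rw [eig, Matrix.of_apply, lag]
  suffices key : ∀ S : Finset (Fin n),
      InR R (aeval M (∏ k ∈ S, C (d j - d k)⁻¹ * (X - C (d k)))) from key _ i j
  intro S
  induction S using Finset.induction_on with
  | empty => simpa using inR_one
  | insert a S ha ih =>
    rw [Finset.prod_insert ha, map_mul]
    refine InR.mul ?_ ih
    rw [map_mul, map_sub, aeval_C, aeval_C, aeval_X, Algebra.algebraMap_eq_smul_one,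
      Algebra.algebraMap_eq_smul_one, smul_mul_assoc, one_mul]
    intro r c
    rw [Matrix.smul_apply, Matrix.sub_apply, Matrix.smul_apply, smul_eq_mul, smul_eq_mul]
    exact mul_mem (hdiff j a) (sub_mem (hM r c) (mul_mem (hd a) (inR_one r c)))

theorem inR_gauge {C G : Mat n} (hC : InR R C) (hG : InR R G) (hGd : G.det = 1)
    (hs : ∀ (j : Fin n) h, (sub (mid C G j) j h)⁻¹ ∈ R) :
    ∀ k, InR R (gauge C G k) ∧ InR R (mid C G k) := by
  have hmid : ∀ k, InR R (gauge C G k) → InR R (mid C G k) := fun k hk =>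
    (hk.mul hC).mul (hk.inv (by rw [det_gauge, hGd]))
  intro k
  induction k with
  | zero => exact ⟨hG, hmid 0 hG⟩
  | succ k ih =>
    suffices h : InR R (gauge C G (k + 1)) from ⟨h, hmid _ h⟩
    rw [P002Surf.gauge]
    split_ifs with hk
    · refine InR.mul ?_ ih.1
      intro a b
      change (tv _ hk (tpar (mid C G k) _ hk)) a b ∈ R
      rw [tv, transvection, Matrix.add_apply, Matrix.single_apply]
      refine add_mem (inR_one a b) ?_
      split_ifs
      · rw [tpar, div_eq_mul_inv]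
        exact mul_mem (sub_mem (one_mem R) (ih.2.submatrix _ _).det)
          (hs ⟨k, (Nat.lt_succ_self k).trans hk⟩ hk)
      · exact zero_mem R
    · exact ih.1

theorem dd_mem {e : Fin n → ℂ} (h : ∀ i, e i ∈ R) (h' : ∀ i, (e i)⁻¹ ∈ R) (i : Fin n) :
    dd e i ∈ R ∧ (dd e i)⁻¹ ∈ R := by
  constructor
  · rw [dd, div_eq_mul_inv, ← Finset.prod_inv_distrib]
    exact mul_mem (pow_mem (h i) _) (prod_mem fun k _ => h' k)
  · rw [dd, inv_div, div_eq_mul_inv, ← inv_pow]
    exact mul_mem (prod_mem fun k _ => h k) (pow_mem (h' i) _)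

/-- Integrality of the point of the fibre. -/
theorem fib_inR {C G : Mat n} {e t : Fin n → ℂ} (hC : InR R C) (hCd : C.det = 1) (hG : InR R G)
    (hGd : G.det = 1) (hok : FibOk C G e t) (hs : ∀ (j : Fin n) h, (sub (mid C G j) j h)⁻¹ ∈ R)
    (he : ∀ i, e i ∈ R) (he' : ∀ i, (e i)⁻¹ ∈ R) (hdiff : ∀ i j, (dd e i - dd e j)⁻¹ ∈ R)
    (ht : ∀ i, t i ∈ R) (ht' : ∀ i, (t i)⁻¹ ∈ R) :
    InR R (fib C G e t).1 ∧ InR R (fib C G e t).2 := by
  obtain ⟨hg, hm⟩ := inR_gauge hC hG hGd hs n
  obtain ⟨hok', he0, hinj, -⟩ := hok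
  have hmin : ∀ j, minor (mid C G n) j = 1 := fun j => minor_mid hCd hok' n j j.isLt
  obtain ⟨hL, hL1, hU, hU1, -⟩ := lu_unit hmin
  have hr := inR_rMat hm hmin
  have hrd : (rMat (mid C G n)).det = 1 := by
    have e := det_one_of_lo hL hL1
    rwa [Matrix.det_mul, det_mid hCd hok'.1, one_mul] at e
  have hd : ∀ i, dd e i ∈ R := fun i => (dd_mem he he' i).1
  have hd' : ∀ i, dinv (dd e) i ∈ R := fun i => (dd_mem he he' i).2
  have hA : InR R (coA C G e) := (hm.mul hr).mul (inR_diagonal hd)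
  have hUf : InR R (uFac C G) := hr.inv hrd
  have hdiff' : ∀ i j, (dinv (dd e) i - dinv (dd e) j)⁻¹ ∈ R := fun i j => by
    rcases eq_or_ne i j with rfl | hij
    · rw [_root_.sub_self, _root_.inv_zero]; exact zero_mem R
    · have e1 : dinv (dd e) i - dinv (dd e) j = (dd e j - dd e i) / (dd e i * dd e j) := by
        have := dd_ne he0 i
        have := dd_ne he0 j
        simp only [dinv]
        field_simp
      rw [e1, inv_div, div_eq_mul_inv]
      exact mul_mem (mul_mem (hd i) (hd j)) (hdiff j i)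
  have hlo : Lo (coA C G e) := by
    exact hL.mul (blockTriangular_diagonal _)
  have hdiag : ∀ i, coA C G e i i = dd e i := fun i => by
    simp only [coA, lFac, Matrix.mul_diagonal, hL1, one_mul]
  obtain ⟨hWlo, hW1, -⟩ := eig_spec OrderDual.toDual.injective hlo hdiag hinj
    (by rw [lo_charpoly hlo]; simp only [hdiag])
  have hB : InR R (coB C G e t) :=
    ((inR_eig ((inR_diagonal hd').mul hUf) hd' hdiff').mul
      (inR_diagonal fun i => (dd_mem ht ht' i).1)).mul
      ((inR_eig hA hd hdiff).inv (det_one_of_lo hWlo hW1))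
  have hgi : InR R (gauge C G n)⁻¹ := hg.inv (by rw [det_gauge, hGd])
  exact ⟨(hgi.mul hA).mul hg, (hgi.mul hB).mul hg⟩

end P002Punct
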