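import Vale.Agent.P002Punct.SeedHandle
import Vale.Agent.P002Punct.Box

/-!
The integral matrices of the seeds: a lower unitriangular `L'` with last row one, `Φ` and `P`
with `P L' = L' Φ Δ`, and a choice of `L'` for which all lower parts in sight have no zero entry.
-/

namespace P002Punct

open P002Surf Matrix

variable {n : ℕ}

/-- Inverse prefix products. -/
noncomputable def mPre (κ : Fin n → ℂ) (k : ℕ) : ℂ :=
  (∏ a ∈ Finset.univ.filter (fun a : Fin n => (a : ℕ) < k), κ a)⁻¹

/-- Their increments. -/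
noncomputable def wPre (κ : Fin n → ℂ) (i : Fin n) : ℂ := mPre κ ((i : ℕ) + 1) - mPre κ i

/-- The lower factor of `1 + w 1ᵀ`. -/
noncomputable def phi (κ : Fin n → ℂ) : Mat n :=
  Matrix.of fun i b => if b < i then wPre κ i / mPre κ ((b : ℕ) + 1) else if i = b then 1 else 0

/-- The upper factor of `1 + w 1ᵀ`. -/
noncomputable def dlt (κ : Fin n → ℂ) : Mat n :=
  Matrix.of fun b c => if b < c then wPre κ b / mPre κ b else
    if b = c then mPre κ ((b : ℕ) + 1) / mPre κ b else 0

/-- The lower unitriangular matrix with last row one and the given other entries. -/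
def lP (u : Fin n × Fin n → ℂ) : Mat n :=
  Matrix.of fun i j => if j < i then (if (i : ℕ) + 1 = n then 1 else u (i, j))
    else if i = j then 1 else 0

/-- The gauge of the second handle. -/
noncomputable def pMat (κ : Fin n → ℂ) (L : Mat n) : Mat n :=
  Matrix.of fun i j => (if i = j then 1 else 0) +
    (if (j : ℕ) + 1 = n then ∑ k, L i k * wPre κ k else 0)

theorem loU_lP (u : Fin n × Fin n → ℂ) : LoU (lP u) := by
  refine ⟨fun i j h => ?_, fun i => by simp [lP]⟩
  have h' : i < j := OrderDual.toDual_lt_toDual.1 h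
  simp [lP, not_lt.2 h'.le, h'.ne]

theorem lP_last (u : Fin n × Fin n → ℂ) {i : Fin n} (hi : (i : ℕ) + 1 = n) (j : Fin n) :
    lP u i j = 1 := by
  rcases lt_trichotomy j i with h | rfl | h
  · simp [lP, h, hi]
  · simp [lP]
  · have : (i : ℕ) < j := h
    have := j.isLt
    omega

theorem loU_phi (κ : Fin n → ℂ) : LoU (phi κ) := by
  refine ⟨fun i j h => ?_, fun i => by simp [phi]⟩
  have h' : i < j := OrderDual.toDual_lt_toDual.1 h
  simp [phi, not_lt.2 h'.le, h'.ne]

theorem up_dlt (κ : Fin n → ℂ) : Up (dlt κ) := fun i j h => by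
  have h' : j < i := h
  simp [dlt, not_lt.2 h'.le, h'.ne']

theorem mPre_zero (κ : Fin n → ℂ) : mPre κ 0 = 1 := by simp [mPre]

theorem mPre_top {κ : Fin n → ℂ} (h : ∏ a, κ a = 1) {k : ℕ} (hk : n ≤ k) : mPre κ k = 1 := by
  rw [mPre, Finset.filter_true_of_mem fun a _ => lt_of_lt_of_le a.isLt hk, h, inv_one]

theorem mPre_ne {κ : Fin n → ℂ} (h : ∏ a, κ a = 1) (k : ℕ) : mPre κ k ≠ 0 :=
  inv_ne_zero (Finset.prod_ne_zero_iff.2 fun a _ ha => zero_ne_one
    ((Finset.prod_eq_zero (Finset.mem_univ a) ha).symm.trans h))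

theorem mPre_succ (κ : Fin n → ℂ) (i : Fin n) :
    mPre κ ((i : ℕ) + 1) = mPre κ i * (κ i)⁻¹ := by
  rw [mPre, mPre, ← mul_inv]
  congr 1
  rw [show Finset.univ.filter (fun a : Fin n => (a : ℕ) < (i : ℕ) + 1) =
    insert i (Finset.univ.filter fun a : Fin n => (a : ℕ) < i) by
      ext a; simp [Fin.ext_iff]; omega, Finset.prod_insert (by simp), mul_comm]

theorem sum_fin_lt (f : ℕ → ℂ) {k : ℕ} (hk : k ≤ n) :
    ∑ b : Fin n, (if (b : ℕ) < k then f b else 0) = ∑ b ∈ Finset.range k, f b := by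
  rw [Fin.sum_univ_eq_sum_range (fun b => if b < k then f b else 0), ← Finset.sum_filter]
  congr 1
  ext b
  simp only [Finset.mem_filter, Finset.mem_range]
  omega

theorem sum_wPre {κ : Fin n → ℂ} (h : ∏ a, κ a = 1) : ∑ i, wPre κ i = 0 := by
  have e := sum_fin_lt (n := n) (fun b => mPre κ (b + 1) - mPre κ b) le_rfl
  simp only [Fin.is_lt, if_true] at e
  rw [show ∑ i, wPre κ i = ∑ b : Fin n, (mPre κ ((b : ℕ) + 1) - mPre κ b) from rfl, e,
    Finset.sum_range_sub (mPre κ), mPre_zero, mPre_top h le_rfl, sub_self]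

theorem sum_phi {κ : Fin n → ℂ} (h : ∏ a, κ a = 1) (c : Fin n) :
    ∑ k, phi κ k c = 1 / mPre κ ((c : ℕ) + 1) := by
  have e : ∀ k : Fin n, phi κ k c = wPre κ k / mPre κ ((c : ℕ) + 1) -
      (if (k : ℕ) < (c : ℕ) + 1 then (mPre κ ((k : ℕ) + 1) - mPre κ k) / mPre κ ((c : ℕ) + 1) else 0) +
      (if k = c then 1 else 0) := fun k => by
    rw [phi, Matrix.of_apply]
    rcases lt_trichotomy c k with hk | rfl | hk
    · have hk' : (c : ℕ) < k := hk
      rw [if_pos hk, if_neg (by omega), if_neg hk.ne']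
      ring
    · rw [if_neg (lt_irrefl _), if_pos rfl, if_pos (Nat.lt_succ_self _)]
      simp [wPre]
    · have hk' : (k : ℕ) < c := hk
      rw [if_neg hk.not_gt, if_neg hk.ne, if_pos (by omega)]
      simp [wPre]
  simp only [e, Finset.sum_add_distrib, Finset.sum_sub_distrib, Finset.sum_ite_eq', Finset.mem_univ,
    if_true, ← Finset.sum_div, sum_wPre h]
  rw [sum_fin_lt (fun b => (mPre κ (b + 1) - mPre κ b) / mPre κ ((c : ℕ) + 1)) (Nat.succ_le_of_lt c.isLt),
    ← Finset.sum_div, Finset.sum_range_sub (mPre κ), mPre_zero]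
  have := mPre_ne h ((c : ℕ) + 1)
  field_simp
  ring

theorem phi_mul_dlt {κ : Fin n → ℂ} (h : ∏ a, κ a = 1) :
    phi κ * dlt κ = 1 + Matrix.of fun i _ => wPre κ i := by
  ext i c
  rw [Matrix.mul_apply, Matrix.add_apply, Matrix.of_apply]
  set k := min (i : ℕ) c with hk
  have hne := mPre_ne h
  have e0 : ∀ b : Fin n, phi κ i b * dlt κ b c =
      (if (b : ℕ) < k then wPre κ i * (1 / mPre κ b - 1 / mPre κ ((b : ℕ) + 1)) else 0) +
      (if (b : ℕ) = k then (if i = b then 1 else wPre κ i / mPre κ ((b : ℕ) + 1)) *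
        (if b = c then mPre κ ((b : ℕ) + 1) / mPre κ b else wPre κ b / mPre κ b) else 0) := by
    intro b
    rcases lt_trichotomy (b : ℕ) k with hb | hb | hb
    · have h1 : b < i := show (b : ℕ) < i by omega
      have h2 : b < c := show (b : ℕ) < c by omega
      rw [if_pos hb, if_neg hb.ne, add_zero, phi, dlt, Matrix.of_apply, Matrix.of_apply, if_pos h1,
        if_pos h2]
      have := hne ((b : ℕ) + 1)
      have := hne b
      simp only [wPre]
      field_simp
    · rw [if_neg hb.ge.not_gt, if_pos hb, zero_add, phi, dlt, Matrix.of_apply, Matrix.of_apply]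
      by_cases h1 : b < i <;> by_cases h2 : b < c
      · exfalso
        have : (b : ℕ) < i := h1
        have : (b : ℕ) < c := h2
        omega
      all_goals
        have hbi : ¬ b < i → i = b := fun h => Fin.ext (by
          have : ¬ (b : ℕ) < i := h
          omega)
        have hbc : ¬ b < c → b = c := fun h => Fin.ext (by
          have : ¬ (b : ℕ) < c := h
          omega)
      · rw [if_pos h1, if_neg h2, if_pos (hbc h2), if_neg h1.ne', if_pos (hbc h2)]
      · rw [if_neg h1, if_pos h2, if_pos (hbi h1), if_neg h2.ne, if_pos (hbi h1)]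
      · rw [if_neg h1, if_neg h2, if_pos (hbi h1), if_pos (hbc h2), if_pos (hbi h1),
          if_pos (hbc h2)]
    · rw [if_neg hb.not_gt, if_neg hb.ne', add_zero]
      by_cases h1 : b ≤ i
      · have h2 : ¬ b < c ∧ b ≠ c := by
          have : (b : ℕ) ≤ i := h1
          exact ⟨fun hh => by have : (b : ℕ) < c := hh; omega, fun hh => by subst hh; omega⟩
        simp [dlt, h2.1, h2.2]
      · have h2 : i < b := lt_of_not_ge h1
        simp [phi, h2.not_gt, h2.ne]
  simp only [e0, Finset.sum_add_distrib]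
  have hkn : k < n := lt_of_le_of_lt (min_le_left _ _) i.isLt
  rw [sum_fin_lt (fun b => wPre κ i * (1 / mPre κ b - 1 / mPre κ (b + 1))) hkn.le,
    ← Finset.mul_sum, Finset.sum_range_sub' (fun b => 1 / mPre κ b), mPre_zero,
    Finset.sum_eq_single ⟨k, hkn⟩ (fun b _ hb => if_neg fun e => hb (Fin.ext e)) (by simp),
    if_pos rfl]
  have := hne k
  have := hne (k + 1)
  rcases lt_trichotomy i c with hic | rfl | hic
  · have hik : (⟨k, hkn⟩ : Fin n) = i := Fin.ext (min_eq_left (le_of_lt hic))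
    rw [hik, if_pos rfl, if_neg hic.ne, one_apply_ne hic.ne]
    have e2 : k = (i : ℕ) := congrArg Fin.val hik
    simp only [e2] at *
    field_simp
    ring
  · have hik : (⟨k, hkn⟩ : Fin n) = i := Fin.ext (min_self _)
    rw [hik, if_pos rfl, if_pos rfl, one_apply_eq]
    have e2 : k = (i : ℕ) := congrArg Fin.val hik
    simp only [e2] at *
    simp only [wPre]
    field_simp
    ring
  · have hck : (⟨k, hkn⟩ : Fin n) = c := Fin.ext (min_eq_right (le_of_lt hic))
    rw [hck, if_neg hic.ne', if_pos rfl, one_apply_ne hic.ne']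
    have e2 : k = (c : ℕ) := congrArg Fin.val hck
    simp only [e2] at *
    field_simp
    ring

theorem pMat_mul {κ : Fin n → ℂ} (h : ∏ a, κ a = 1) (u : Fin n × Fin n → ℂ) :
    pMat κ (lP u) * lP u = lP u * phi κ * dlt κ ∧ UpU (pMat κ (lP u)) := by
  have hlast : ∀ i : Fin n, (i : ℕ) + 1 = n → ∑ k, lP u i k * wPre κ k = 0 := fun i hi => by
    simp only [lP_last u hi, one_mul]
    exact sum_wPre h
  refine ⟨?_, fun i j hij => ?_, fun i => ?_⟩
  · rw [Matrix.mul_assoc, phi_mul_dlt h, Matrix.mul_add, Matrix.mul_one]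
    ext i j
    have hn : 0 < n := Fin.pos i
    let o : Fin n := ⟨n - 1, by omega⟩
    rw [Matrix.mul_apply, Matrix.add_apply, Matrix.mul_apply]
    simp only [pMat, Matrix.of_apply, add_mul, Finset.sum_add_distrib, ite_mul, one_mul, zero_mul,
      Finset.sum_ite_eq, Finset.mem_univ, if_true]
    congr 1
    rw [Finset.sum_eq_single o (fun k _ hk => if_neg fun e => hk (Fin.ext (by simp [o]; omega)))
      (by simp), if_pos (by simp [o]; omega), lP_last u (by simp [o]; omega), mul_one]
  · have h' : j < i := hij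
    simp only [pMat, Matrix.of_apply, if_neg h'.ne', zero_add]
    refine if_neg fun e => ?_
    have : (j : ℕ) < i := h'
    omega
  · simp only [pMat, Matrix.of_apply, if_true]
    split_ifs with e
    · rw [hlast i e, add_zero]
    · rw [add_zero]

/-! ### entries below the diagonal -/

theorem inv_entry {L : Mat n} (hL : LoU L) {i b : Fin n} (hb : b < i)
    (h : ∀ k, b < k → k < i → L k b = 0) : L⁻¹ i b = - L i b := by
  have hd : L.det = 1 := det_one_of_lo hL.1 hL.2
  obtain ⟨h1, h2⟩ := tri_inv OrderDual.toDual.injective hL.1 (by rw [hd]; exact one_ne_zero)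
  have e := congrFun (congrFun (Matrix.nonsing_inv_mul L (by rw [hd]; exact isUnit_one)) i) b
  rw [Matrix.mul_apply, one_apply_ne hb.ne', Finset.sum_eq_add b i hb.ne, hL.2, h2, hL.2, inv_one,
    mul_one, one_mul] at e
  · linear_combination e
  · intro c _ hc
    rcases lt_or_gt_of_ne hc.1 with hcb | hcb
    · rw [lo_zero hL.1 hcb, mul_zero]
    · rcases lt_or_gt_of_ne hc.2 with hci | hci
      · rw [h c hcb hci, mul_zero]
      · rw [lo_zero h1 hci, zero_mul]
  all_goals simp

theorem lam_entry {L : Mat n} {d : Fin n → ℂ} (hL : LoU L) (hd : Function.Injective d)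
    (hd0 : ∀ i, d i ≠ 0) {i b : Fin n} (hb : b < i) (h : ∀ k, b < k → k < i → L k b = 0)
    (hne : L i b ≠ 0) : lam L d i b ≠ 0 := by
  obtain ⟨-, hW, hl, -, hAW, -⟩ := wMat_spec hL hd
  have e0 : lam L d * hA L d = diagonal d * lam L d := by
    calc lam L d * hA L d = lam L d * (hA L d * wMat L d) * lam L d := by
          rw [Matrix.mul_assoc, lam, Matrix.mul_nonsing_inv_cancel_right _ _
            (by rw [hW]; exact isUnit_one)]
      _ = _ := by rw [hAW, lam, Matrix.nonsing_inv_mul_cancel_left _ _ (by rw [hW]; exact isUnit_one)]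
  have e := congrFun (congrFun e0 i) b
  rw [hA, Matrix.mul_apply, Matrix.diagonal_mul, Finset.sum_eq_add b i hb.ne, Matrix.mul_diagonal,
    Matrix.mul_diagonal, hL.2, hl.2, one_mul, one_mul] at e
  · intro h0
    rw [h0, zero_mul, zero_add, mul_zero] at e
    exact mul_ne_zero hne (hd0 b) e
  · intro c _ hc
    rw [Matrix.mul_diagonal]
    rcases lt_or_gt_of_ne hc.1 with hcb | hcb
    · rw [lo_zero hL.1 hcb, zero_mul, mul_zero]
    · rcases lt_or_gt_of_ne hc.2 with hci | hci
      · rw [h c hcb hci, zero_mul, mul_zero]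
      · rw [lo_zero hl.1 hci, zero_mul]
  all_goals simp

/-- The four matrices whose lower parts have to be full. -/
noncomputable def lowFour (κ d : Fin n → ℂ) (u : Fin n × Fin n → ℂ) : Fin 4 → Mat n :=
  ![(lP u)⁻¹, lP u * phi κ, lam (lP u)⁻¹ d, lam (lP u * phi κ) d]

theorem loU_inv {L : Mat n} (hL : LoU L) : LoU L⁻¹ := by
  obtain ⟨h1, h2⟩ := tri_inv OrderDual.toDual.injective hL.1
    (by rw [det_one_of_lo hL.1 hL.2]; exact one_ne_zero)
  exact ⟨h1, fun i => by rw [h2, hL.2, inv_one]⟩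

theorem loU_mul {L M : Mat n} (hL : LoU L) (hM : LoU M) : LoU (L * M) :=
  ⟨hL.1.mul hM.1, fun i => by
    rw [tri_mul_diag OrderDual.toDual.injective hL.1 hM.1, hL.2, hM.2, one_mul]⟩

theorem ratM_lowFour {κ d : Fin n → ℂ} (hd : Function.Injective d)
    {u : ℂ → Fin n × Fin n → ℂ} (hu : ∀ v, RatOn fun s => u s v) (q : Fin 4) :
    RatM fun s => lowFour κ d (u s) q := by
  have hl : RatM fun s => lP (u s) := fun i j => by
    simp only [lP, Matrix.of_apply]
    split_ifs
    exacts [ratOn_const _, hu _, ratOn_const _, ratOn_const _]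
  have hne : ∀ s, (lP (u s)).det ≠ 0 := fun s => by
    rw [det_one_of_lo (loU_lP _).1 (loU_lP _).2]; exact one_ne_zero
  have h1 := hl.inv (hne 0) (hne 1)
  have h2 : RatM fun s => lP (u s) * phi κ := hl.mul (ratM_const _)
  have hlam : ∀ {L : ℂ → Mat n}, RatM L → (∀ s, LoU (L s)) → RatM fun s => lam (L s) d := by
    intro L hL hLU
    have hM : RatM fun s => L s * diagonal d := hL.mul (ratM_const (diagonal d))
    have he : RatM fun s => eig (L s * diagonal d) d :=
      ratM_eig (M := fun s => L s * diagonal d) (d := fun _ => d) hM (fun i => ratOn_const (d i)) hd hd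
    have hdet : ∀ s, (eig (L s * diagonal d) d).det ≠ 0 := fun s => by
      have := (wMat_spec (hLU s) hd).2.1
      rw [wMat] at this
      rw [this]; exact one_ne_zero
    simp only [lam, wMat]
    exact he.inv (hdet 0) (hdet 1)
  fin_cases q
  · exact h1
  · exact h2
  · exact hlam h1 fun s => loU_inv (loU_lP _)
  · exact hlam h2 fun s => loU_mul (loU_lP _) (loU_phi κ)

/-- An integral `L'` for which the four matrices are full. -/
theorem exists_lower {κ d : Fin n → ℂ} (hκ : ∏ a, κ a = 1) (hd : Function.Injective d)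
    (hd0 : ∀ i, d i ≠ 0) :
    ∃ u : Fin n × Fin n → ℂ, (∀ v, ∃ z : ℤ, u v = z) ∧ ∀ q, Full (lowFour κ d u q) := by
  classical
  let κ' := Fin 4 × {p : Fin n × Fin n // p.2 < p.1}
  let G : κ' → (Fin n × Fin n → ℂ) → ℂ := fun k u => lowFour κ d u k.1 k.2.1.1 k.2.1.2
  have hcurve : ∀ (x : Fin n × Fin n → ℂ) a c₀ c₁ v,
      RatOn fun s => Function.update x a ((1 - s) * c₀ + s * c₁) v := by
    intro x a c₀ c₁ v
    rcases eq_or_ne v a with rfl | hv
    · simp only [Function.update_self]
      exact (((ratOn_const 1).sub ratOn_id).mul (ratOn_const c₀)).add (ratOn_id.mul (ratOn_const c₁))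
    · simp only [Function.update_of_ne hv]; exact ratOn_const _
  have hG : ∀ k, RatBox (fun _ => Set.univ) (G k) := fun k x _ a c₀ _ c₁ _ =>
    ratM_lowFour hd (hcurve x a c₀ c₁) k.1 _ _
  have hwit : ∀ k, ∃ x, (∀ v, x v ∈ (fun _ : Fin n × Fin n => (Set.univ : Set ℂ)) v) ∧ G k x ≠ 0 := by
    rintro ⟨q, ⟨⟨i, b⟩, hb⟩⟩
    replace hb : b < i := hb
    let u₁ : Fin n × Fin n → ℂ := Pi.single (i, b) 1
    let Tgt : Mat n := 1 + (if (i : ℕ) + 1 = n then 0 else Matrix.single i b 1)
    let u₂ : Fin n × Fin n → ℂ := fun v => (Tgt * (phi κ)⁻¹) v.1 v.2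
    have hz1 : ∀ k, b < k → k < i → lP u₁ k b = 0 := fun k hk hki => by
      have : (k : ℕ) + 1 ≠ n := by have : (k : ℕ) < i := hki; have := i.isLt; omega
      simp [lP, hk, this, u₁, hki.ne]
    have hv1 : lP u₁ i b ≠ 0 := by simp [lP, hb, u₁]
    have hi1 : ∀ k, b < k → k ≤ i → (lP u₁)⁻¹ k b = - lP u₁ k b := fun k hk hki =>
      inv_entry (loU_lP _) hk fun k' h1 h2 => hz1 k' h1 (h2.trans_le hki)
    have hTgt : LoU Tgt := by
      refine ⟨blockTriangular_one.add ?_, fun j => ?_⟩
      · split_ifs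
        · exact blockTriangular_zero
        · exact blockTriangular_single (show OrderDual.toDual i ≤ OrderDual.toDual b from
            OrderDual.toDual_le_toDual.2 hb.le) 1
      · simp only [Tgt, Matrix.add_apply, one_apply_eq]
        split_ifs
        · simp
        · rw [Matrix.single_apply, if_neg fun h => hb.ne (h.2.trans h.1.symm), add_zero]
    have hX : ∀ k c : Fin n, (k : ℕ) + 1 ≠ n → lP u₂ k c = (Tgt * (phi κ)⁻¹) k c := fun k c hk => by
      have hU := loU_mul hTgt (loU_inv (loU_phi κ))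
      rcases lt_trichotomy c k with h | rfl | h
      · simp [lP, h, hk, u₂]
      · simp [lP, hU.2]
      · simp [lP, h.not_gt, h.ne, lo_zero hU.1 h]
    have hrow : ∀ k c : Fin n, (k : ℕ) + 1 ≠ n → (lP u₂ * phi κ) k c = Tgt k c := fun k c hk => by
      rw [Matrix.mul_apply]
      simp only [hX k _ hk]
      rw [← Matrix.mul_apply, Matrix.nonsing_inv_mul_cancel_right]
      rw [det_one_of_lo (loU_phi κ).1 (loU_phi κ).2]; exact isUnit_one
    have hlastrow : ∀ c : Fin n, (i : ℕ) + 1 = n → (lP u₂ * phi κ) i c ≠ 0 := fun c hi => by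
      rw [Matrix.mul_apply]
      simp only [lP_last u₂ hi, one_mul]
      rw [sum_phi hκ]
      exact one_div_ne_zero (mPre_ne hκ _)
    have hz2 : ∀ k, b < k → k < i → (lP u₂ * phi κ) k b = 0 := fun k hk hki => by
      have : (k : ℕ) + 1 ≠ n := by have : (k : ℕ) < i := hki; have := i.isLt; omega
      rw [hrow k b this]
      simp only [Tgt, Matrix.add_apply, one_apply_ne hk.ne', zero_add]
      split_ifs
      · rfl
      · rw [Matrix.single_apply, if_neg fun h => hki.ne h.1.symm]
    have hv2 : (lP u₂ * phi κ) i b ≠ 0 := by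
      by_cases hi : (i : ℕ) + 1 = n
      · exact hlastrow b hi
      · rw [hrow i b hi]
        simp [Tgt, hi, one_apply_ne hb.ne']
    fin_cases q
    · exact ⟨u₁, fun _ => trivial, by
        show (lP u₁)⁻¹ i b ≠ 0
        rw [hi1 i hb le_rfl]; exact neg_ne_zero.2 hv1⟩
    · exact ⟨u₂, fun _ => trivial, hv2⟩
    · refine ⟨u₁, fun _ => trivial, lam_entry (loU_inv (loU_lP _)) hd hd0 hb (fun k hk hki => ?_) ?_⟩
      · rw [hi1 k hk hki.le, hz1 k hk hki, neg_zero]
      · rw [hi1 i hb le_rfl]; exact neg_ne_zero.2 hv1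
    · exact ⟨u₂, fun _ => trivial, lam_entry (loU_mul (loU_lP _) (loU_phi κ)) hd hd0 hb hz2 hv2⟩
  obtain ⟨x, -, -, hx⟩ := box_generic hG (fun _ => isOpen_univ) hwit isOpen_univ
    (x₀ := 0) (Set.mem_univ _) (fun _ => Set.mem_univ _)
  by_contra hno
  push Not at hno
  have hprod : RatBox (fun _ => Set.univ) fun u => ∏ k, G k u := fun y hy a c₀ h₀ c₁ h₁ =>
    ratOn_prod _ fun k _ => hG k y hy a c₀ h₀ c₁ h₁
  refine Finset.prod_ne_zero_iff.2 (fun k _ => hx k) (box_zero hprod
    (S := fun _ => Set.range fun z : ℤ => (z : ℂ)) (fun _ => Set.subset_univ _)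
    (fun _ => Set.infinite_range_of_injective Int.cast_injective) (fun y hy => ?_)
    (fun _ => Set.mem_univ _))
  obtain ⟨q, hq⟩ := hno y fun v => by obtain ⟨z, hz⟩ := hy v; exact ⟨z, hz.symm⟩
  simp only [Full, not_forall, not_not] at hq
  obtain ⟨i, b, hb, h0⟩ := hq
  exact Finset.prod_eq_zero (Finset.mem_univ (q, ⟨(i, b), hb⟩)) h0

end P002Punct
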