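import Vale.Agent.P002Punct.Defs
import Vale.Agent.P002Surf.Fibre
import Vale.Agent.P002Surf.Param
import Vale.Agent.P002Surf.Flow

/-!
The handle `(L D, Z T W⁻¹)` of the seeds, `W` the eigenbasis of `L D`: commutator, general
position, and witnesses that it is generic in both orientations.
-/

namespace P002Punct

open P002Surf Matrix Filter Topology Polynomial

open scoped Matrix.Norms.Operator

variable {n : ℕ}

/-- Lower triangular with diagonal one. -/
def LoU (L : Mat n) : Prop := Lo L ∧ ∀ i, L i i = 1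

/-- Upper triangular with diagonal one. -/
def UpU (U : Mat n) : Prop := Up U ∧ ∀ i, U i i = 1

/-- No zero entry below the diagonal. -/
def Full (M : Mat n) : Prop := ∀ i j, j < i → M i j ≠ 0

/-- The eigenbasis of `L D`. -/
noncomputable def wMat (L : Mat n) (d : Fin n → ℂ) : Mat n := eig (L * diagonal d) d

/-- Its inverse. -/
noncomputable def lam (L : Mat n) (d : Fin n → ℂ) : Mat n := (wMat L d)⁻¹

/-- The first entry of a seed handle. -/
noncomputable def hA (L : Mat n) (d : Fin n → ℂ) : Mat n := L * diagonal d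

/-- The second entry of a seed handle. -/
noncomputable def hB (L : Mat n) (d : Fin n → ℂ) (Z : Mat n) (T : Fin n → ℂ) : Mat n :=
  Z * diagonal T * lam L d

theorem wMat_spec {L : Mat n} {d : Fin n → ℂ} (hL : LoU L) (hd : Function.Injective d) :
    LoU (wMat L d) ∧ (wMat L d).det = 1 ∧ LoU (lam L d) ∧ (lam L d).det = 1 ∧
      hA L d * wMat L d = wMat L d * diagonal d ∧
      hA L d = wMat L d * diagonal d * lam L d := by
  have hlo : Lo (L * diagonal d) := hL.1.mul (blockTriangular_diagonal _)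
  have hdiag : ∀ i, (L * diagonal d) i i = d i := fun i => by
    rw [Matrix.mul_diagonal, hL.2, one_mul]
  obtain ⟨h1, h2, h3⟩ := eig_spec OrderDual.toDual.injective hlo hdiag hd
    (by rw [lo_charpoly hlo]; simp only [hdiag])
  have hW : (wMat L d).det = 1 := det_one_of_lo h1 h2
  obtain ⟨h4, h5⟩ := tri_inv OrderDual.toDual.injective h1
    (by rw [show (eig (L * diagonal d) d).det = 1 from hW]; exact one_ne_zero)
  refine ⟨⟨h1, h2⟩, hW, ⟨h4, fun i => by show (eig (L * diagonal d) d)⁻¹ i i = 1; rw [h5, h2, inv_one]⟩,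
    det_one_of_lo h4 (fun i => by show (eig (L * diagonal d) d)⁻¹ i i = 1; rw [h5, h2, inv_one]), h3, ?_⟩
  rw [show wMat L d * diagonal d = hA L d * wMat L d from h3.symm, lam,
    Matrix.mul_nonsing_inv_cancel_right _ _ (by rw [hW]; exact isUnit_one)]

theorem det_hA {L : Mat n} {d : Fin n → ℂ} (hL : LoU L) (hd : ∏ i, d i = 1) :
    (hA L d).det = 1 := by
  rw [hA, Matrix.det_mul, det_one_of_lo hL.1 hL.2, det_diagonal, hd, one_mul]

theorem det_hB {L Z : Mat n} {d T : Fin n → ℂ} (hL : LoU L) (hd : Function.Injective d)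
    (hZ : UpU Z) (hT : ∏ i, T i = 1) : (hB L d Z T).det = 1 := by
  rw [hB, Matrix.det_mul, Matrix.det_mul, det_one_of_up hZ.1 hZ.2, det_diagonal, hT, one_mul,
    (wMat_spec hL hd).2.2.2.1, one_mul]

/-- The upper factor of the commutator. -/
noncomputable def uCom (d : Fin n → ℂ) (Z : Mat n) : Mat n :=
  diagonal d * Z * diagonal (dinv d) * Z⁻¹

theorem cm_handle {L Z : Mat n} {d T : Fin n → ℂ} (hL : LoU L) (hd : Function.Injective d)
    (hd1 : ∏ i, d i = 1) (hZ : UpU Z) (hT : ∏ i, T i = 1) :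
    cm (hA L d, hB L d Z T) = L * uCom d Z := by
  obtain ⟨-, hW, -, -, hAW, -⟩ := wMat_spec hL hd
  refine cm_eq_of (det_hA hL hd1) (det_hB hL hd hZ hT) ?_
  have hWu : IsUnit (wMat L d).det := by rw [hW]; exact isUnit_one
  have h1 : lam L d * hA L d = diagonal d * lam L d := by
    calc lam L d * hA L d = lam L d * (hA L d * wMat L d) * lam L d := by
          rw [Matrix.mul_assoc, lam, Matrix.mul_nonsing_inv_cancel_right _ _ hWu]
      _ = _ := by rw [hAW, lam, Matrix.nonsing_inv_mul_cancel_left _ _ hWu]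
  have hd0 : ∀ i, d i ≠ 0 := fun i h => by
    rw [Finset.prod_eq_zero (Finset.mem_univ i) h] at hd1; exact zero_ne_one hd1
  have hZu : IsUnit Z.det := by rw [det_one_of_up hZ.1 hZ.2]; exact isUnit_one
  calc L * uCom d Z * hB L d Z T * hA L d
      = L * diagonal d * Z * (diagonal (dinv d) * diagonal T) * (lam L d * hA L d) := by
        simp only [uCom, hB, Matrix.mul_assoc, Matrix.nonsing_inv_mul_cancel_left _ _ hZu]
    _ = L * diagonal d * Z * (diagonal (dinv d) * diagonal T * diagonal d) * lam L d := by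
        rw [h1]; simp only [Matrix.mul_assoc]
    _ = hA L d * hB L d Z T := by
        rw [diagonal_mul_diagonal, diagonal_mul_diagonal,
          show (fun i => dinv d i * T i * d i) = T from funext fun i => by
            simp only [dinv]; field_simp [hd0 i]]
        simp only [hA, hB, Matrix.mul_assoc]

/-- The upper factor from the eigenbasis. -/
theorem uCom_eig {U : Mat n} {d : Fin n → ℂ} (hU : UpU U) (hd : Function.Injective d)
    (hd0 : ∀ i, d i ≠ 0) :
    UpU (eig (diagonal (dinv d) * U) (dinv d)) ∧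
      uCom d (eig (diagonal (dinv d) * U) (dinv d)) = U := by
  have hup : Up (diagonal (dinv d) * U) := (blockTriangular_diagonal _).mul hU.1
  have hdiag : ∀ i, (diagonal (dinv d) * U) i i = dinv d i := fun i => by
    rw [Matrix.diagonal_mul, hU.2, mul_one]
  obtain ⟨h1, h2, h3⟩ := eig_spec Function.injective_id hup hdiag (dinv_injective hd)
    (by rw [charpoly_of_isUpperTriangular _ hup]; simp only [hdiag])
  refine ⟨⟨h1, h2⟩, ?_⟩
  set Z := eig (diagonal (dinv d) * U) (dinv d)
  have hZu : IsUnit Z.det := by rw [det_one_of_up h1 h2]; exact isUnit_one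
  rw [uCom, Matrix.mul_assoc (diagonal d) Z, ← h3]
  simp only [Matrix.mul_assoc]
  rw [Matrix.mul_nonsing_inv _ hZu, Matrix.mul_one, ← Matrix.mul_assoc, diagonal_mul_diagonal,
    show (fun i => d i * dinv d i) = fun _ => (1 : ℂ) from funext fun i => mul_inv_cancel₀ (hd0 i),
    diagonal_one, Matrix.one_mul]

/-- The second entry in the eigenbasis of the first. -/
theorem conj_hB {L Z : Mat n} {d T : Fin n → ℂ} (hL : LoU L) (hd : Function.Injective d) :
    (wMat L d)⁻¹ * hB L d Z T * wMat L d = lam L d * Z * diagonal T := by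
  have hWu : IsUnit (wMat L d).det := by rw [(wMat_spec hL hd).2.1]; exact isUnit_one
  simp only [hB, lam, Matrix.mul_assoc, Matrix.nonsing_inv_mul _ hWu, Matrix.mul_one]

theorem diagBy_hA {L : Mat n} {d : Fin n → ℂ} (hL : LoU L) (hd : Function.Injective d) :
    DiagBy (hA L d) (wMat L d) d := by
  obtain ⟨-, hW, -, -, -, h⟩ := wMat_spec hL hd
  exact ⟨by rw [hW]; exact one_ne_zero, hd, h⟩

theorem good_handle {L Z : Mat n} {d T : Fin n → ℂ} (hL : LoU L) (hd : Function.Injective d)
    (hΛ : Full (lam L d)) (hZ : UpU Z) (hT : ∏ i, T i = 1) :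
    Good (hA L d, hB L d Z T) := by
  refine ⟨wMat L d, d, diagBy_hA hL hd, ?_⟩
  obtain ⟨-, hW, hl, -⟩ := wMat_spec hL hd
  have e : (wMat L d).adjugate * hB L d Z T * wMat L d = lam L d * (Z * diagonal T) := by
    have : (wMat L d).adjugate = (wMat L d)⁻¹ := by
      rw [Matrix.inv_def, hW, Ring.inverse_one, one_smul]
    rw [this, conj_hB hL hd, Matrix.mul_assoc]
  show Nondeg ((wMat L d).adjugate * hB L d Z T * wMat L d)
  have hup : Up (Z * diagonal T) := hZ.1.mul (blockTriangular_diagonal _)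
  have hT0 : ∀ i, T i ≠ 0 := fun i h => by
    rw [Finset.prod_eq_zero (Finset.mem_univ i) h] at hT; exact zero_ne_one hT
  have hp : ∀ j, (∏ a, (Z * diagonal T) (emb j a) (emb j a)) ≠ 0 := fun j =>
    Finset.prod_ne_zero_iff.2 fun a _ => by
      rw [Matrix.mul_diagonal, hZ.2, one_mul]; exact hT0 _
  rw [e]
  refine ⟨fun j => by rw [minor_lu hl.1 hl.2 hup]; exact hp j, fun j h => ?_⟩
  rw [sub_lu hl.1 hl.2 hup]
  exact mul_ne_zero (hΛ _ _ (lt_nx j h)) (hp j)

theorem Triple.mul_diag {A : Mat n} (h : Triple A) {T : Fin n → ℂ} (hT : ∀ i, T i ≠ 0) :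
    Triple (A * diagonal T) := by
  refine ⟨fun i j => by rw [Matrix.mul_diagonal]; exact mul_ne_zero (h.1 i j) (hT j),
    fun i j k hij hjk hik he => h.2 i j k hij hjk hik ?_⟩
  simp only [Matrix.mul_diagonal] at he
  exact mul_left_cancel₀ (mul_ne_zero (mul_ne_zero (hT i) (hT j)) (hT k))
    (by linear_combination he)

theorem g0_swap {L Z : Mat n} {d T : Fin n → ℂ} (hL : LoU L) (hd : Function.Injective d)
    (h : Triple (lam L d * Z)) (hT : ∀ i, T i ≠ 0) :
    G0 ((hA L d, hB L d Z T) : Pair n).swap := by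
  refine ⟨wMat L d, d, diagBy_hA hL hd, ?_⟩
  show Triple ((wMat L d)⁻¹ * hB L d Z T * wMat L d)
  rw [conj_hB hL hd]
  exact Triple.mul_diag h hT

/-! ### witnesses -/

theorem cycle_fin {P : Fin n → Fin n → Fin n → Prop} (hrot : ∀ i j k, P i j k → P j k i)
    (hrev : ∀ i j k, P i j k → P k j i) (h : ∀ i j k, i < j → j < k → P i j k) :
    ∀ i j k, i ≠ j → j ≠ k → i ≠ k → P i j k := by
  intro i j k hij hjk hik
  rcases lt_or_gt_of_ne hij with h1 | h1 <;> rcases lt_or_gt_of_ne hjk with h2 | h2 <;>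
    rcases lt_or_gt_of_ne hik with h3 | h3
  · exact h i j k h1 h2
  · exact absurd (h1.trans h2) (lt_asymm h3)
  · exact hrot _ _ _ (hrot _ _ _ (hrev _ _ _ (h i k j h3 h2)))
  · exact hrot _ _ _ (h k i j h3 h1)
  · exact hrot _ _ _ (hrev _ _ _ (h j i k h1 h3))
  · exact hrot _ _ _ (hrot _ _ _ (h j k i h2 h3))
  · exact absurd (h2.trans h1) (lt_asymm h3)
  · exact hrev _ _ _ (h k j i h2 h1)

/-- Perturbing a full lower triangular matrix in generic upper directions gives a `Triple`. -/
theorem triple_near {M : Mat n} {G : ℂ → Mat n} (hM : Lo M) (hF : Full M) (hM0 : ∀ i, M i i ≠ 0)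
    (hG : ContinuousAt G 0) (hG0 : ∀ i j, i < j → G 0 i j ≠ 0) :
    ∀ᶠ δ in 𝓝[≠] (0 : ℂ), Triple (M + δ • G δ) := by
  have hent : ∀ i j, ContinuousAt (fun δ => G δ i j) 0 := fun i j =>
    ((continuous_apply_apply i j).continuousAt (x := G 0)).comp hG
  have hF' : ∀ i j, ContinuousAt (fun δ => (M + δ • G δ) i j) 0 := fun i j => by
    simp only [Matrix.add_apply, Matrix.smul_apply, smul_eq_mul]
    exact continuousAt_const.add (continuousAt_id.mul (hent i j))
  have h1 : ∀ᶠ δ in 𝓝 (0 : ℂ), ∀ i j, (i < j → G δ i j ≠ 0) ∧ (j ≤ i → (M + δ • G δ) i j ≠ 0) := by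
    refine eventually_all.2 fun i => eventually_all.2 fun j => ?_
    rcases lt_trichotomy i j with h | rfl | h
    · filter_upwards [(hent i j).eventually_ne (hG0 i j h)] with δ hδ
      exact ⟨fun _ => hδ, fun h' => absurd h (not_lt.2 h')⟩
    · filter_upwards [(hF' i i).eventually_ne (by simpa using hM0 i)] with δ hδ
      exact ⟨fun h => absurd h (lt_irrefl _), fun _ => hδ⟩
    · filter_upwards [(hF' i j).eventually_ne (by simpa using hF i j h)] with δ hδ
      exact ⟨fun h' => absurd h (lt_asymm h'), fun _ => hδ⟩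
  have h2 : ∀ᶠ δ in 𝓝 (0 : ℂ), ∀ i j k, i < j → j < k →
      δ * (G δ i j * G δ j k * (M + δ • G δ) k i) ≠
        G δ i k * (M + δ • G δ) k j * (M + δ • G δ) j i := by
    refine eventually_all.2 fun i => eventually_all.2 fun j => eventually_all.2 fun k => ?_
    by_cases h : i < j ∧ j < k
    · have hc : ContinuousAt (fun δ => δ * (G δ i j * G δ j k * (M + δ • G δ) k i) -
          G δ i k * (M + δ • G δ) k j * (M + δ • G δ) j i) 0 :=
        (continuousAt_id.mul (((hent i j).mul (hent j k)).mul (hF' k i))).sub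
          (((hent i k).mul (hF' k j)).mul (hF' j i))
      have hne : (0 : ℂ) * (G 0 i j * G 0 j k * (M + (0 : ℂ) • G 0) k i) -
          G 0 i k * (M + (0 : ℂ) • G 0) k j * (M + (0 : ℂ) • G 0) j i ≠ 0 := by
        simp [hG0 i k (h.1.trans h.2), hF k j h.2, hF j i h.1]
      filter_upwards [hc.eventually_ne hne] with δ hδ _ _
      exact sub_ne_zero.1 hδ
    · exact Eventually.of_forall fun δ a b => absurd ⟨a, b⟩ h
  filter_upwards [h1.filter_mono nhdsWithin_le_nhds, h2.filter_mono nhdsWithin_le_nhds,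
    self_mem_nhdsWithin] with δ a b hδ
  have hδ0 : δ ≠ 0 := hδ
  have hup : ∀ i j, i < j → (M + δ • G δ) i j = δ * G δ i j := fun i j h => by
    simp [lo_zero hM h]
  refine ⟨fun i j => ?_, ?_⟩
  · rcases lt_or_ge i j with h | h
    · rw [hup i j h]; exact mul_ne_zero hδ0 ((a i j).1 h)
    · exact (a i j).2 h
  · set F := M + δ • G δ
    exact cycle_fin (P := fun i j k => F i j * F j k * F k i ≠ F i k * F k j * F j i)
      (fun i j k h he => h (by linear_combination he))
      (fun i j k h he => h (by linear_combination -he))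
      (fun i j k h h' he => b i j k h h' (mul_left_cancel₀ hδ0 (by
        rw [hup i j h, hup j k h', hup i k (h.trans h')] at he
        linear_combination he)))

/-- The strictly upper matrix with entries `s ^ (n + i - j)`. -/
def upPow (s : ℂ) : Mat n := Matrix.of fun i j => if i < j then s ^ (n + i - j : ℕ) else 0

theorem exists_upPow {M : Mat n} {d : Fin n → ℂ} (hM : Lo M) (hMd : ∀ i, M i i = d i)
    (hd : Function.Injective d) {Λ : Mat n} (hΛ : LoU Λ) :
    ∃ s : ℂ, ∀ i j, i < j →
      (upPow (n := n) s * M - M * upPow (n := n) s) i j ≠ 0 ∧ (Λ * upPow (n := n) s) i j ≠ 0 := by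
  let P : Fin n → Fin n → ℂ[X] := fun i j =>
    ∑ k, (if i < k then X ^ (n + i - k : ℕ) else 0) * C (M k j) -
      ∑ k, C (M i k) * (if k < j then X ^ (n + k - j : ℕ) else 0)
  let Q : Fin n → Fin n → ℂ[X] := fun i j =>
    ∑ k, C (Λ i k) * (if k < j then X ^ (n + k - j : ℕ) else 0)
  have hP : ∀ i j, i < j → (P i j).coeff (n + i - j) = M j j - M i i := by
    intro i j hij
    simp only [P, coeff_sub, finsetSum_coeff]
    rw [Finset.sum_eq_single j ?_ (by simp), Finset.sum_eq_single i ?_ (by simp)]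
    · simp [hij]
    · intro k _ hk
      rcases lt_or_gt_of_ne hk with h | h
      · have h' : (k : ℕ) < i := h
        have hk' := j.isLt
        rw [coeff_C_mul, if_pos (h.trans hij), coeff_X_pow, if_neg (by omega), mul_zero]
      · rw [lo_zero hM h]; simp
    · intro k _ hk
      rcases lt_or_gt_of_ne hk with h | h
      · rw [lo_zero hM h]; simp
      · have h' : (j : ℕ) < k := h
        have hk' := k.isLt
        rw [if_pos (hij.trans h), coeff_mul_C, coeff_X_pow, if_neg (by omega), zero_mul]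
  have hQ : ∀ i j, i < j → (Q i j).coeff (n + i - j) = 1 := by
    intro i j hij
    simp only [Q, finsetSum_coeff]
    rw [Finset.sum_eq_single i ?_ (by simp)]
    · simp [hij, hΛ.2]
    · intro k _ hk
      rcases lt_or_gt_of_ne hk with h | h
      · have h' : (k : ℕ) < i := h
        have hk' := j.isLt
        rw [coeff_C_mul, if_pos (h.trans hij), coeff_X_pow, if_neg (by omega), mul_zero]
      · rw [lo_zero hΛ.1 h]; simp
  let S : Finset (Fin n × Fin n) := Finset.univ.filter fun p => p.1 < p.2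
  have hne : (∏ p ∈ S, P p.1 p.2 * Q p.1 p.2) ≠ 0 := by
    refine Finset.prod_ne_zero_iff.2 fun p hp => ?_
    have hp' : p.1 < p.2 := (Finset.mem_filter.1 hp).2
    refine mul_ne_zero (fun h => ?_) (fun h => ?_)
    · have := hP _ _ hp'
      rw [h, coeff_zero, hMd, hMd, eq_comm, sub_eq_zero] at this
      exact hd.ne hp'.ne' this
    · have := hQ _ _ hp'
      rw [h, coeff_zero] at this
      exact zero_ne_one this
  obtain ⟨s, hs⟩ := exists_eval_ne_zero_of_natDegree_lt_card _ hne
    (by simpa using Cardinal.natCast_lt_aleph0.trans_le (Cardinal.aleph0_le_mk ℂ))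
  rw [eval_prod, Finset.prod_ne_zero_iff] at hs
  refine ⟨s, fun i j hij => ?_⟩
  have := hs (i, j) (Finset.mem_filter.2 ⟨Finset.mem_univ _, hij⟩)
  rw [eval_mul, mul_ne_zero_iff] at this
  constructor
  · refine fun h0 => this.1 ?_
    rw [← h0]
    simp only [P, upPow, Matrix.sub_apply, Matrix.mul_apply, Matrix.of_apply, eval_sub,
      eval_finsetSum, eval_mul, apply_ite (Polynomial.eval s), eval_pow, eval_X, eval_C, eval_zero]
  · refine fun h0 => this.2 ?_
    rw [← h0]
    simp [Q, upPow, Matrix.mul_apply, eval_finsetSum, apply_ite (Polynomial.eval s)]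

theorem upU_one_add {δ s : ℂ} : UpU ((1 : Mat n) + δ • upPow s) :=
  ⟨blockTriangular_one.add fun i j h => by simp [upPow, not_lt.2 (le_of_lt (show j < i from h))],
    fun i => by simp [upPow]⟩

theorem exists_triple_swap {Λ : Mat n} (hΛ : LoU Λ) (hF : Full Λ) :
    ∃ Z, UpU Z ∧ Triple (Λ * Z) := by
  obtain ⟨s, hs⟩ := exists_upPow (M := diagonal fun i : Fin n => ((i : ℕ) : ℂ))
    (d := fun i => ((i : ℕ) : ℂ)) (blockTriangular_diagonal _) (fun i => by simp)
    (fun a b h => Fin.ext (Nat.cast_injective h)) hΛ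
  obtain ⟨δ, hδ⟩ := (triple_near hΛ.1 hF (fun i => by rw [hΛ.2]; exact one_ne_zero) (G := fun _ => Λ * upPow s) continuousAt_const
    (fun i j h => (hs i j h).2)).exists
  refine ⟨1 + δ • upPow s, upU_one_add, ?_⟩
  rwa [Matrix.mul_add, Matrix.mul_one, Matrix.mul_smul]

theorem continuousAt_minv {P : Mat n} (hP : P.det ≠ 0) :
    ContinuousAt (fun M : Mat n => M⁻¹) P := by
  have h1 : ContinuousAt (fun M : Mat n => (M.det)⁻¹ • M.adjugate) P :=
    ContinuousAt.fun_smul (continuous_id.matrix_det.continuousAt.inv₀ hP)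
      continuous_id.matrix_adjugate.continuousAt
  convert h1 using 1
  funext M
  rw [Matrix.inv_def, Ring.inverse_eq_inv']

theorem continuous_minor (j : Fin n) : Continuous fun M : Mat n => minor M j :=
  Continuous.matrix_det (continuous_id.matrix_submatrix _ _)

/-- The eigenbasis of `l diag(1, x, x², ..)` tends to `l`. -/
theorem eig_tendsto {l : Mat n} (hl : LoU l) :
    ∀ᶠ x in 𝓝[≠] (0 : ℂ), Function.Injective (fun i : Fin n => x ^ (i : ℕ)) ∧
      LoU (wMat l fun i : Fin n => x ^ (i : ℕ)) := by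
  have h : ∀ᶠ x in 𝓝[≠] (0 : ℂ), ‖x‖ < 1 ∧ x ≠ 0 := by
    filter_upwards [(eventually_lt_nhds one_pos).filter_mono le_rfl |>
      (fun h => (continuous_norm.tendsto' (0 : ℂ) 0 norm_zero).eventually h) |>.filter_mono
        nhdsWithin_le_nhds, self_mem_nhdsWithin] with x hx hx0
    exact ⟨hx, hx0⟩
  filter_upwards [h] with x ⟨hx, hx0⟩
  have hinj : Function.Injective (fun i : Fin n => x ^ (i : ℕ)) := fun a b hab => by
    have := congrArg (‖·‖) hab
    simp only [norm_pow] at this
    exact Fin.ext ((pow_right_strictAnti₀ (norm_pos_iff.2 hx0) hx).injective this)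
  exact ⟨hinj, (wMat_spec hl hinj).1⟩

theorem tendsto_wMat {l : Mat n} (hl : LoU l) :
    Tendsto (fun x : ℂ => wMat l fun i : Fin n => x ^ (i : ℕ)) (𝓝[≠] 0) (𝓝 l) := by
  set R := fun x : ℂ => wMat l fun i : Fin n => x ^ (i : ℕ) with hR
  have hev := eig_tendsto hl
  suffices key : ∀ i j, Tendsto (fun x => R x i j) (𝓝[≠] (0 : ℂ)) (𝓝 (l i j)) from
    tendsto_pi_nhds.2 fun i => tendsto_pi_nhds.2 fun j => key i j
  intro i
  induction i using WellFoundedLT.induction with
  | _ i ih =>
    intro j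
    rcases lt_trichotomy i j with h | rfl | h
    · rw [lo_zero hl.1 h]
      exact tendsto_const_nhds.congr' (by
        filter_upwards [hev] with x hx
        exact (lo_zero hx.2.1 h).symm)
    · rw [hl.2]
      exact tendsto_const_nhds.congr' (by
        filter_upwards [hev] with x hx
        exact (hx.2.2 i).symm)
    have hd : 0 < (i : ℕ) - j := by have : (j : ℕ) < i := h; omega
    have hpow : ∀ m : ℕ, Tendsto (fun x : ℂ => x ^ m) (𝓝[≠] 0) (𝓝 (0 ^ m)) := fun m =>
      ((continuous_pow m).tendsto 0).mono_left nhdsWithin_le_nhds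
    have hsum : Tendsto (fun x => ∑ k ∈ Finset.Ico j i, l i k * x ^ ((k : ℕ) - j) * R x k j)
        (𝓝[≠] 0) (𝓝 (l i j)) := by
      have : l i j = ∑ k ∈ Finset.Ico j i, l i k * 0 ^ ((k : ℕ) - j) * l k j := by
        rw [Finset.sum_eq_single j]
        · simp [hl.2]
        · intro k hk hkj
          have h1 : (j : ℕ) < k := lt_of_le_of_ne (Finset.mem_Ico.1 hk).1 (fun e => hkj (Fin.ext e.symm))
          rw [zero_pow (by omega)]; ring
        · simp [h]
      rw [this]
      exact tendsto_finsetSum _ fun k hk =>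
        ((tendsto_const_nhds.mul (hpow _)).mul (ih k (Finset.mem_Ico.1 hk).2 j))
    have hden : Tendsto (fun x : ℂ => 1 - x ^ ((i : ℕ) - j)) (𝓝[≠] 0) (𝓝 1) := by
      simpa [zero_pow hd.ne'] using tendsto_const_nhds.sub (hpow ((i : ℕ) - j))
    have := hsum.div hden one_ne_zero
    rw [div_one] at this
    refine this.congr' ?_
    filter_upwards [hev, self_mem_nhdsWithin, hden.eventually_ne one_ne_zero] with x hx hx0 hne
    have e := congrFun (congrFun (wMat_spec hl hx.1).2.2.2.2.1 i) j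
    rw [hA, Matrix.mul_diagonal, Matrix.mul_assoc, Matrix.mul_apply] at e
    simp only [Matrix.diagonal_mul] at e
    rw [← Finset.sum_subset (Finset.subset_univ (Finset.Icc j i)) fun k _ hk => ?_] at e
    · rw [← Finset.Ico_insert_right (le_of_lt h), Finset.sum_insert Finset.right_notMem_Ico,
        hl.2, one_mul] at e
      change x ^ (i : ℕ) * R x i j +
        ∑ k ∈ Finset.Ico j i, l i k * (x ^ (k : ℕ) * R x k j) = R x i j * x ^ (j : ℕ) at e
      rw [Pi.div_apply, div_eq_iff hne]
      refine mul_left_cancel₀ (pow_ne_zero (j : ℕ) (show x ≠ 0 from hx0)) ?_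
      have e1 : ∀ k : Fin n, j ≤ k → x ^ (k : ℕ) = x ^ (j : ℕ) * x ^ ((k : ℕ) - j) := fun k hk => by
        rw [← pow_add, Nat.add_sub_cancel' hk]
      rw [Finset.sum_congr rfl fun k hk => by rw [e1 k (Finset.mem_Ico.1 hk).1],
        e1 i (le_of_lt h)] at e
      rw [Finset.mul_sum]
      have e2 : ∀ k, x ^ (j : ℕ) * (l i k * x ^ ((k : ℕ) - j) * R x k j) =
          l i k * (x ^ (j : ℕ) * x ^ ((k : ℕ) - j) * R x k j) := fun k => by ring
      simp only [e2]
      linear_combination e
    · rcases lt_or_ge k j with hkj | hkj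
      · rw [lo_zero hx.2.1 hkj, mul_zero, mul_zero]
      · rw [lo_zero hl.1 (lt_of_not_ge fun hki => hk (Finset.mem_Icc.2 ⟨hkj, hki⟩)), zero_mul]

/-- Genericity of the handle in the orientation that uses the eigenbasis of the second entry. -/
theorem exists_g0 {L : Mat n} {d : Fin n → ℂ} (hn : 0 < n) (hL : LoU L) (hFL : Full L)
    (hd : Function.Injective d) (hd0 : ∀ i, d i ≠ 0) :
    ∃ (Z : Mat n) (T : Fin n → ℂ) (P : Mat n) (μ : Fin n → ℂ), UpU Z ∧ (∏ i, T i = 1) ∧
      DiagBy (hB L d Z T) P μ ∧ Triple (P⁻¹ * hA L d * P) ∧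
      ∀ j, minor (P⁻¹ * hA L d * P) j ≠ 0 := by
  obtain ⟨⟨hWlo, hW1⟩, hWd, hl, -, -, hAeq⟩ := wMat_spec hL hd
  set W := wMat L d with hW
  set M := hA L d with hMdef
  have hMlo : Lo M := hL.1.mul (blockTriangular_diagonal _)
  have hMd : ∀ i, M i i = d i := fun i => by
    rw [hMdef, hA, Matrix.mul_diagonal, hL.2, one_mul]
  have hMF : Full M := fun i j h => by
    rw [hMdef, hA, Matrix.mul_diagonal]; exact mul_ne_zero (hFL i j h) (hd0 j)
  obtain ⟨s, hs⟩ := exists_upPow hMlo hMd hd hl
  set E : Mat n := upPow s with hE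
  let u : ℂ → Mat n := fun δ => 1 + δ • E
  have hu : ∀ δ, UpU (u δ) := fun δ => upU_one_add
  have hud : ∀ δ, IsUnit (u δ).det := fun δ => by
    rw [det_one_of_up (hu δ).1 (hu δ).2]; exact isUnit_one
  have hconj : ∀ δ, u δ * M * (u δ)⁻¹ = M + δ • ((E * M - M * E) * (u δ)⁻¹) := fun δ => by
    have e : u δ * M = M * u δ + δ • (E * M - M * E) := by
      simp only [u, Matrix.add_mul, Matrix.mul_add, Matrix.one_mul, Matrix.mul_one, Matrix.smul_mul,
        Matrix.mul_smul, smul_sub]
      abel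
    rw [e, Matrix.add_mul, Matrix.mul_nonsing_inv_cancel_right _ _ (hud δ), Matrix.smul_mul]
  have hucont : Continuous u := continuous_const.add (continuous_id.smul continuous_const)
  have huinv : ContinuousAt (fun δ => (u δ)⁻¹) 0 :=
    ContinuousAt.comp' (continuousAt_minv (by simp [u])) hucont.continuousAt
  have hT3 := triple_near hMlo hMF (fun i => by rw [hMd]; exact hd0 i) (G := fun δ => (E * M - M * E) * (u δ)⁻¹)
    (continuousAt_const.mul huinv) (fun i j h => by simpa [u] using (hs i j h).1)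
  have hm1 : ∀ᶠ δ in 𝓝 (0 : ℂ), ∀ j, minor (u δ * M * (u δ)⁻¹) j ≠ 0 := by
    refine eventually_all.2 fun j => ((continuous_minor j).continuousAt.comp'
      ((hucont.continuousAt.mul continuousAt_const).mul huinv)).eventually_ne ?_
    simp only [Pi.mul_apply, u, zero_smul, add_zero, Matrix.one_mul, inv_one, Matrix.mul_one]
    rw [minor, det_sub_lo hMlo]
    exact Finset.prod_ne_zero_iff.2 fun a _ => by rw [hMd]; exact hd0 _
  have hm2 : ∀ᶠ δ in 𝓝 (0 : ℂ), ∀ j, minor (u δ * W) j ≠ 0 := by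
    refine eventually_all.2 fun j => ((continuous_minor j).continuousAt.comp'
      (hucont.continuousAt.mul continuousAt_const)).eventually_ne ?_
    simp only [Pi.mul_apply, u, zero_smul, add_zero, Matrix.one_mul]
    rw [minor, det_sub_lo hWlo]
    simp [hW1]
  obtain ⟨δ, ⟨hδT, hδ1⟩, hδ2⟩ := (((hT3.and (hm1.filter_mono nhdsWithin_le_nhds)).and
    (hm2.filter_mono nhdsWithin_le_nhds))).exists
  rw [← hconj] at hδT
  set v := u δ with hv
  set y := v * W with hy
  obtain ⟨hylo, hy1⟩ := lo_mul_rMat hδ2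
  have hyd : (y * rMat y).det ≠ 0 := by rw [det_one_of_lo hylo hy1]; exact one_ne_zero
  obtain ⟨hl1, hl2⟩ := tri_inv OrderDual.toDual.injective hylo hyd
  set l := (y * rMat y)⁻¹ with hldef
  have hlU : LoU l := ⟨hl1, fun i => by rw [hl2, hy1, inv_one]⟩
  set Q := rMat y with hQ
  have hQd : Q.det ≠ 0 := det_rMat_ne hδ2
  have hyu : IsUnit y.det := by
    rw [hy, Matrix.det_mul, det_one_of_up (hu δ).1 (hu δ).2, hWd, one_mul]; exact isUnit_one
  have hQl : Q * l = lam L d * v⁻¹ := by
    rw [hldef, Matrix.mul_inv_rev, Matrix.mul_nonsing_inv_cancel_left _ _ (isUnit_det_of_ne hQd),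
      hy, Matrix.mul_inv_rev]
    rfl
  -- choose the spectrum
  set R := fun x : ℂ => wMat l fun i : Fin n => x ^ (i : ℕ) with hR
  have hlim : Tendsto (fun x => (Q * R x)⁻¹ * diagonal d * (Q * R x)) (𝓝[≠] 0)
      (𝓝 (v * M * v⁻¹)) := by
    have hd2 : (Q * l).det ≠ 0 := by
      rw [Matrix.det_mul, det_one_of_lo hl1 hlU.2, mul_one]; exact hQd
    have h0 : (Q * l)⁻¹ * diagonal d * (Q * l) = v * M * v⁻¹ := by
      rw [hQl, Matrix.mul_inv_rev, Matrix.nonsing_inv_nonsing_inv _ (hud δ), lam,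
        Matrix.nonsing_inv_nonsing_inv _ (by rw [hWd]; exact isUnit_one)]
      conv_rhs => rw [hAeq]
      simp only [hv, hW]
      simp only [Matrix.mul_assoc, lam]
    rw [← h0]
    exact (ContinuousAt.tendsto (f := fun N : Mat n => N⁻¹ * diagonal d * N)
      (((continuousAt_minv hd2).mul continuousAt_const).mul continuousAt_id)).comp
      (tendsto_const_nhds.mul (tendsto_wMat hlU))
  have hopen : IsOpen {N : Mat n | Triple N ∧ ∀ j, minor N j ≠ 0} := by
    have h1 : IsOpen {N : Mat n | Triple N} := by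
      have e : {N : Mat n | Triple N} =
          (⋂ q : Fin n × Fin n, {A : Mat n | A q.1 q.2 ≠ 0}) ∩
          (⋂ q : {p : Fin n × Fin n × Fin n // p.1 ≠ p.2.1 ∧ p.2.1 ≠ p.2.2 ∧ p.1 ≠ p.2.2},
          {A : Mat n | A q.1.1 q.1.2.1 * A q.1.2.1 q.1.2.2 * A q.1.2.2 q.1.1 ≠
            A q.1.1 q.1.2.2 * A q.1.2.2 q.1.2.1 * A q.1.2.1 q.1.1}) := by
        ext A
        simp only [Triple, Set.mem_ofPred_eq, Set.mem_inter_iff, Set.mem_iInter, Subtype.forall,
          Prod.forall, and_imp]
      rw [e]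
      exact (isOpen_iInter_of_finite fun q => isOpen_ne_fun (by fun_prop) continuous_const).inter
        (isOpen_iInter_of_finite fun q => isOpen_ne_fun (by fun_prop) (by fun_prop))
    have h2 : IsOpen {N : Mat n | ∀ j, minor N j ≠ 0} := by
      rw [show {N : Mat n | ∀ j, minor N j ≠ 0} = ⋂ j, {N : Mat n | minor N j ≠ 0} by ext; simp]
      exact isOpen_iInter_of_finite fun j => isOpen_ne_fun (continuous_minor j) continuous_const
    exact h1.inter h2
  obtain ⟨x, ⟨⟨hx3, hx4⟩, hxinj, hxlo⟩, hx0⟩ :=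
    (((hlim.eventually (hopen.mem_nhds ⟨hδT, hδ1⟩)).and (eig_tendsto hlU)).and
      self_mem_nhdsWithin).exists
  set w := fun i : Fin n => x ^ (i : ℕ) with hw
  obtain ⟨c, hc⟩ := IsAlgClosed.exists_pow_nat_eq (Q.det / ∏ i, w i) hn
  have hwP : (∏ i, w i) ≠ 0 := Finset.prod_ne_zero_iff.2 fun i _ => pow_ne_zero _ hx0
  have hc0 : c ≠ 0 := fun h0 => by
    rw [h0, zero_pow hn.ne', eq_comm, div_eq_zero_iff] at hc
    exact hc.elim hQd hwP
  obtain ⟨hQi, hQi1⟩ := tri_inv Function.injective_id (rMat_up y) hQd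
  set b := v⁻¹ * diagonal (fun i => c * w i) * Q⁻¹ with hb
  have hvi := tri_inv Function.injective_id (hu δ).1 (hud δ).ne_zero
  have hbup : Up b := (hvi.1.mul (blockTriangular_diagonal _)).mul hQi
  have hbd : b.det = 1 := by
    rw [hb, Matrix.det_mul, Matrix.det_mul, det_diagonal, Matrix.det_nonsing_inv,
      Matrix.det_nonsing_inv, hv, det_one_of_up (hu δ).1 (hu δ).2, Ring.inverse_one, one_mul,
      Finset.prod_mul_distrib, Finset.prod_const, Finset.card_univ, Fintype.card_fin, hc,
      div_mul_cancel₀ _ hwP, Ring.inverse_eq_inv', mul_inv_cancel₀ hQd]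
  set T := fun i => b i i with hT
  have hTp : ∏ i, T i = 1 := by rw [← hbd, det_of_isUpperTriangular hbup]
  have hT0 : ∀ i, T i ≠ 0 := fun i h => by
    rw [Finset.prod_eq_zero (Finset.mem_univ i) h] at hTp; exact zero_ne_one hTp
  set Z := b * diagonal (fun i => (T i)⁻¹) with hZ
  have hZU : UpU Z := ⟨hbup.mul (blockTriangular_diagonal _), fun i => by
    rw [hZ, Matrix.mul_diagonal]; exact mul_inv_cancel₀ (hT0 i)⟩
  have hRd : (R x).det = 1 := det_one_of_lo hxlo.1 hxlo.2
  have hPd : (Q * R x).det ≠ 0 := by rw [Matrix.det_mul, hRd, mul_one]; exact hQd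
  have hWu : IsUnit W.det := by rw [hWd]; exact isUnit_one
  refine ⟨Z, T, W * (Q * R x), fun i => c * w i, hZU, hTp, ⟨?_, ?_, ?_⟩, ?_, ?_⟩
  · rw [Matrix.det_mul, hWd, one_mul]; exact hPd
  · exact fun a b hab => hxinj (mul_left_cancel₀ hc0 hab)
  · have e1 : Z * diagonal T = b := by
      rw [hZ, Matrix.mul_assoc, diagonal_mul_diagonal,
        show (fun i => (T i)⁻¹ * T i) = fun _ => (1 : ℂ) from funext fun i => inv_mul_cancel₀ (hT0 i),
        diagonal_one, Matrix.mul_one]
    have e2 : l * diagonal w = R x * diagonal w * (R x)⁻¹ := (wMat_spec hlU hxinj).2.2.2.2.2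
    have e3 : diagonal (fun i => c * w i) = c • diagonal w := by
      rw [← diagonal_smul]; rfl
    have e4 : lam L d * b = c • (Q * (R x * diagonal w * (R x)⁻¹) * Q⁻¹) := by
      rw [← e2, hb, e3]
      simp only [Matrix.mul_smul, Matrix.smul_mul, ← Matrix.mul_assoc, hQl]
    rw [hB, e1, e3, show lam L d = W⁻¹ from rfl]
    calc b * W⁻¹ = W * (lam L d * b) * W⁻¹ := by
          rw [show lam L d = W⁻¹ from rfl, Matrix.mul_nonsing_inv_cancel_left _ _ hWu]
      _ = _ := by
          rw [e4]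
          simp only [Matrix.mul_smul, Matrix.smul_mul, Matrix.mul_inv_rev, Matrix.mul_assoc]
  all_goals
    have e5 : (W * (Q * R x))⁻¹ * M * (W * (Q * R x)) = (Q * R x)⁻¹ * diagonal d * (Q * R x) := by
      rw [hAeq, show lam L d = W⁻¹ from rfl, Matrix.mul_inv_rev]
      simp only [Matrix.mul_assoc, Matrix.nonsing_inv_mul_cancel_left _ _ hWu]
    rw [e5]
    assumption

end P002Punct
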