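import Vale.Agent.P002Punct.Final

/-!
The statement for tuples does not depend on the order of the boundary classes.
-/

namespace P002Punct

open Matrix P002Surf

variable {g s n : ℕ}

/-- The braid move on the boundary matrices `k`, `k + 1`. -/
def braid {G : Type} [Group G] (k : Fin s) (c : Fin (s + 1) → G) : Fin (s + 1) → G :=
  Function.update (Function.update c k.succ (c k.castSucc)) k.castSucc
    (c k.castSucc * c k.succ * (c k.castSucc)⁻¹)

/-- Its inverse. -/
def unbraid {G : Type} [Group G] (k : Fin s) (c : Fin (s + 1) → G) : Fin (s + 1) → G :=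
  Function.update (Function.update c k.castSucc (c k.succ)) k.succ
    ((c k.succ)⁻¹ * c k.castSucc * c k.succ)

theorem prod_two {G : Type} [Group G] (k : Fin s) (c : Fin (s + 1) → G) (a b : G)
    (h : a * b = c k.castSucc * c k.succ) :
    (List.ofFn (Function.update (Function.update c k.castSucc a) k.succ b)).prod =
      (List.ofFn c).prod := by
  induction s with
  | zero => exact k.elim0
  | succ s ih =>
    refine Fin.cases (motive := fun k : Fin (s + 1) => a * b = c k.castSucc * c k.succ →
      (List.ofFn (Function.update (Function.update c k.castSucc a) k.succ b)).prod =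
        (List.ofFn c).prod) ?_ ?_ k h
    · intro h
      simp only [List.ofFn_succ, List.prod_cons]
      rw [Fin.castSucc_zero] at h
      have e : ∀ i : Fin s, Function.update (Function.update c (Fin.castSucc 0) a) (Fin.succ 0) b
          i.succ.succ = c i.succ.succ := fun i => by
        rw [Function.update_of_ne (fun e => Fin.succ_ne_zero i (Fin.succ_injective _ e)),
          Function.update_of_ne (by simp [Fin.succ_ne_zero])]
      simp only [Fin.castSucc_zero] at e ⊢
      simp only [e]
      rw [Function.update_of_ne (Fin.succ_ne_zero _).symm, Function.update_self,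
        Function.update_self, ← mul_assoc, h, mul_assoc]
    · intro i h
      rw [List.ofFn_succ, List.ofFn_succ (f := c), List.prod_cons, List.prod_cons]
      rw [Fin.castSucc_succ] at h ⊢
      rw [Function.update_of_ne (Fin.succ_ne_zero _).symm,
        Function.update_of_ne (Fin.succ_ne_zero _).symm]
      have e : (fun m : Fin (s + 1) => Function.update (Function.update c i.castSucc.succ a)
          i.succ.succ b m.succ) =
          Function.update (Function.update (fun m => c m.succ) i.castSucc a) i.succ b := by
        funext m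
        simp only [Function.update_apply, Fin.succ_inj]
      rw [e, ih i (fun m => c m.succ) h]

theorem prod_unbraid {G : Type} [Group G] (k : Fin s) (c : Fin (s + 1) → G) :
    (List.ofFn (unbraid k c)).prod = (List.ofFn c).prod :=
  prod_two k c _ _ (by simp [mul_assoc])

theorem prod_braid {G : Type} [Group G] (k : Fin s) (c : Fin (s + 1) → G) :
    (List.ofFn (braid k c)).prod = (List.ofFn c).prod := by
  rw [braid, Function.update_comm (Fin.castSucc_lt_succ (i := k)).ne']
  exact prod_two k c _ _ (by simp [mul_assoc])

theorem unbraid_braid {G : Type} [Group G] (k : Fin s) (c : Fin (s + 1) → G) :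
    unbraid k (braid k c) = c := by
  have hne : k.succ ≠ k.castSucc := (Fin.castSucc_lt_succ (i := k)).ne'
  funext i
  by_cases h1 : i = k.castSucc
  · subst h1
    simp [unbraid, braid, hne, hne.symm]
  by_cases h2 : i = k.succ
  · subst h2
    simp [unbraid, braid, hne, mul_assoc]
  · simp [unbraid, braid, h1, h2]

/-- A map of the boundary matrices extended to tuples. -/
def onBd {G : Type} (φ : (Fin s → G) → Fin s → G) (ρ : (Fin g × Bool) ⊕ Fin s → G) :
    (Fin g × Bool) ⊕ Fin s → G :=
  Sum.elim (fun v => ρ (.inl v)) (φ fun j => ρ (.inr j))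

theorem invariant_inv {A : Matrix.SpecialLinearGroup (Fin n) ℂ} {W : Submodule ℂ (Fin n → ℂ)}
    (h : ∀ w ∈ W, A.1 *ᵥ w ∈ W) : ∀ w ∈ W, (A⁻¹).1 *ᵥ w ∈ W := by
  intro w hw
  have hinj : Function.Injective fun v : W => (⟨A.1 *ᵥ v, h v v.2⟩ : W) := fun a b e => by
    refine Subtype.ext ?_
    have := congrArg (fun v => (A⁻¹).1 *ᵥ v) (congrArg Subtype.val e)
    simpa [Matrix.SpecialLinearGroup.coe_inv, Matrix.mulVec_mulVec, Matrix.adjugate_mul, A.2]
      using this
  let f : W →ₗ[ℂ] W :=
    { toFun := fun v => ⟨A.1 *ᵥ v, h v v.2⟩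
      map_add' := fun a b => Subtype.ext (Matrix.mulVec_add A.1 (a : Fin n → ℂ) (b : Fin n → ℂ))
      map_smul' := fun c a => Subtype.ext (Matrix.mulVec_smul A.1 c (a : Fin n → ℂ)) }
  obtain ⟨v, hv⟩ := LinearMap.surjective_of_injective (f := f) hinj ⟨w, hw⟩
  have e : A.1 *ᵥ (v : Fin n → ℂ) = w := congrArg Subtype.val hv
  rw [← e, Matrix.mulVec_mulVec, Matrix.SpecialLinearGroup.coe_inv, Matrix.adjugate_mul, A.2,
    one_smul, Matrix.one_mulVec]
  exact v.2

theorem dense_swap (k : Fin s) (C : Fin (s + 1) → Matrix.SpecialLinearGroup (Fin n) ℂ)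
    (h : DenseTuples g (C ∘ Equiv.swap k.castSucc k.succ)) : DenseTuples g C := by
  classical
  obtain ⟨L, hL, hd⟩ := h
  refine ⟨L, hL, fun p hp ρ hρ hρC => ?_⟩
  have hne : k.succ ≠ k.castSucc := (Fin.castSucc_lt_succ (i := k)).ne'
  -- the inverse move is polynomial
  let M : ((((Fin g × Bool) ⊕ Fin (s + 1)) × Fin n × Fin n) → ℂ) →
      (Fin g × Bool) ⊕ Fin (s + 1) → Mat n := fun w v => Matrix.of fun a b => w (v, a, b)
  let F : ((Fin g × Bool) ⊕ Fin (s + 1)) → ((((Fin g × Bool) ⊕ Fin (s + 1)) × Fin n × Fin n) → ℂ) →
      Mat n := fun v w =>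
    if v = .inr k.succ then
      (M w (.inr k.succ)).adjugate * M w (.inr k.castSucc) * M w (.inr k.succ)
    else if v = .inr k.castSucc then M w (.inr k.succ) else M w v
  have hM : ∀ v, PolyM fun w => M w v := fun v a b => polyF_coord (v, a, b)
  have hF : ∀ v, PolyM (F v) := fun v => by
    simp only [F]
    split_ifs
    · exact ((hM _).adjugate.mul (hM _)).mul (hM _)
    · exact hM _
    · exact hM v
  choose T hT using fun t : ((Fin g × Bool) ⊕ Fin (s + 1)) × Fin n × Fin n => hF t.1 t.2.1 t.2.2
  have hev : ∀ σ : (Fin g × Bool) ⊕ Fin (s + 1) → Matrix.SpecialLinearGroup (Fin n) ℂ,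
      MvPolynomial.eval (fun t => (σ t.1).1 t.2.1 t.2.2) (MvPolynomial.aeval T p) =
        MvPolynomial.eval (fun t => (onBd (unbraid k) σ t.1).1 t.2.1 t.2.2) p := fun σ => by
    rw [eval_subst]
    congr 2
    funext t
    rw [← hT]
    obtain ⟨v, a, b⟩ := t
    rcases v with v | j
    · simp only [F, if_neg (Sum.inl_ne_inr), onBd, Sum.elim_inl, M]
      rfl
    · simp only [F, Sum.inr.injEq, onBd, Sum.elim_inr, unbraid]
      by_cases h1 : j = k.succ
      · subst h1
        simp [M, Matrix.SpecialLinearGroup.coe_inv, Matrix.SpecialLinearGroup.coe_mul]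
        rfl
      · rw [if_neg h1, Function.update_of_ne h1]
        by_cases h2 : j = k.castSucc
        · subst h2
          simp [M]
        · rw [if_neg h2, Function.update_of_ne h2]
          rfl
  have key := hd (MvPolynomial.aeval T p) (fun σ hσ hσC hσL hσW => ?_) (onBd (braid k) ρ) ?_
    (fun j => ?_)
  · rw [hev] at key
    convert key using 3
    funext t
    obtain ⟨v, a, b⟩ := t
    rcases v with v | j
    · rfl
    · simp [onBd, unbraid_braid]
  · rw [hev]
    refine hp _ ?_ (fun j => ?_) (fun v a b => ?_) (fun W hW => hσW W fun v => ?_)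
    · simp only [onBd, Sum.elim_inl, Sum.elim_inr]
      rw [prod_unbraid]
      exact hσ
    · simp only [onBd, Sum.elim_inr, unbraid]
      by_cases h1 : j = k.succ
      · subst h1
        rw [Function.update_self]
        have := hσC k.castSucc
        simp only [Function.comp_apply, Equiv.swap_apply_left] at this
        exact this.trans (isConj_iff.2 ⟨(σ (.inr k.succ))⁻¹, by simp [mul_assoc]⟩)
      · rw [Function.update_of_ne h1]
        by_cases h2 : j = k.castSucc
        · subst h2
          rw [Function.update_self]
          simpa using hσC k.succ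
        · rw [Function.update_of_ne h2]
          simpa [Equiv.swap_apply_of_ne_of_ne h2 h1] using hσC j
    · have hint : ∀ v, IntM (intRing L) (σ v).1 := fun v a b =>
        mem_intRing.2 ⟨(hσL v a b).2, (hσL v a b).1⟩
      have hg : IntM (intRing L) (onBd (unbraid k) σ v).1 := by
        rcases v with v | j
        · exact hint _
        · simp only [onBd, Sum.elim_inr, unbraid, Function.update_apply]
          split_ifs
          · simp only [Matrix.SpecialLinearGroup.coe_mul, Matrix.SpecialLinearGroup.coe_inv]
            exact ((hint _).adjugate.mul (hint _)).mul (hint _)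
          · exact hint _
          · exact hint _
      exact ⟨(mem_intRing.1 (hg a b)).2, (mem_intRing.1 (hg a b)).1⟩
    · rcases v with v | j
      · exact hW (.inl v)
      have h1 : ∀ w ∈ W, (σ (.inr k.succ)).1 *ᵥ w ∈ W := fun w hw => by
        simpa [onBd, unbraid, hne.symm] using hW (.inr k.castSucc) w hw
      by_cases hj2 : j = k.castSucc
      · subst hj2
        intro w hw
        have h2 := fun w hw => hW (.inr k.succ) w hw
        simp only [onBd, Sum.elim_inr, unbraid, Function.update_self] at h2
        have := h1 _ (h2 _ (invariant_inv h1 w hw))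
        simp only [Matrix.mulVec_mulVec, ← Matrix.SpecialLinearGroup.coe_mul] at this
        rwa [show σ (.inr k.succ) * ((σ (.inr k.succ))⁻¹ * σ (.inr k.castSucc) * σ (.inr k.succ) *
          (σ (.inr k.succ))⁻¹) = σ (.inr k.castSucc) by group] at this
      by_cases hj1 : j = k.succ
      · subst hj1; exact h1
      · intro w hw
        simpa [onBd, unbraid, hj1, hj2] using hW (.inr j) w hw
  · simp only [onBd, Sum.elim_inl, Sum.elim_inr]
    rw [prod_braid]
    exact hρ
  · simp only [onBd, Sum.elim_inr, braid, Function.comp_apply]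
    by_cases h1 : j = k.castSucc
    · subst h1
      rw [Function.update_self, Equiv.swap_apply_left]
      exact (hρC k.succ).trans (isConj_iff.2 ⟨ρ (.inr k.castSucc), rfl⟩)
    · rw [Function.update_of_ne h1]
      by_cases h2 : j = k.succ
      · subst h2
        rw [Function.update_self, Equiv.swap_apply_right]
        exact hρC k.castSucc
      · rw [Function.update_of_ne h2, Equiv.swap_apply_of_ne_of_ne h1 h2]
        exact hρC j

theorem dense_perm (σ : Equiv.Perm (Fin (s + 1)))
    (C : Fin (s + 1) → Matrix.SpecialLinearGroup (Fin n) ℂ) (h : DenseTuples g (C ∘ σ)) :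
    DenseTuples g C := by
  have hmem : σ ∈ Submonoid.closure
      (Set.range fun i : Fin s => Equiv.swap i.castSucc i.succ) := by
    rw [Equiv.Perm.mclosure_swap_castSucc_succ]; trivial
  induction hmem using Submonoid.closure_induction generalizing C with
  | mem x hx =>
    obtain ⟨k, rfl⟩ := hx
    exact dense_swap k C h
  | one => simpa using h
  | mul x y _ _ hx hy => exact hx C (hy (C ∘ x) (by rwa [Equiv.Perm.coe_mul] at h))

end P002Punct
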