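import Vale.Agent.P002Surf.Fibre

/-!
Units of a cyclotomic ring: a tuple of roots of unity with unit differences, and a unit of
infinite order.
-/

namespace P002Punct

open P002Surf Polynomial

/-- If the order of a root of unity is not a prime power, one minus it is a unit. -/
theorem inv_one_sub_mem {η : ℂ} {m : ℕ} (h : IsPrimitiveRoot η m) (hm : 0 < m)
    (hpp : ∀ {p : ℕ}, p.Prime → ∀ k : ℕ, p ^ k ≠ m) {R : Subring ℂ} (hR : η ∈ R) :
    (1 - η)⁻¹ ∈ R := by
  have h1 : (cyclotomic m ℤ).eval 1 = 1 := eval_one_cyclotomic_not_prime_pow hpp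
  obtain ⟨Q, hQ⟩ : (X - C (1 : ℤ)) ∣ cyclotomic m ℤ - 1 :=
    dvd_iff_isRoot.2 (by simp [IsRoot, h1])
  have h0 : aeval η (cyclotomic m ℤ) = 0 := by
    rw [aeval_def, eval₂_eq_eval_map, map_cyclotomic]
    exact h.isRoot_cyclotomic hm
  have e := congrArg (aeval η) hQ
  rw [map_sub, h0, map_mul, map_sub, aeval_X, aeval_C, map_one, map_one] at e
  have hmem : aeval η Q ∈ R := by
    have := Algebra.adjoin_le (S := subalgebraOfSubring R) (Set.singleton_subset_iff.2 hR)
      (aeval_mem_adjoin_singleton ℤ η (p := Q))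
    exact this
  rw [inv_eq_of_mul_eq_one_right (show (1 - η) * aeval η Q = 1 by linear_combination e)]
  exact hmem

/-- A root of unity of order `p * q` with primes `p, q > max n 5`. -/
theorem exists_order (n : ℕ) : ∃ m : ℕ, 7 ≤ m ∧ (∀ {p : ℕ}, p.Prime → ∀ j : ℕ, p ^ j ≠ m) ∧
    ∀ k : ℕ, 0 < k → k ≤ n →
    Nat.Coprime k m := by
  obtain ⟨p, hp1, hp⟩ := Nat.exists_infinite_primes (n + 7)
  obtain ⟨q, hq1, hq⟩ := Nat.exists_infinite_primes (p + 1)
  refine ⟨p * q, by nlinarith, ?_, fun k hk hkn => Nat.Coprime.mul_right ?_ ?_⟩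
  rotate_left
  · exact Nat.Coprime.symm ((hp.coprime_iff_not_dvd).2 fun h => by
      have := Nat.le_of_dvd hk h; omega)
  · exact Nat.Coprime.symm ((hq.coprime_iff_not_dvd).2 fun h => by
      have := Nat.le_of_dvd hk h; omega)
  · intro r hr j he
    have h1 : p ∣ r ^ j := he ▸ dvd_mul_right p q
    have h2 : q ∣ r ^ j := he ▸ dvd_mul_left q p
    have e1 := (Nat.prime_dvd_prime_iff_eq hp hr).1 (hp.dvd_of_dvd_pow h1)
    have e2 := (Nat.prime_dvd_prime_iff_eq hq hr).1 (hq.dvd_of_dvd_pow h2)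
    omega

theorem norm_one_sub_exp_lt {m : ℕ} (hm : 7 ≤ m) :
    ‖1 - Complex.exp (2 * Real.pi * Complex.I / m)‖ < 1 := by
  set x : ℝ := 2 * Real.pi / m with hx
  have e : Complex.exp (2 * Real.pi * Complex.I / m) = Complex.exp (x * Complex.I) := by
    rw [hx]; push_cast; ring_nf
  have hm' : (7 : ℝ) ≤ m := by exact_mod_cast hm
  have hx0 : 0 ≤ x := by positivity
  have hx1 : x < Real.pi / 3 := by
    rw [hx, div_lt_div_iff₀ (by linarith) (by norm_num)]
    nlinarith [Real.pi_pos]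
  have hc := Real.cos_lt_cos_of_nonneg_of_le_pi hx0 (by linarith [Real.pi_pos]) hx1
  rw [Real.cos_pi_div_three] at hc
  have hs := Real.sin_sq_add_cos_sq x
  rw [e, Complex.norm_def, Real.sqrt_lt' one_pos, Complex.normSq_apply]
  simp only [Complex.sub_re, Complex.sub_im, Complex.one_re, Complex.one_im,
    Complex.exp_ofReal_mul_I_re, Complex.exp_ofReal_mul_I_im]
  nlinarith

/-- The units used by the seeds. The caller only has to put `ω` in the ring. -/
theorem exists_units (n : ℕ) : ∃ (m : ℕ) (ω ε : ℂ) (e : Fin n → ℂ), 0 < m ∧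
    IsPrimitiveRoot ω m ∧ ε ≠ 0 ∧ (Set.range fun k : ℕ => ε ^ k).Infinite ∧
    (∀ i, e i ≠ 0) ∧ Function.Injective (dd e) ∧ (∀ i, dd e i ^ m = 1) ∧
    ∀ R : Subring ℂ, ω ∈ R → ε ∈ R ∧ ε⁻¹ ∈ R ∧
      ∀ i j, e i ∈ R ∧ (e i)⁻¹ ∈ R ∧ (dd e i - dd e j)⁻¹ ∈ R := by
  obtain ⟨m, hm, hpp, hc⟩ := exists_order n
  set ω := Complex.exp (2 * Real.pi * Complex.I / m) with hω'
  have hω : IsPrimitiveRoot ω m := Complex.isPrimitiveRoot_exp m (by omega)
  have hω0 : ω ≠ 0 := Complex.exp_ne_zero _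
  have hne : (1 : ℂ) - ω ≠ 0 := sub_ne_zero.2 (hω.ne_one (by omega)).symm
  let e : Fin n → ℂ := fun i => ω ^ (i : ℕ)
  have he0 : ∀ i, e i ≠ 0 := fun i => pow_ne_zero _ hω0
  have hP : (∏ k, e k) ≠ 0 := Finset.prod_ne_zero_iff.2 fun k _ => he0 k
  -- differences
  have hdiff : ∀ i j : Fin n, i < j → dd e i - dd e j =
      (e i ^ n / ∏ k, e k) * (1 - ω ^ (n * ((j : ℕ) - i))) := by
    intro i j hij
    have : e j ^ n = e i ^ n * ω ^ (n * ((j : ℕ) - i)) := by
      simp only [e]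
      rw [← pow_mul, ← pow_mul, ← pow_add]
      congr 1
      have hle : (i : ℕ) ≤ j := le_of_lt hij
      obtain ⟨d, hd⟩ := Nat.le.dest hle
      rw [← hd, Nat.add_sub_cancel_left]
      ring
    simp only [dd, this]
    ring
  have hprim : ∀ i j : Fin n, i < j → IsPrimitiveRoot (ω ^ (n * ((j : ℕ) - i))) m := fun i j hij => by
    have hij' : (i : ℕ) < j := hij
    exact hω.pow_of_coprime _ (Nat.Coprime.mul_left (hc n (by omega) le_rfl)
      (hc _ (by omega) (by omega)))
  have hinj : Function.Injective (dd e) := by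
    intro i j hij
    by_contra hne'
    rcases lt_or_gt_of_ne hne' with h | h
    · have := hdiff i j h
      rw [hij, sub_self, eq_comm, mul_eq_zero, sub_eq_zero] at this
      exact this.elim (div_ne_zero (pow_ne_zero _ (he0 i)) hP)
        fun h1 => (hprim i j h).ne_one (by omega) h1.symm
    · have := hdiff j i h
      rw [hij, sub_self, eq_comm, mul_eq_zero, sub_eq_zero] at this
      exact this.elim (div_ne_zero (pow_ne_zero _ (he0 j)) hP)
        fun h1 => (hprim j i h).ne_one (by omega) h1.symm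
  have hroot : ∀ i, dd e i ^ m = 1 := by
    intro i
    have h1 : ∀ a : ℕ, (ω ^ a) ^ m = 1 := fun a => by
      rw [← pow_mul, mul_comm, pow_mul, hω.pow_eq_one, one_pow]
    simp only [dd, e, div_pow, ← Finset.prod_pow, ← pow_mul _ _ n, h1, Finset.prod_const_one,
      div_one]
  refine ⟨m, ω, 1 - ω, e, by omega, hω, hne, ?_, he0, hinj, hroot, fun R hR => ?_⟩
  · refine Set.infinite_range_of_injective fun a b hab => ?_
    have := congrArg (‖·‖) hab
    simp only [norm_pow] at this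
    exact (pow_right_strictAnti₀ (norm_pos_iff.2 hne) (norm_one_sub_exp_lt hm)).injective this
  have hωi : ω⁻¹ ∈ R := by
    have : ω⁻¹ = ω ^ (m - 1) := by
      refine (eq_inv_of_mul_eq_one_left ?_).symm
      rw [← pow_succ, Nat.sub_add_cancel (by omega), hω.pow_eq_one]
    rw [this]; exact pow_mem hR _
  refine ⟨sub_mem (one_mem R) hR, inv_one_sub_mem hω (by omega) hpp hR, fun i j => ⟨pow_mem hR _,
    by simp only [e, ← inv_pow]; exact pow_mem hωi _, ?_⟩⟩
  have hfac : ∀ i : Fin n, (e i ^ n / ∏ k, e k)⁻¹ ∈ R := fun i => by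
    rw [inv_div, div_eq_mul_inv, ← inv_pow]
    exact mul_mem (prod_mem fun k _ => pow_mem hR _)
      (pow_mem (by simp only [e, ← inv_pow]; exact pow_mem hωi _) _)
  rcases lt_trichotomy i j with h | rfl | h
  · rw [hdiff i j h, mul_inv]
    exact mul_mem (hfac i) (inv_one_sub_mem (hprim i j h) (by omega) hpp (pow_mem hR _))
  · rw [sub_self, inv_zero]; exact zero_mem R
  · rw [← neg_sub (dd e j), inv_neg, hdiff j i h, mul_inv]
    exact neg_mem (mul_mem (hfac j)
      (inv_one_sub_mem (hprim j i h) (by omega) hpp (pow_mem hR _)))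

end P002Punct
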