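import Vale.Agent.P002Punct.SeedMat
import Vale.Agent.P002Punct.SeedInt
import Vale.Agent.P002Punct.Poly
import Vale.Agent.P002Surf.Section

/-!
The seed family: genus two states with the conjugators one, integral on a grid, hence in the
closure of the integral representations for all parameters.
-/

namespace P002Punct

open P002Surf Matrix

variable {s n : ℕ}

/-- The parameters: an upper unitriangular matrix and two torus elements. -/
abbrev SeedPar (n : ℕ) := (Fin n × Fin n) ⊕ (Fin n ⊕ Fin n)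

/-- The fixed data of the seeds. -/
structure SeedData (s n : ℕ) where
  /-- The boundary classes. -/
  J : Fin s → Mat n
  /-- The spectrum of the first entries. -/
  d : Fin n → ℂ
  /-- The entries of `L'`. -/
  lu : Fin n × Fin n → ℂ
  hJup : ∀ j, Up (J j)
  hJd : ∀ j, (J j).det = 1
  hd : Function.Injective d
  hd1 : ∏ i, d i = 1

namespace SeedData

variable (S : SeedData s n)

/-- The inverse of the product of the classes. -/
def K : Mat n := (List.ofFn S.J).prod.adjugate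

/-- Its diagonal. -/
def κ : Fin n → ℂ := fun i => S.K i i

/-- The lower factor of the first handle. -/
noncomputable def l1 : Mat n := (lP S.lu)⁻¹

/-- The lower factor of the second handle. -/
noncomputable def l2 : Mat n := lP S.lu * phi S.κ

/-- The gauge of the second handle. -/
noncomputable def pP : Mat n := pMat S.κ (lP S.lu)

/-- `Δ K`. -/
noncomputable def vV : Mat n := dlt S.κ * S.K

/-- The upper unitriangular parameter. -/
def uU (x : SeedPar n → ℂ) : Mat n :=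
  Matrix.of fun i j => if i < j then x (.inl (i, j)) else if i = j then 1 else 0

/-- The torus parameter of the first handle. -/
noncomputable def t1 (x : SeedPar n → ℂ) : Fin n → ℂ := dd fun i => x (.inr (.inl i))

/-- The torus parameter of the second handle. -/
noncomputable def t2 (x : SeedPar n → ℂ) : Fin n → ℂ := dd fun i => x (.inr (.inr i))

/-- The upper factor of the second commutator in its gauge. -/
noncomputable def u2 (x : SeedPar n → ℂ) : Mat n := S.vV * (uU x)⁻¹ * S.pP⁻¹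

/-- The eigenbasis from an upper factor. -/
noncomputable def zOf (U : Mat n) : Mat n := eig (diagonal (dinv S.d) * U) (dinv S.d)

/-- The gauge. -/
noncomputable def gG (x : SeedPar n → ℂ) : Mat n := S.pP * uU x

/-- The first handle. -/
noncomputable def h1 (x : SeedPar n → ℂ) : Pair n :=
  (hA S.l1 S.d, hB S.l1 S.d (S.zOf (uU x)) (t1 x))

/-- The second handle in its gauge. -/
noncomputable def h2g (x : SeedPar n → ℂ) : Pair n :=
  (hA S.l2 S.d, hB S.l2 S.d (S.zOf (S.u2 x)) (t2 x))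

/-- The second handle. -/
noncomputable def h2 (x : SeedPar n → ℂ) : Pair n :=
  ((S.gG x)⁻¹ * (S.h2g x).1 * S.gG x, (S.gG x)⁻¹ * (S.h2g x).2 * S.gG x)

/-- The state. -/
noncomputable def st (x : SeedPar n → ℂ) : St 2 s n := (![S.h1 x, S.h2 x], fun _ => 1)

/-- The allowed values of the parameters. -/
def box : SeedPar n → Set ℂ := fun v => Sum.elim (fun _ => Set.univ) (fun _ => {z | z ≠ 0}) v

theorem isOpen_box : ∀ v : SeedPar n, IsOpen (box v) := fun v => by
  rcases v with v | v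
  · exact isOpen_univ
  · exact isOpen_ne

theorem prod_t1 {x : SeedPar n → ℂ} (hx : ∀ v, x v ∈ box v) : ∏ i, t1 x i = 1 :=
  prod_dd fun i => hx (.inr (.inl i))

theorem prod_t2 {x : SeedPar n → ℂ} (hx : ∀ v, x v ∈ box v) : ∏ i, t2 x i = 1 :=
  prod_dd fun i => hx (.inr (.inr i))

theorem upU_uU (x : SeedPar n → ℂ) : UpU (uU x) := by
  refine ⟨fun i j h => ?_, fun i => by simp [uU]⟩
  have h' : j < i := h
  simp [uU, not_lt.2 h'.le, h'.ne']

theorem up_list_prod {l : List (Mat n)} (h : ∀ A ∈ l, Up A) : Up l.prod :=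
  List.prod_induction Up (fun _ _ h1 h2 => h1.mul h2) blockTriangular_one h

theorem det_prodJ : (List.ofFn S.J).prod.det = 1 :=
  det_list_prod fun M hM => by
    obtain ⟨k, rfl⟩ := List.mem_ofFn.1 hM
    exact S.hJd k

theorem up_K : Up S.K := by
  have h : Up (List.ofFn S.J).prod := up_list_prod fun M hM => by
    obtain ⟨k, rfl⟩ := List.mem_ofFn.1 hM
    exact S.hJup k
  have h2 := (tri_inv Function.injective_id h (by rw [S.det_prodJ]; exact one_ne_zero)).1
  rwa [Matrix.inv_def, S.det_prodJ, Ring.inverse_one, one_smul] at h2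

theorem det_K : S.K.det = 1 := det_adj_one S.det_prodJ

theorem prod_κ : ∏ a, S.κ a = 1 := by
  rw [← S.det_K, det_of_isUpperTriangular S.up_K]
  rfl

theorem loU_l1 : LoU S.l1 := loU_inv (loU_lP _)

theorem loU_l2 : LoU S.l2 := loU_mul (loU_lP _) (loU_phi _)

theorem upU_pP : UpU S.pP := (pMat_mul S.prod_κ S.lu).2

theorem upU_inv {U : Mat n} (hU : UpU U) : UpU U⁻¹ := by
  obtain ⟨h1, h2⟩ := tri_inv Function.injective_id hU.1
    (by rw [det_one_of_up hU.1 hU.2]; exact one_ne_zero)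
  exact ⟨h1, fun i => by rw [h2, hU.2, inv_one]⟩

theorem upU_mul {U V : Mat n} (hU : UpU U) (hV : UpU V) : UpU (U * V) :=
  ⟨hU.1.mul hV.1, fun i => by
    rw [tri_mul_diag Function.injective_id hU.1 hV.1, hU.2, hV.2, one_mul]⟩

theorem upU_vV : UpU S.vV := by
  refine ⟨(up_dlt _).mul S.up_K, fun i => ?_⟩
  rw [vV, tri_mul_diag Function.injective_id (up_dlt _) S.up_K]
  have h1 := mPre_succ S.κ i
  have hκ : S.κ i ≠ 0 := fun h => zero_ne_one
    ((Finset.prod_eq_zero (Finset.mem_univ i) h).symm.trans S.prod_κ)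
  have := mPre_ne S.prod_κ i
  simp only [dlt, Matrix.of_apply, lt_irrefl, if_false, if_true]
  rw [h1, show S.K i i = S.κ i from rfl]
  field_simp

theorem upU_u2 (x : SeedPar n → ℂ) : UpU (S.u2 x) :=
  upU_mul (upU_mul S.upU_vV (upU_inv (upU_uU x))) (upU_inv S.upU_pP)

theorem upU_gG (x : SeedPar n → ℂ) : UpU (S.gG x) := upU_mul S.upU_pP (upU_uU x)

theorem d_ne (i : Fin n) : S.d i ≠ 0 := fun h => zero_ne_one
  ((Finset.prod_eq_zero (Finset.mem_univ i) h).symm.trans S.hd1)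

theorem zOf_spec {U : Mat n} (hU : UpU U) : UpU (S.zOf U) ∧ uCom S.d (S.zOf U) = U :=
  uCom_eig hU S.hd S.d_ne

theorem sl_h1 {x : SeedPar n → ℂ} (hx : ∀ v, x v ∈ box v) : SL1 (S.h1 x) :=
  ⟨det_hA S.loU_l1 S.hd1, det_hB S.loU_l1 S.hd (S.zOf_spec (upU_uU x)).1 (prod_t1 hx)⟩

theorem sl_h2g {x : SeedPar n → ℂ} (hx : ∀ v, x v ∈ box v) : SL1 (S.h2g x) :=
  ⟨det_hA S.loU_l2 S.hd1, det_hB S.loU_l2 S.hd (S.zOf_spec (S.upU_u2 x)).1 (prod_t2 hx)⟩

theorem cm_conjInv {g A B : Mat n} (hg : g.det = 1) (hA : A.det = 1) (hB : B.det = 1) :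
    cm (g⁻¹ * A * g, g⁻¹ * B * g) = g⁻¹ * cm (A, B) * g := by
  have hu : IsUnit g.det := by rw [hg]; exact isUnit_one
  have hgi : g⁻¹.det = 1 := by rw [Matrix.det_nonsing_inv, hg, Ring.inverse_one]
  refine cm_eq_of (by simp [Matrix.det_mul, hg, hgi, hA]) (by simp [Matrix.det_mul, hg, hgi, hB]) ?_
  simp only [Matrix.mul_assoc, Matrix.mul_nonsing_inv_cancel_left _ _ hu]
  have e := congrArg (fun M => g⁻¹ * M * g) (cm_mul_eq (x := (A, B)) ⟨hA, hB⟩)
  simpa only [Matrix.mul_assoc] using e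

theorem cm_h1 {x : SeedPar n → ℂ} (hx : ∀ v, x v ∈ box v) : cm (S.h1 x) = S.l1 * uU x := by
  rw [h1, cm_handle S.loU_l1 S.hd S.hd1 (S.zOf_spec (upU_uU x)).1 (prod_t1 hx),
    (S.zOf_spec (upU_uU x)).2]

theorem cm_h2 {x : SeedPar n → ℂ} (hx : ∀ v, x v ∈ box v) :
    cm (S.h2 x) = (uU x)⁻¹ * lP S.lu * S.K := by
  have hg := det_one_of_up (S.upU_gG x).1 (S.upU_gG x).2
  have hP : IsUnit S.pP.det := by rw [det_one_of_up S.upU_pP.1 S.upU_pP.2]; exact isUnit_one
  have hU : IsUnit (uU x).det := by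
    rw [det_one_of_up (upU_uU x).1 (upU_uU x).2]; exact isUnit_one
  rw [h2, cm_conjInv hg (S.sl_h2g hx).1 (S.sl_h2g hx).2, h2g,
    cm_handle S.loU_l2 S.hd S.hd1 (S.zOf_spec (S.upU_u2 x)).1 (prod_t2 hx),
    (S.zOf_spec (S.upU_u2 x)).2]
  have e : S.l2 * S.vV = S.pP * lP S.lu * S.K := by
    rw [pP, (pMat_mul S.prod_κ S.lu).1, l2, vV]
    simp only [Matrix.mul_assoc]
  calc (S.gG x)⁻¹ * (S.l2 * S.u2 x) * S.gG x
      = (uU x)⁻¹ * S.pP⁻¹ * (S.l2 * S.vV) * ((uU x)⁻¹ * S.pP⁻¹ * (S.pP * uU x)) := by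
        simp only [gG, u2, Matrix.mul_inv_rev, Matrix.mul_assoc]
    _ = _ := by
        rw [e]
        simp only [Matrix.mul_assoc, Matrix.nonsing_inv_mul_cancel_left _ _ hP,
          Matrix.nonsing_inv_mul _ hU, Matrix.mul_one]

theorem prep_st {x : SeedPar n → ℂ} (hx : ∀ v, x v ∈ box v) : PRep S.J (S.st x) := by
  refine ⟨fun i => ?_, fun j => Matrix.det_one, ?_⟩
  · fin_cases i
    · exact S.sl_h1 hx
    · have hg := det_one_of_up (S.upU_gG x).1 (S.upU_gG x).2
      have hgi : (S.gG x)⁻¹.det = 1 := by rw [Matrix.det_nonsing_inv, hg, Ring.inverse_one]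
      exact ⟨by simp [st, h2, Matrix.det_mul, hg, hgi, (S.sl_h2g hx).1],
        by simp [st, h2, Matrix.det_mul, hg, hgi, (S.sl_h2g hx).2]⟩
  · have hb : bdList S.J (S.st x) = List.ofFn S.J := by simp [bdList, bd, st]
    have hh : hprod (S.st x) = cm (S.h1 x) * cm (S.h2 x) := by
      simp [hprod, st, List.ofFn_succ]
    have hU : IsUnit (uU x).det := by
      rw [det_one_of_up (upU_uU x).1 (upU_uU x).2]; exact isUnit_one
    have hL : IsUnit (lP S.lu).det := by
      rw [det_one_of_lo (loU_lP _).1 (loU_lP _).2]; exact isUnit_one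
    rw [hb, hh, S.cm_h1 hx, S.cm_h2 hx, l1]
    simp only [Matrix.mul_assoc, Matrix.mul_nonsing_inv_cancel_left _ _ hU,
      Matrix.nonsing_inv_mul_cancel_left _ _ hL]
    exact adj_mul_one S.det_prodJ

/-! ### rationality -/

/-- A curve of parameters, allowed at `0` and `1`. -/
def Curve (c : ℂ → SeedPar n → ℂ) : Prop :=
  (∀ v, RatOn fun s => c s v) ∧ (∀ v, c 0 v ∈ box v) ∧ ∀ v, c 1 v ∈ box v

theorem curve_update {x : SeedPar n → ℂ} (hx : ∀ v, x v ∈ box v) (a : SeedPar n) {c₀ c₁ : ℂ}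
    (h₀ : c₀ ∈ box a) (h₁ : c₁ ∈ box a) :
    Curve fun s => Function.update x a ((1 - s) * c₀ + s * c₁) := by
  refine ⟨fun v => ?_, fun v => ?_, fun v => ?_⟩
  · rcases eq_or_ne v a with rfl | hv
    · simp only [Function.update_self]
      exact (((ratOn_const 1).sub ratOn_id).mul (ratOn_const c₀)).add (ratOn_id.mul (ratOn_const c₁))
    · simp only [Function.update_of_ne hv]; exact ratOn_const _
  · rcases eq_or_ne v a with rfl | hv
    · simpa using h₀
    · simpa [Function.update_of_ne hv] using hx v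
  · rcases eq_or_ne v a with rfl | hv
    · simpa using h₁
    · simpa [Function.update_of_ne hv] using hx v

variable {c : ℂ → SeedPar n → ℂ}

theorem ratM_uU (hc : Curve c) : RatM fun s => uU (c s) := fun i j => by
  simp only [uU, Matrix.of_apply]
  split_ifs
  exacts [hc.1 _, ratOn_const _, ratOn_const _]

theorem det_uU_ne (x : SeedPar n → ℂ) : (uU x).det ≠ 0 := by
  rw [det_one_of_up (upU_uU x).1 (upU_uU x).2]; exact one_ne_zero

theorem ratM_u2 (hc : Curve c) : RatM fun s => S.u2 (c s) :=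
  ((ratM_const _).mul ((ratM_uU hc).inv (det_uU_ne _) (det_uU_ne _))).mul (ratM_const _)

theorem ratM_zOf {U : ℂ → Mat n} (hU : RatM U) : RatM fun s => S.zOf (U s) :=
  ratM_eig (M := fun s => diagonal (dinv S.d) * U s) (d := fun _ => dinv S.d)
    ((ratM_const (diagonal (dinv S.d))).mul hU) (fun _ => ratOn_const _)
    (dinv_injective S.hd) (dinv_injective S.hd)

theorem ratM_hB {L : Mat n} {U : ℂ → Mat n} (hU : RatM U) {t : ℂ → Fin n → ℂ}
    (ht : ∀ i, RatOn fun s => t s i) : RatM fun s => hB L S.d (S.zOf (U s)) (t s) :=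
  ((S.ratM_zOf hU).mul (ratM_diagonal ht)).mul (ratM_const _)

theorem ratM_h1 (hc : Curve c) :
    RatM (fun s => (S.h1 (c s)).1) ∧ RatM (fun s => (S.h1 (c s)).2) :=
  ⟨ratM_const _, S.ratM_hB (ratM_uU hc)
    (ratOn_dd (fun i => hc.1 _) (fun i => hc.2.1 (.inr (.inl i))) fun i => hc.2.2 (.inr (.inl i)))⟩

theorem ratM_gG (hc : Curve c) :
    RatM (fun s => S.gG (c s)) ∧ RatM fun s => (S.gG (c s))⁻¹ := by
  have h : RatM fun s => S.gG (c s) := (ratM_const _).mul (ratM_uU hc)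
  exact ⟨h, h.inv (by rw [det_one_of_up (S.upU_gG _).1 (S.upU_gG _).2]; exact one_ne_zero)
    (by rw [det_one_of_up (S.upU_gG _).1 (S.upU_gG _).2]; exact one_ne_zero)⟩

theorem ratM_h2g (hc : Curve c) :
    RatM (fun s => (S.h2g (c s)).1) ∧ RatM (fun s => (S.h2g (c s)).2) :=
  ⟨ratM_const _, S.ratM_hB (S.ratM_u2 hc)
    (ratOn_dd (fun i => hc.1 _) (fun i => hc.2.1 (.inr (.inr i))) fun i => hc.2.2 (.inr (.inr i)))⟩

theorem ratM_h2 (hc : Curve c) :
    RatM (fun s => (S.h2 (c s)).1) ∧ RatM (fun s => (S.h2 (c s)).2) :=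
  ⟨((S.ratM_gG hc).2.mul (S.ratM_h2g hc).1).mul (S.ratM_gG hc).1,
    ((S.ratM_gG hc).2.mul (S.ratM_h2g hc).2).mul (S.ratM_gG hc).1⟩

theorem ratOn_sev (hc : Curve c) (v : Var 2 s n) : RatOn fun t => sev (S.st (c t)) v := by
  rcases v with ⟨i, b, r, k⟩ | ⟨j, r, k⟩
  · fin_cases i <;> cases b
    · exact (S.ratM_h1 hc).1 r k
    · exact (S.ratM_h1 hc).2 r k
    · exact (S.ratM_h2 hc).1 r k
    · exact (S.ratM_h2 hc).2 r k
  · exact ratOn_const _

/-! ### integrality -/

/-- The ring hypotheses. -/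
structure Units' (R : Subring ℂ) (ε : ℂ) : Prop where
  hJ : ∀ j, IntM R (S.J j)
  hlu : ∀ v, ∃ z : ℤ, S.lu v = z
  hdR : ∀ i, S.d i ∈ R ∧ (S.d i)⁻¹ ∈ R
  hdiff : ∀ i j, (S.d i - S.d j)⁻¹ ∈ R
  hε : ε ∈ R ∧ ε⁻¹ ∈ R
  hεinf : (Set.range fun k : ℕ => ε ^ k).Infinite
  hε0 : ε ≠ 0

theorem intM_grid {R : Subring ℂ} {ε : ℂ} (hS : S.Units' R ε) {x : SeedPar n → ℂ}
    (hx : ∀ v, x v ∈ Sum.elim (fun _ => Set.range fun z : ℤ => (z : ℂ))
      (fun _ => Set.range fun k : ℕ => ε ^ k) v) :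
    IntSt R (S.st x) := by
  have hxW : ∀ v, x v ∈ box v := fun v => by
    rcases v with v | v
    · trivial
    · obtain ⟨k, hk⟩ := hx (.inr v)
      show x _ ≠ 0
      rw [← hk]; exact pow_ne_zero _ hS.hε0
  have ht : ∀ (f : Fin n → Fin n ⊕ Fin n) (i : Fin n), x (.inr (f i)) ∈ R ∧ (x (.inr (f i)))⁻¹ ∈ R :=
    fun f i => by
      obtain ⟨k, hk⟩ := hx (.inr (f i))
      rw [← hk]
      exact ⟨pow_mem hS.hε.1 k, by rw [← inv_pow]; exact pow_mem hS.hε.2 k⟩
  have hl : InR R (lP S.lu) := fun i j => by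
    simp only [lP, Matrix.of_apply]
    obtain ⟨z, hz⟩ := hS.hlu (i, j)
    rw [hz]
    split_ifs
    exacts [one_mem R, intCast_mem R z, one_mem R, zero_mem R]
  have hl1d : (lP S.lu).det = 1 := det_one_of_lo (loU_lP _).1 (loU_lP _).2
  have hpJ : InR R (List.ofFn S.J).prod := intM_list_prod fun A hA => by
    obtain ⟨k, rfl⟩ := List.mem_ofFn.1 hA
    exact hS.hJ k
  have hK : InR R S.K := hpJ.adjugate
  have hκ' : ∀ a, (S.κ a)⁻¹ ∈ R := fun a => by
    have hinv := hK.inv S.det_K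
    have h2 := (tri_inv Function.injective_id S.up_K (by rw [S.det_K]; exact one_ne_zero)).2 a
    exact h2 ▸ hinv a a
  have hκ : ∀ a, S.κ a ∈ R := fun a => hK a a
  have hm : ∀ k, mPre S.κ k ∈ R := fun k => by
    rw [mPre, ← Finset.prod_inv_distrib]; exact prod_mem fun a _ => hκ' a
  have hm' : ∀ k, (mPre S.κ k)⁻¹ ∈ R := fun k => by
    rw [mPre, inv_inv]; exact prod_mem fun a _ => hκ a
  have hw : ∀ i, wPre S.κ i ∈ R := fun i => sub_mem (hm _) (hm _)
  have hphi : InR R (phi S.κ) := fun i b => by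
    simp only [phi, Matrix.of_apply, div_eq_mul_inv]
    split_ifs
    exacts [mul_mem (hw i) (hm' _), one_mem R, zero_mem R]
  have hdlt : InR R (dlt S.κ) := fun i b => by
    simp only [dlt, Matrix.of_apply, div_eq_mul_inv]
    split_ifs
    exacts [mul_mem (hw i) (hm' _), mul_mem (hm _) (hm' _), zero_mem R]
  have hP : InR R S.pP := fun i j => by
    simp only [pP, pMat, Matrix.of_apply]
    refine add_mem (by split_ifs; exacts [one_mem R, zero_mem R]) ?_
    split_ifs
    · exact sum_mem fun k _ => mul_mem (hl i k) (hw k)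
    · exact zero_mem R
  have hU : InR R (uU x) := fun i j => by
    simp only [uU, Matrix.of_apply]
    obtain ⟨z, hz⟩ := hx (.inl (i, j))
    rw [← hz]
    split_ifs
    exacts [intCast_mem R z, one_mem R, zero_mem R]
  have hz : ∀ {U : Mat n}, InR R U → InR R (S.zOf U) := fun {U} hU' => by
    refine inR_eig ((inR_diagonal fun i => (hS.hdR i).2).mul hU') (fun i => (hS.hdR i).2) fun i j => ?_
    rcases eq_or_ne i j with rfl | hij
    · rw [_root_.sub_self, _root_.inv_zero]; exact zero_mem R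
    · have e1 : dinv S.d i - dinv S.d j = (S.d j - S.d i) / (S.d i * S.d j) := by
        have := S.d_ne i
        have := S.d_ne j
        simp only [dinv]
        field_simp
      rw [e1, inv_div, div_eq_mul_inv]
      exact mul_mem (mul_mem (hS.hdR i).1 (hS.hdR j).1) (hS.hdiff j i)
  have hlam : ∀ {L : Mat n}, InR R L → LoU L → InR R (lam L S.d) := fun {L} hL hLU =>
    (inR_eig (hL.mul (inR_diagonal fun i => (hS.hdR i).1)) (fun i => (hS.hdR i).1) hS.hdiff).inv
      (wMat_spec hLU S.hd).2.1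
  have hl1 : InR R S.l1 := hl.inv hl1d
  have hl2 : InR R S.l2 := hl.mul hphi
  have hu2 : InR R (S.u2 x) :=
    ((hdlt.mul hK).mul (hU.inv (det_one_of_up (upU_uU x).1 (upU_uU x).2))).mul
      (hP.inv (det_one_of_up S.upU_pP.1 S.upU_pP.2))
  have hg : InR R (S.gG x) := hP.mul hU
  have hgi := hg.inv (det_one_of_up (S.upU_gG x).1 (S.upU_gG x).2)
  have hT : ∀ f : Fin n → Fin n ⊕ Fin n, InR R (diagonal (dd fun i => x (.inr (f i)))) := fun f =>
    inR_diagonal fun i => (dd_mem (fun k => (ht f k).1) (fun k => (ht f k).2) i).1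
  have hA1 : InR R (hA S.l1 S.d) := hl1.mul (inR_diagonal fun i => (hS.hdR i).1)
  have hA2 : InR R (hA S.l2 S.d) := hl2.mul (inR_diagonal fun i => (hS.hdR i).1)
  refine intSt_iff.2 ⟨fun i => ?_, fun j => intM_one⟩
  fin_cases i
  · exact ⟨hA1, ((hz hU).mul (hT Sum.inl)).mul (hlam hl1 S.loU_l1)⟩
  · exact ⟨(hgi.mul hA2).mul hg,
      (hgi.mul (((hz hu2).mul (hT Sum.inr)).mul (hlam hl2 S.loU_l2))).mul hg⟩

/-- All seeds are in the closure of the integral representations. -/
theorem zd_st {R : Subring ℂ} {ε : ℂ} (hS : S.Units' R ε) {x : SeedPar n → ℂ} (hx : ∀ v, x v ∈ box v) :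
    Zd R S.J (S.st x) := by
  intro p hp
  refine box_zero (W := box) (F := fun y => MvPolynomial.eval (sev (S.st y)) p) ?_
    (S := fun v => Sum.elim (fun _ => Set.range fun z : ℤ => (z : ℂ))
      (fun _ => Set.range fun k : ℕ => ε ^ k) v) (fun v => ?_) (fun v => ?_) (fun y hy => ?_) hx
  · intro y hy a c₀ h₀ c₁ h₁
    simp only [MvPolynomial.eval_eq]
    exact ratOn_sum _ fun m _ => (ratOn_const _).mul (ratOn_prod _ fun v _ =>
      (S.ratOn_sev (curve_update hy a h₀ h₁) v).pow _)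
  · rcases v with v | v
    · exact Set.subset_univ _
    · rintro _ ⟨k, rfl⟩; exact pow_ne_zero _ hS.hε0
  · rcases v with v | v
    · exact Set.infinite_range_of_injective Int.cast_injective
    · exact hS.hεinf
  · refine hp _ (S.prep_st fun v => ?_) (S.intM_grid hS hy)
    rcases v with v | v
    · trivial
    · obtain ⟨k, hk⟩ := hy (.inr v)
      show y _ ≠ 0
      rw [← hk]; exact pow_ne_zero _ hS.hε0

end SeedData

end P002Punct
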