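import Vale.Agent.P002Punct.SeedFam
import Vale.Agent.P002Punct.G0Fun
import Vale.Agent.P002Punct.Moves
import Vale.Agent.P002Punct.Lines
import Vale.Agent.P002Punct.Units
import Vale.Agent.P002Surf.Generic

/-!
The seed: a generic genus two state in the closure of the integral representations.
-/

namespace P002Punct

open P002Surf Matrix Filter Topology

open scoped Matrix.Norms.Operator

variable {s n : ℕ}

/-! ### general facts -/

theorem genFun_congr {K K' : Mat n} (h : K.charpoly = K'.charpoly) (i : Option (Rel n)) :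
    genFun i K = genFun i K' := by
  have e : cof K = cof K' := funext fun k => by rw [cof, cof, h]
  rw [genFun, genFun, symFun, symFun, e]

theorem genFun_conj {g K : Mat n} (hg : g.det ≠ 0) (i : Option (Rel n)) :
    genFun i (g⁻¹ * K * g) = genFun i K := by
  refine genFun_congr ?_ i
  rw [Matrix.charpoly_mul_comm, Matrix.mul_nonsing_inv_cancel_left _ _ (isUnit_det_of_ne hg)]

theorem diagBy_conj {g B P : Mat n} {μ : Fin n → ℂ} (hg : g.det ≠ 0) (h : DiagBy B P μ) :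
    DiagBy (g⁻¹ * B * g) (g⁻¹ * P) μ := by
  have hu := isUnit_det_of_ne hg
  refine ⟨?_, h.2.1, ?_⟩
  · rw [Matrix.det_mul, Matrix.det_nonsing_inv, Ring.inverse_eq_inv']
    exact mul_ne_zero (inv_ne_zero hg) h.1
  · rw [Matrix.mul_inv_rev, Matrix.nonsing_inv_nonsing_inv _ hu, h.2.2]
    simp only [Matrix.mul_assoc]

theorem g0_conj {g : Mat n} (hg : g.det ≠ 0) {A B : Mat n} (h : G0 (A, B)) :
    G0 (g⁻¹ * A * g, g⁻¹ * B * g) := by
  obtain ⟨P, μ, hP, hT⟩ := h
  have hu := isUnit_det_of_ne hg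
  refine ⟨g⁻¹ * P, μ, diagBy_conj hg hP, ?_⟩
  show Triple ((g⁻¹ * P)⁻¹ * (g⁻¹ * A * g) * (g⁻¹ * P))
  rw [Matrix.mul_inv_rev, Matrix.nonsing_inv_nonsing_inv _ hu]
  simp only [Matrix.mul_assoc, Matrix.mul_nonsing_inv_cancel_left _ _ hu]
  simpa only [Matrix.mul_assoc] using hT

theorem good_conj {g : Mat n} (hg : g.det = 1) {A B : Mat n} (h : Good (A, B)) :
    Good (g⁻¹ * A * g, g⁻¹ * B * g) := by
  obtain ⟨V, μ, hV, hN⟩ := h
  refine ⟨g⁻¹ * V, μ, diagBy_conj (by rw [hg]; exact one_ne_zero) hV, ?_⟩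
  show Nondeg ((g⁻¹ * V).adjugate * (g⁻¹ * B * g) * (g⁻¹ * V))
  have hu : IsUnit g.det := by rw [hg]; exact isUnit_one
  rw [Matrix.adjugate_mul_distrib, inv_eq_adj hg, adj_adj_one hg]
  simp only [Matrix.mul_assoc]
  rw [← Matrix.mul_assoc g g.adjugate, mul_adj_one hg, Matrix.one_mul,
    ← Matrix.mul_assoc g g.adjugate, mul_adj_one hg, Matrix.one_mul]
  simpa only [Matrix.mul_assoc] using hN

theorem minor_lo_up {L U : Mat n} (hL : Lo L) (hU : Up U) (j : Fin n) :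
    minor (L * U) j = (∏ a, L (emb j a) (emb j a)) * ∏ a, U (emb j a) (emb j a) := by
  rw [minor, submatrix_mul_up hU, Matrix.det_mul, det_sub_up hU, det_sub_lo hL]

/-- A torus element making `diag T * (upper * lower)` generic. -/
theorem exists_gen_ul {U L : Mat n} (hU : Up U) (hU0 : ∀ i, U i i ≠ 0) (hL : Lo L)
    (hL0 : ∀ i, L i i ≠ 0) (i : Option (Rel n)) :
    ∃ T : Fin n → ℂ, (∏ k, T k) = 1 ∧ genFun i (diagonal T * (U * L)) ≠ 0 := by
  let r : Fin n ≃ Fin n := Fin.revPerm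
  have hU' : Lo (reindex r r U) := fun a b h => up_zero hU (by
    have h' : a < b := OrderDual.toDual_lt_toDual.1 h
    show Fin.rev b < Fin.rev a
    exact Fin.rev_lt_rev.2 h')
  have hL' : Up (reindex r r L) := fun a b h => lo_zero hL (by
    have h' : b < a := h
    show Fin.rev a < Fin.rev b
    exact Fin.rev_lt_rev.2 h')
  have hM : ∀ j, minor (reindex r r U * reindex r r L) j ≠ 0 := fun j => by
    rw [minor_lo_up hU' hL']
    exact mul_ne_zero (Finset.prod_ne_zero_iff.2 fun a _ => hU0 _)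
      (Finset.prod_ne_zero_iff.2 fun a _ => hL0 _)
  obtain ⟨δ, hδ, hne⟩ := exists_gen_sl hM i
  refine ⟨fun k => δ (r k), (Equiv.prod_comp r δ).trans hδ, ?_⟩
  have e : reindex r r (diagonal (fun k => δ (r k)) * (U * L)) =
      diagonal δ * (reindex r r U * reindex r r L) := by
    have hmul : ∀ X Y : Mat n, reindex r r (X * Y) = reindex r r X * reindex r r Y := fun X Y => by
      simp only [reindex_apply, Matrix.submatrix_mul_equiv]
    rw [hmul, hmul]
    congr 1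
    simp [reindex_apply, Matrix.submatrix_diagonal_equiv, Function.comp_def]
  rwa [← e, genFun_congr (Matrix.charpoly_reindex r _)] at hne

theorem det_conjP {P : Mat n} (hP : P.det ≠ 0) (v : Fin n → ℂ) :
    (P * diagonal v * P⁻¹).det = ∏ i, v i := by
  rw [Matrix.det_mul, Matrix.det_mul, mul_comm P.det, mul_assoc, ← Matrix.det_mul,
    Matrix.mul_nonsing_inv P (isUnit_det_of_ne hP), Matrix.det_one, mul_one, det_diagonal]

theorem commute_conjP {B P : Mat n} {μ : Fin n → ℂ} (h : DiagBy B P μ) (v : Fin n → ℂ) :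
    B * (P * diagonal v * P⁻¹) = P * diagonal v * P⁻¹ * B := by
  have hu := isUnit_det_of_ne h.1
  rw [h.2.2]
  simp only [Matrix.mul_assoc, Matrix.nonsing_inv_mul_cancel_left _ _ hu]
  rw [← Matrix.mul_assoc (diagonal μ), ← Matrix.mul_assoc (diagonal v), diagonal_mul_diagonal,
    diagonal_mul_diagonal]
  simp only [mul_comm]

/-- The test for some twist of the first entry being generic. -/
noncomputable def twTest (i : Option (Rel n)) (p : Polynomial ℂ) (x : Pair n) : ℂ :=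
  (Polynomial.aeval x.2 p).det * genFun i (x.1 * (Polynomial.aeval x.2 p) ^ n)

theorem twTest_witness {A B P : Mat n} {μ : Fin n → ℂ} (hP : DiagBy B P μ)
    (hmin : ∀ j, minor (P⁻¹ * A * P) j ≠ 0) (i : Option (Rel n)) :
    ∃ p, twTest i p (A, B) ≠ 0 := by
  obtain ⟨δ, hδ, hne⟩ := exists_gen_sl hmin i
  have hu := isUnit_det_of_ne hP.1
  set v := P * diagonal δ * P⁻¹ with hv
  obtain ⟨p, hp0, hp⟩ := exists_root hP (Z := v) (by rw [hv, det_conjP hP.1, hδ]) (commute_conjP hP δ)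
  refine ⟨p, mul_ne_zero hp0 ?_⟩
  have hQ : (Polynomial.aeval B p) ^ n = (Polynomial.aeval B p).det • v := by
    rw [← hp, zN, smul_smul, mul_inv_cancel₀ hp0, one_smul]
  obtain ⟨D, hD⟩ := genFun_smul (n := n) i
  show genFun i (A * (Polynomial.aeval B p) ^ n) ≠ 0
  rw [hQ, Matrix.mul_smul, hD]
  refine mul_ne_zero (pow_ne_zero _ hp0) ?_
  have e : (A * v).charpoly = (diagonal δ * (P⁻¹ * A * P)).charpoly := by
    have e1 : diagonal δ * (P⁻¹ * A * P) = (diagonal δ * P⁻¹ * A) * P := by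
      simp only [Matrix.mul_assoc]
    rw [e1, Matrix.charpoly_mul_comm (diagonal δ * P⁻¹ * A) P, hv, Matrix.charpoly_mul_comm A]
    simp only [Matrix.mul_assoc]
  rwa [genFun_congr e]

theorem ratOn_twTest {A B : ℂ → Mat n} (hA : RatM A) (hB : RatM B) (i : Option (Rel n))
    (p : Polynomial ℂ) : RatOn fun t => twTest i p (A t, B t) := by
  have hpow : ∀ k, RatM fun t => (B t) ^ k := by
    intro k
    induction k with
    | zero => simpa only [pow_zero] using ratM_const (1 : Mat n)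
    | succ k ih => simpa only [pow_succ] using ih.mul hB
  have hae : RatM fun t => Polynomial.aeval (B t) p := fun a b => by
    simp only [Polynomial.aeval_eq_sum_range, Matrix.sum_apply, Matrix.smul_apply, smul_eq_mul]
    exact ratOn_sum _ fun k _ => (ratOn_const _).mul (hpow k a b)
  have hpow' : ∀ k, RatM fun t => (Polynomial.aeval (B t) p) ^ k := by
    intro k
    induction k with
    | zero => simpa only [pow_zero] using ratM_const (1 : Mat n)
    | succ k ih => simpa only [pow_succ] using ih.mul hae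
  exact hae.det.mul (ratOn_genFun (hA.mul (hpow' n)) i)

/-- At a passed test the torus of the second entry makes the first generic. -/
theorem exists_twist_gen {A B P : Mat n} {μ : Fin n → ℂ} (hP : DiagBy B P μ)
    {i : Option (Rel n)} {p : Polynomial ℂ} (h : twTest i p (A, B) ≠ 0) :
    ∃ e : Fin n → ℂ, (∀ k, e k ≠ 0) ∧ genFun i (A * (P * diagonal (dd e) * P⁻¹)) ≠ 0 := by
  obtain ⟨h1, h2⟩ := mul_ne_zero_iff.1 h
  have h1' : (Polynomial.aeval B p).det ≠ 0 := h1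
  obtain ⟨d, hd⟩ := commute_diag hP (commute_zN (Q := Polynomial.aeval B p) (commute_aeval p B)).eq
  have hd1 : ∏ k, d k = 1 := by rw [← det_conjP hP.1, ← hd, det_zN h1']
  obtain ⟨e, he, rfl⟩ := exists_dd hd1
  refine ⟨e, he, ?_⟩
  obtain ⟨D, hD⟩ := genFun_smul (n := n) i
  rw [← hd, zN, Matrix.mul_smul, hD]
  exact mul_ne_zero (pow_ne_zero _ (inv_ne_zero h1')) h2

theorem exists_ne_affine (α β c : ℂ) (hβ : β ≠ 0) : ∃ a : ℂ, α + a * β ≠ c := by
  by_contra h
  push Not at h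
  exact hβ (by linear_combination h 1 - h 0)

theorem dd_one : dd (fun _ : Fin n => (1 : ℂ)) = fun _ => 1 := funext fun _ => by simp [dd]

theorem conj_dd_one {P : Mat n} (hP : P.det ≠ 0) :
    P * diagonal (dd fun _ : Fin n => (1 : ℂ)) * P⁻¹ = 1 := by
  rw [dd_one, diagonal_one, Matrix.mul_one, Matrix.mul_nonsing_inv _ (isUnit_det_of_ne hP)]

/-- Small twists keep a handle generic in both orientations. -/
theorem eventually_twist {A B P : Mat n} (hP : P.det ≠ 0) (f : Fin n → Fin n ⊕ Fin n)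
    (h1 : G0 ((A, B) : Pair n)) (h2 : Good ((A, B) : Pair n)) (h3 : G0 ((B, A) : Pair n)) :
    ∀ᶠ e in 𝓝 (fun _ : Fin n ⊕ Fin n => (1 : ℂ)),
      G0 ((A * (P * diagonal (dd fun k => e (f k)) * P⁻¹), B) : Pair n) ∧
        Good ((A * (P * diagonal (dd fun k => e (f k)) * P⁻¹), B) : Pair n) ∧
        G0 ((B, A * (P * diagonal (dd fun k => e (f k)) * P⁻¹)) : Pair n) := by
  have hd : ContinuousAt (fun e : Fin n ⊕ Fin n → ℂ => dd fun k => e (f k)) (fun _ => 1) :=
    continuousAt_pi.2 fun k => ((continuous_apply (f k)).pow n).continuousAt.div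
      (continuous_finsetProd _ fun l _ => continuous_apply (f l)).continuousAt (by simp)
  have hc : ContinuousAt (fun e : Fin n ⊕ Fin n → ℂ =>
      A * (P * diagonal (dd fun k => e (f k)) * P⁻¹)) (fun _ => 1) :=
    continuousAt_const.mul ((continuousAt_const.mul
      ((continuous_id.matrix_diagonal).continuousAt.comp' hd)).mul continuousAt_const)
  let Op : Set (Pair n) := {y | G0 y ∧ Good y ∧ G0 y.swap}
  have hOp : IsOpen Op := isOpen_G0.inter (isOpen_good.inter (isOpen_G0.preimage continuous_swap))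
  have h0 : ((A * (P * diagonal (dd fun _ : Fin n => (1 : ℂ)) * P⁻¹), B) : Pair n) ∈ Op := by
    rw [conj_dd_one hP, Matrix.mul_one]
    exact ⟨h1, h2, h3⟩
  have hc2 : ContinuousAt (fun e : Fin n ⊕ Fin n → ℂ =>
      ((A * (P * diagonal (dd fun k => e (f k)) * P⁻¹), B) : Pair n)) (fun _ => 1) :=
    hc.prodMk continuousAt_const
  exact hc2.preimage_mem_nhds (hOp.mem_nhds h0)

/-- Twisting both first entries makes two handles generic. -/
theorem exists_twists {A₁ B₁ A₂ B₂ : Mat n} (s₁ : SL1 ((A₁, B₁) : Pair n))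
    (s₂ : SL1 ((A₂, B₂) : Pair n)) (g1 : G0 ((A₁, B₁) : Pair n)) (gd1 : Good ((A₁, B₁) : Pair n))
    (g1' : G0 ((B₁, A₁) : Pair n)) (g2 : G0 ((A₂, B₂) : Pair n)) (gd2 : Good ((A₂, B₂) : Pair n))
    (g2' : G0 ((B₂, A₂) : Pair n)) (i1 : Indep B₁) (i2 : Indep B₂)
    (ht1 : ∀ i, ∃ p, twTest i p ((A₁, B₁) : Pair n) ≠ 0)
    (ht2 : ∀ i, ∃ p, twTest i p ((A₂, B₂) : Pair n) ≠ 0)
    (hmix : ∀ i, genFun i (B₁.adjugate * A₂) ≠ 0) :
    ∃ v₁ v₂ : Mat n, v₁.det = 1 ∧ v₂.det = 1 ∧ B₁ * v₁ = v₁ * B₁ ∧ B₂ * v₂ = v₂ * B₂ ∧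
      (G0 ((A₁ * v₁, B₁) : Pair n) ∧ Good ((A₁ * v₁, B₁) : Pair n) ∧
        G0 ((B₁, A₁ * v₁) : Pair n) ∧ Indep (A₁ * v₁)) ∧
      (G0 ((A₂ * v₂, B₂) : Pair n) ∧ Good ((A₂ * v₂, B₂) : Pair n) ∧
        G0 ((B₂, A₂ * v₂) : Pair n) ∧ Indep (A₂ * v₂)) ∧
      Indep (B₁.adjugate * (A₂ * v₂)) := by
  obtain ⟨P₁, μ₁, hP₁, -⟩ := i1
  obtain ⟨P₂, μ₂, hP₂, -⟩ := i2
  -- the two twists
  let V₁ : (Fin n ⊕ Fin n → ℂ) → Mat n := fun e =>
    P₁ * diagonal (dd fun k => e (.inl k)) * P₁⁻¹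
  let V₂ : (Fin n ⊕ Fin n → ℂ) → Mat n := fun e =>
    P₂ * diagonal (dd fun k => e (.inr k)) * P₂⁻¹
  have hV2 : V₂ (fun _ => 1) = 1 := conj_dd_one hP₂.1
  have hev : ∀ᶠ e in 𝓝 (fun _ : Fin n ⊕ Fin n => (1 : ℂ)),
      (G0 ((A₁ * V₁ e, B₁) : Pair n) ∧ Good ((A₁ * V₁ e, B₁) : Pair n) ∧
          G0 ((B₁, A₁ * V₁ e) : Pair n)) ∧
        (G0 ((A₂ * V₂ e, B₂) : Pair n) ∧ Good ((A₂ * V₂ e, B₂) : Pair n) ∧
          G0 ((B₂, A₂ * V₂ e) : Pair n)) :=
    (eventually_twist hP₁.1 Sum.inl g1 gd1 g1').and (eventually_twist hP₂.1 Sum.inr g2 gd2 g2')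
  obtain ⟨O, hO, hOo, hO1⟩ := eventually_nhds_iff.1 hev
  let G : Option (Rel n) ⊕ Option (Rel n) ⊕ Option (Rel n) → (Fin n ⊕ Fin n → ℂ) → ℂ := fun k e =>
    match k with
    | .inl i => genFun i (A₁ * V₁ e)
    | .inr (.inl i) => genFun i (A₂ * V₂ e)
    | .inr (.inr i) => genFun i (B₁.adjugate * (A₂ * V₂ e))
  have hG : ∀ k, RatBox (fun _ => {z : ℂ | z ≠ 0}) (G k) := by
    rintro k y hy a c₀ h₀ c₁ h₁
    have hu : ∀ v, RatOn fun t => Function.update y a ((1 - t) * c₀ + t * c₁) v := fun v => by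
      rcases eq_or_ne v a with rfl | hv
      · simp only [Function.update_self]
        exact (((ratOn_const 1).sub ratOn_id).mul (ratOn_const c₀)).add (ratOn_id.mul (ratOn_const c₁))
      · simp only [Function.update_of_ne hv]; exact ratOn_const _
    have hV : ∀ (f : Fin n → Fin n ⊕ Fin n) (P : Mat n), RatM fun t =>
        P * diagonal (dd fun k => Function.update y a ((1 - t) * c₀ + t * c₁) (f k)) * P⁻¹ := by
      intro f P
      refine ((ratM_const _).mul (ratM_diagonal (ratOn_dd (fun k => hu (f k)) (fun k => ?_) fun k => ?_))).mul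
        (ratM_const _)
      · rcases eq_or_ne (f k) a with h | h
        · rw [h, Function.update_self]; simpa using (h₀ : c₀ ≠ 0)
        · rw [Function.update_of_ne h]; exact hy _
      · rcases eq_or_ne (f k) a with h | h
        · rw [h, Function.update_self]; simpa using (h₁ : c₁ ≠ 0)
        · rw [Function.update_of_ne h]; exact hy _
    rcases k with i | i | i
    · exact ratOn_genFun ((ratM_const _).mul (hV Sum.inl P₁)) i
    · exact ratOn_genFun ((ratM_const _).mul (hV Sum.inr P₂)) i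
    · exact ratOn_genFun ((ratM_const _).mul ((ratM_const _).mul (hV Sum.inr P₂))) i
  have hwit2 : ∀ k, ∃ e, (∀ v, e v ∈ (fun _ : Fin n ⊕ Fin n => {z : ℂ | z ≠ 0}) v) ∧ G k e ≠ 0 := by
    rintro (i | i | i)
    · obtain ⟨p, hp⟩ := ht1 i
      obtain ⟨e, he, h⟩ := exists_twist_gen hP₁ hp
      refine ⟨Sum.elim e fun _ => 1, fun v => by rcases v with v | v; exacts [he v, one_ne_zero], ?_⟩
      dsimp only [G]
      simpa only [V₁, Sum.elim_inl] using h
    · obtain ⟨p, hp⟩ := ht2 i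
      obtain ⟨e, he, h⟩ := exists_twist_gen hP₂ hp
      refine ⟨Sum.elim (fun _ => 1) e, fun v => by rcases v with v | v; exacts [one_ne_zero, he v], ?_⟩
      dsimp only [G]
      simpa only [V₂, Sum.elim_inr] using h
    · refine ⟨fun _ => 1, fun _ => one_ne_zero, ?_⟩
      dsimp only [G]
      rw [hV2, Matrix.mul_one]
      exact hmix i
  obtain ⟨e, heO, he0, hge⟩ := box_generic hG (fun _ => isOpen_ne) hwit2 hOo hO1
    (fun _ => one_ne_zero)
  obtain ⟨hm1, hm2⟩ := hO e heO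
  have hv1 : (V₁ e).det = 1 := by
    rw [det_conjP hP₁.1]; exact prod_dd fun k => he0 (.inl k)
  have hv2 : (V₂ e).det = 1 := by
    rw [det_conjP hP₂.1]; exact prod_dd fun k => he0 (.inr k)
  have hc1 : B₁ * V₁ e = V₁ e * B₁ := commute_conjP hP₁ _
  have hc2 : B₂ * V₂ e = V₂ e * B₂ := commute_conjP hP₂ _
  refine ⟨V₁ e, V₂ e, hv1, hv2, hc1, hc2, ⟨hm1.1, hm1.2.1, hm1.2.2, ?_⟩,
    ⟨hm2.1, hm2.2.1, hm2.2.2, ?_⟩, ?_⟩
  · exact Gen.indep (fun i => hge (.inl i)) (by rw [Matrix.det_mul, s₁.1, hv1, one_mul])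
  · exact Gen.indep (fun i => hge (.inr (.inl i))) (by rw [Matrix.det_mul, s₂.1, hv2, one_mul])
  · exact Gen.indep (fun i => hge (.inr (.inr i)))
      (by rw [Matrix.det_mul, Matrix.det_mul, det_adj_one s₁.2, s₂.1, hv2, one_mul, one_mul])

/-! ### the family -/

namespace SeedData

variable (S : SeedData s n)

theorem zOf_uCom {Z : Mat n} (hZ : UpU Z) : UpU (uCom S.d Z) ∧ S.zOf (uCom S.d Z) = Z := by
  have hZd : Z.det = 1 := det_one_of_up hZ.1 hZ.2
  have hUc : UpU (uCom S.d Z) := by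
    refine ⟨(((blockTriangular_diagonal _).mul hZ.1).mul (blockTriangular_diagonal _)).mul
      (upU_inv hZ).1, fun i => ?_⟩
    rw [uCom, tri_mul_diag Function.injective_id
      (((blockTriangular_diagonal _).mul hZ.1).mul (blockTriangular_diagonal _)) (upU_inv hZ).1,
      Matrix.mul_diagonal, Matrix.diagonal_mul, (upU_inv hZ).2, hZ.2, mul_one, mul_one]
    exact mul_inv_cancel₀ (S.d_ne i)
  refine ⟨hUc, ?_⟩
  have hup : Up (diagonal (dinv S.d) * uCom S.d Z) := (blockTriangular_diagonal _).mul hUc.1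
  have hdiag : ∀ i, (diagonal (dinv S.d) * uCom S.d Z) i i = dinv S.d i := fun i => by
    rw [Matrix.diagonal_mul, hUc.2, mul_one]
  obtain ⟨-, h2, h3⟩ := eig_spec Function.injective_id hup hdiag (dinv_injective S.hd)
    (by rw [charpoly_of_isUpperTriangular _ hup]; simp only [hdiag])
  refine eig_unique (dinv_injective S.hd) (by rw [hZd]; exact one_ne_zero) h3 ?_ h2 hZ.2
  rw [uCom, ← Matrix.mul_assoc, ← Matrix.mul_assoc, ← Matrix.mul_assoc, diagonal_mul_diagonal,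
    show (fun i => dinv S.d i * S.d i) = fun _ => (1 : ℂ) from
      funext fun i => inv_mul_cancel₀ (S.d_ne i), diagonal_one, Matrix.one_mul,
    Matrix.nonsing_inv_mul_cancel_right _ _ (by rw [hZd]; exact isUnit_one)]

/-- Parameters with prescribed matrix and tori. -/
theorem exists_param {U : Mat n} (hU : UpU U) {T₁ T₂ : Fin n → ℂ} (h₁ : ∏ i, T₁ i = 1)
    (h₂ : ∏ i, T₂ i = 1) :
    ∃ x : SeedPar n → ℂ, (∀ v, x v ∈ box v) ∧ uU x = U ∧ t1 x = T₁ ∧ t2 x = T₂ := by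
  obtain ⟨e₁, he₁, rfl⟩ := exists_dd h₁
  obtain ⟨e₂, he₂, rfl⟩ := exists_dd h₂
  refine ⟨Sum.elim (fun p => U p.1 p.2) (Sum.elim e₁ e₂), fun v => ?_, ?_, rfl, rfl⟩
  · rcases v with v | v | v
    exacts [trivial, he₁ v, he₂ v]
  · ext i j
    simp only [uU, Matrix.of_apply, Sum.elim_inl]
    rcases lt_trichotomy i j with h | rfl | h
    · rw [if_pos h]
    · rw [if_neg (lt_irrefl _), if_pos rfl, hU.2]
    · rw [if_neg h.not_gt, if_neg h.ne', up_zero hU.1 h]

theorem u2_at {U₂ : Mat n} (hU : UpU U₂) :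
    ∃ U : Mat n, UpU U ∧ ∀ x : SeedPar n → ℂ, uU x = U → S.u2 x = U₂ := by
  refine ⟨S.pP⁻¹ * U₂⁻¹ * S.vV,
    upU_mul (upU_mul (upU_inv S.upU_pP) (upU_inv hU)) S.upU_vV, fun x hx => ?_⟩
  have h1 : IsUnit S.vV.det := by rw [det_one_of_up S.upU_vV.1 S.upU_vV.2]; exact isUnit_one
  have h2 : IsUnit S.pP.det := by rw [det_one_of_up S.upU_pP.1 S.upU_pP.2]; exact isUnit_one
  have h3 : IsUnit U₂.det := by rw [det_one_of_up hU.1 hU.2]; exact isUnit_one
  rw [u2, hx]
  simp only [Matrix.mul_inv_rev, Matrix.nonsing_inv_nonsing_inv _ h2,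
    Matrix.nonsing_inv_nonsing_inv _ h3, Matrix.mul_assoc,
    Matrix.mul_nonsing_inv_cancel_left _ _ h1, Matrix.mul_nonsing_inv _ h2, Matrix.mul_one]

theorem det_gG (x : SeedPar n → ℂ) : (S.gG x).det = 1 := det_one_of_up (S.upU_gG x).1 (S.upU_gG x).2

theorem gen_handle {L : Mat n} (hL : LoU L) (i : Option (Rel n)) {Z : Mat n} (hZ : UpU Z) :
    ∃ T : Fin n → ℂ, (∏ k, T k) = 1 ∧ genFun i (hB L S.d Z T) ≠ 0 := by
  have hl := (wMat_spec hL S.hd).2.2.1
  obtain ⟨T, hT, hne⟩ := exists_gen_sl (M := lam L S.d * Z) (fun j => by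
    rw [minor_lo_up hl.1 hZ.1]
    simp [hl.2, hZ.2]) i
  refine ⟨T, hT, ?_⟩
  rwa [hB, Matrix.mul_assoc, genFun_congr (Matrix.charpoly_mul_comm Z _), Matrix.mul_assoc]

/-- The product of the first boundary classes. -/
def pre (j : Fin s) : Mat n := ((List.ofFn S.J).take ((j : ℕ) + 1)).prod

theorem up_pre (j : Fin s) : Up (S.pre j) ∧ (S.pre j).det = 1 := by
  refine ⟨up_list_prod fun M hM => ?_, det_list_prod fun M hM => ?_⟩ <;>
    obtain ⟨k, rfl⟩ := List.mem_ofFn.1 (List.mem_of_mem_take hM)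
  exacts [S.hJup k, S.hJd k]

theorem bdPre_st (x : SeedPar n → ℂ) (j : Fin s) : bdPre S.J (S.st x) j = S.pre j := by
  simp [bdPre, bdList, bd, st, pre]

/-- The index of the conditions. -/
abbrev Cnd (s n : ℕ) := Fin 6 ⊕ (Fin 5 × Option (Rel n)) ⊕ (Fin s × Option (Rel n)) ⊕ Fin s

/-- The conditions, for given twist polynomials. -/
noncomputable def cnd (p : Bool → Option (Rel n) → Polynomial ℂ) : Cnd s n → (SeedPar n → ℂ) → ℂ
  | .inl q => fun x => ![g0Fun (S.h1 x), g0Fun (S.h1 x).swap, g0Fun (S.h2 x), g0Fun (S.h2 x).swap,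
      (S.l1 * uU x).adjugate.trace - n, ((uU x)⁻¹ * lP S.lu * S.K).adjugate.trace - n] q
  | .inr (.inl (q, i)) => fun x => ![genFun i (S.h1 x).2, genFun i (S.h2 x).2,
      genFun i ((S.h1 x).2.adjugate * (S.h2 x).1), twTest i (p false i) (S.h1 x),
      twTest i (p true i) (S.h2 x)] q
  | .inr (.inr (.inl (j, i))) => fun x => genFun i ((S.h2 x).2.adjugate * S.pre j)
  | .inr (.inr (.inr j)) => fun x =>
      ((S.pre j).adjugate * ((uU x)⁻¹ * lP S.lu * S.K).adjugate).trace - (S.pre j).adjugate.trace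

theorem ratM_trace {F : ℂ → Mat n} (hF : RatM F) : RatOn fun t => (F t).trace := by
  simp only [Matrix.trace, Matrix.diag]
  exact ratOn_sum _ fun i _ => hF i i

theorem ratBox_cnd (p : Bool → Option (Rel n) → Polynomial ℂ) (k : Cnd s n) :
    RatBox box (S.cnd p k) := by
  intro y hy a c₀ h₀ c₁ h₁
  have hc := curve_update hy a h₀ h₁
  obtain ⟨a1, b1⟩ := S.ratM_h1 hc
  obtain ⟨a2, b2⟩ := S.ratM_h2 hc
  have hU := ratM_uU hc
  have hC2 := (((hU.inv (det_uU_ne _) (det_uU_ne _)).mul (ratM_const (lP S.lu))).mul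
    (ratM_const S.K)).adjugate
  rcases k with q | ⟨q, i⟩ | ⟨j, i⟩ | j
  · fin_cases q
    · exact ratOn_g0Fun a1 b1
    · exact ratOn_g0Fun b1 a1
    · exact ratOn_g0Fun a2 b2
    · exact ratOn_g0Fun b2 a2
    · exact (ratM_trace ((ratM_const S.l1).mul hU).adjugate).sub (ratOn_const _)
    · exact (ratM_trace hC2).sub (ratOn_const _)
  · fin_cases q
    · exact ratOn_genFun b1 i
    · exact ratOn_genFun b2 i
    · exact ratOn_genFun (b1.adjugate.mul a2) i
    · exact ratOn_twTest a1 b1 i _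
    · exact ratOn_twTest a2 b2 i _
  · exact ratOn_genFun (b2.adjugate.mul (ratM_const _)) i
  · exact (ratM_trace ((ratM_const _).mul hC2)).sub (ratOn_const _)

/-- The hypotheses on `L'`. -/
def Fulls : Prop := ∀ q, Full (lowFour S.κ S.d S.lu q)

theorem trace_witness (hn : 2 ≤ n) (hF : S.Fulls) {Y : Mat n} (hY : Up Y) (hYd : Y.det ≠ 0) (c : ℂ) :
    ∃ U, UpU U ∧ (Y * (S.l1 * U)).trace ≠ c := by
  let o : Fin n := ⟨0, by omega⟩
  let ν : Fin n := ⟨n - 1, by omega⟩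
  have hoν : o < ν := show 0 < n - 1 by omega
  have hco : (Y * S.l1) ν o ≠ 0 := by
    rw [Matrix.mul_apply, Finset.sum_eq_single ν (fun k _ hk => ?_) (by simp)]
    · rw [det_of_isUpperTriangular hY, Finset.prod_ne_zero_iff] at hYd
      exact mul_ne_zero (hYd ν (Finset.mem_univ _)) (hF 0 ν o hoν)
    · have : (k : ℕ) < n - 1 := by
        have h1 := k.isLt
        have : (k : ℕ) ≠ n - 1 := fun e => hk (Fin.ext e)
        omega
      rw [up_zero hY (show k < ν from this), zero_mul]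
  obtain ⟨a, ha⟩ := exists_ne_affine (Y * S.l1).trace ((Y * S.l1) ν o) c hco
  refine ⟨transvection o ν a, ⟨?_, fun i => ?_⟩, ?_⟩
  · exact blockTriangular_transvection (b := id) hoν.le a
  · rw [transvection, Matrix.add_apply, one_apply_eq, Matrix.single_apply,
      if_neg fun h => hoν.ne (h.1.trans h.2.symm), add_zero]
  · rwa [← Matrix.mul_assoc, transvection, Matrix.mul_add, Matrix.mul_one, Matrix.trace_add,
      Matrix.trace_mul_single, op_smul_eq_smul, smul_eq_mul]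

theorem adj_cm2 (x : SeedPar n → ℂ) :
    ((uU x)⁻¹ * lP S.lu * S.K).adjugate = S.K.adjugate * (S.l1 * uU x) := by
  have hU : (uU x).det = 1 := det_one_of_up (upU_uU x).1 (upU_uU x).2
  have hL : (lP S.lu).det = 1 := det_one_of_lo (loU_lP _).1 (loU_lP _).2
  rw [Matrix.adjugate_mul_distrib, Matrix.adjugate_mul_distrib, l1, inv_eq_adj hU, inv_eq_adj hL,
    adj_adj_one hU]

theorem one_prod : ∏ _i : Fin n, (1 : ℂ) = 1 := Finset.prod_const_one

theorem exists_witness (hn : 2 ≤ n) (hF : S.Fulls) :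
    ∃ p, ∀ k : Cnd s n, ∃ x, (∀ v, x v ∈ box v) ∧ S.cnd p k x ≠ 0 := by
  have hn0 : 0 < n := by omega
  obtain ⟨Z₁, T₁, P₁, μ₁, hZ₁, hT₁, hP₁, hT3₁, hm₁⟩ :=
    exists_g0 hn0 S.loU_l1 (hF 0) S.hd S.d_ne
  obtain ⟨Z₂, T₂, P₂, μ₂, hZ₂, hT₂, hP₂, hT3₂, hm₂⟩ :=
    exists_g0 hn0 S.loU_l2 (hF 1) S.hd S.d_ne
  obtain ⟨xa, hxa, hxaU, hxa1, -⟩ := exists_param (S.zOf_uCom hZ₁).1 hT₁ one_prod
  have ea : S.h1 xa = (hA S.l1 S.d, hB S.l1 S.d Z₁ T₁) := by
    rw [h1, hxaU, hxa1, (S.zOf_uCom hZ₁).2]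
  obtain ⟨U₂, hU₂, hU₂'⟩ := S.u2_at (S.zOf_uCom hZ₂).1
  obtain ⟨xb, hxb, hxbU, -, hxb2⟩ := exists_param hU₂ one_prod hT₂
  have eb : S.h2g xb = (hA S.l2 S.d, hB S.l2 S.d Z₂ T₂) := by
    rw [h2g, hU₂' xb hxbU, hxb2, (S.zOf_uCom hZ₂).2]
  have hg : (S.gG xb).det ≠ 0 := by rw [S.det_gG]; exact one_ne_zero
  have eb' : S.h2 xb = ((S.gG xb)⁻¹ * hA S.l2 S.d * S.gG xb,
      (S.gG xb)⁻¹ * hB S.l2 S.d Z₂ T₂ * S.gG xb) := by rw [h2, eb]
  have g1 : G0 (S.h1 xa) := by rw [ea]; exact ⟨P₁, μ₁, hP₁, hT3₁⟩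
  have g2 : G0 (S.h2 xb) := by rw [eb']; exact g0_conj hg ⟨P₂, μ₂, hP₂, hT3₂⟩
  have hp1 : ∀ i, ∃ p, twTest i p (S.h1 xa) ≠ 0 := fun i => by
    rw [ea]; exact twTest_witness hP₁ hm₁ i
  have hp2 : ∀ i, ∃ p, twTest i p (S.h2 xb) ≠ 0 := fun i => by
    rw [eb']
    refine twTest_witness (diagBy_conj hg hP₂) (fun j => ?_) i
    have e : ((S.gG xb)⁻¹ * P₂)⁻¹ * ((S.gG xb)⁻¹ * hA S.l2 S.d * S.gG xb) * ((S.gG xb)⁻¹ * P₂) =
        P₂⁻¹ * hA S.l2 S.d * P₂ := by
      rw [Matrix.mul_inv_rev, Matrix.nonsing_inv_nonsing_inv _ (isUnit_det_of_ne hg)]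
      simp only [Matrix.mul_assoc, Matrix.mul_nonsing_inv_cancel_left _ _ (isUnit_det_of_ne hg)]
    rw [e]; exact hm₂ j
  choose p₁ hp₁ using hp1
  choose p₂ hp₂ using hp2
  refine ⟨fun b => cond b p₂ p₁, fun k => ?_⟩
  -- the swapped witnesses
  obtain ⟨Z₃, hZ₃, hT3₃⟩ := exists_triple_swap (wMat_spec S.loU_l1 S.hd).2.2.1 (hF 2)
  obtain ⟨Z₄, hZ₄, hT3₄⟩ := exists_triple_swap (wMat_spec S.loU_l2 S.hd).2.2.1 (hF 3)
  have hup1 : UpU (1 : Mat n) := ⟨blockTriangular_one, fun _ => one_apply_eq _⟩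
  rcases k with q | ⟨q, i⟩ | ⟨j, i⟩ | j
  · fin_cases q
    · exact ⟨xa, hxa, g0Fun_ne g1⟩
    · obtain ⟨x, hx, hxU, hx1, -⟩ := exists_param (S.zOf_uCom hZ₃).1 one_prod one_prod
      refine ⟨x, hx, g0Fun_ne ?_⟩
      show G0 (S.h1 x).swap
      rw [h1, hxU, (S.zOf_uCom hZ₃).2]
      exact g0_swap S.loU_l1 S.hd hT3₃ fun i => by rw [hx1]; exact one_ne_zero
    · exact ⟨xb, hxb, g0Fun_ne g2⟩
    · obtain ⟨U, hU, hU'⟩ := S.u2_at (S.zOf_uCom hZ₄).1
      obtain ⟨x, hx, hxU, -, hx2⟩ := exists_param hU one_prod one_prod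
      refine ⟨x, hx, g0Fun_ne ?_⟩
      show G0 (S.h2 x).swap
      rw [h2, h2g, hU' x hxU, (S.zOf_uCom hZ₄).2]
      exact g0_conj (A := hB S.l2 S.d Z₄ (t2 x)) (B := hA S.l2 S.d)
        (by rw [S.det_gG]; exact one_ne_zero)
        (g0_swap S.loU_l2 S.hd hT3₄ fun i => by rw [hx2]; exact one_ne_zero)
    · obtain ⟨U, hU, hne⟩ : ∃ U : Mat n, UpU U ∧ (S.l1 * U).adjugate.trace ≠ (n : ℂ) := by
        let o : Fin n := ⟨0, by omega⟩
        let ν : Fin n := ⟨n - 1, by omega⟩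
        have hoν : o < ν := show 0 < n - 1 by omega
        refine ⟨transvection o ν 1, ⟨blockTriangular_transvection (b := id) hoν.le 1, fun i => ?_⟩, ?_⟩
        · rw [transvection, Matrix.add_apply, one_apply_eq, Matrix.single_apply,
            if_neg fun h => hoν.ne (h.1.trans h.2.symm), add_zero]
        · have hd : (transvection o ν (1 : ℂ)).det = 1 := det_transvection_of_ne _ _ hoν.ne _
          have hi : (transvection o ν (1 : ℂ))⁻¹ = transvection o ν (-1) := by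
            refine Matrix.inv_eq_right_inv ?_
            rw [transvection_mul_transvection_same _ _ hoν.ne, add_neg_cancel, transvection_zero]
          have hL : (lP S.lu).det = 1 := det_one_of_lo (loU_lP _).1 (loU_lP _).2
          have htr : (lP S.lu).trace = n := by simp [Matrix.trace, (loU_lP S.lu).2]
          rw [Matrix.adjugate_mul_distrib, l1, inv_eq_adj hL, adj_adj_one hL, ← inv_eq_adj hd, hi,
            transvection, Matrix.add_mul, Matrix.one_mul, Matrix.trace_add, Matrix.trace_single_mul, htr,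
            lP_last S.lu (show (ν : ℕ) + 1 = n by show n - 1 + 1 = n; omega) o]
          simp
      obtain ⟨x, hx, hxU, -, -⟩ := exists_param hU one_prod one_prod
      refine ⟨x, hx, ?_⟩
      show (S.l1 * uU x).adjugate.trace - n ≠ 0
      rw [hxU]; exact sub_ne_zero.2 hne
    · obtain ⟨U, hU, hne⟩ := S.trace_witness hn hF (Y := S.K.adjugate)
        (by
          have := (tri_inv Function.injective_id S.up_K (by rw [S.det_K]; exact one_ne_zero)).1
          rwa [inv_eq_adj S.det_K] at this)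
        (by rw [det_adj_one S.det_K]; exact one_ne_zero) n
      obtain ⟨x, hx, hxU, -, -⟩ := exists_param hU one_prod one_prod
      refine ⟨x, hx, ?_⟩
      show ((uU x)⁻¹ * lP S.lu * S.K).adjugate.trace - n ≠ 0
      rw [S.adj_cm2, hxU]; exact sub_ne_zero.2 hne
  · fin_cases q
    · obtain ⟨T, hT, hne⟩ := S.gen_handle S.loU_l1 i hZ₁
      obtain ⟨x, hx, hxU, hx1, -⟩ := exists_param (S.zOf_uCom hZ₁).1 hT one_prod
      refine ⟨x, hx, ?_⟩
      show genFun i (S.h1 x).2 ≠ 0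
      rw [h1, hxU, hx1, (S.zOf_uCom hZ₁).2]; exact hne
    · obtain ⟨T, hT, hne⟩ := S.gen_handle S.loU_l2 i hZ₂
      obtain ⟨x, hx, hxU, -, hx2⟩ := exists_param hU₂ one_prod hT
      refine ⟨x, hx, ?_⟩
      show genFun i (S.h2 x).2 ≠ 0
      rw [h2, h2g, hU₂' x hxU, hx2, (S.zOf_uCom hZ₂).2, genFun_conj (by rw [S.det_gG]; exact one_ne_zero)]
      exact hne
    · -- mixing key: gauge one
      set U := S.pP⁻¹ with hUdef
      have hU : UpU U := upU_inv S.upU_pP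
      obtain ⟨hZ, -⟩ := S.zOf_spec hU
      obtain ⟨hW, hWd, -⟩ := wMat_spec S.loU_l1 S.hd
      obtain ⟨T, hT, hne⟩ := exists_gen_ul (upU_inv hZ).1
        (fun k => by rw [(upU_inv hZ).2]; exact one_ne_zero)
        (((S.loU_l2.1.mul (blockTriangular_diagonal S.d)).mul hW.1))
        (fun k => by
          rw [tri_mul_diag OrderDual.toDual.injective (S.loU_l2.1.mul (blockTriangular_diagonal S.d))
            hW.1, Matrix.mul_diagonal, S.loU_l2.2, hW.2, one_mul, mul_one]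
          exact S.d_ne k) i
      have hT' : ∏ k, (T k)⁻¹ = 1 := by rw [Finset.prod_inv_distrib, hT, inv_one]
      obtain ⟨x, hx, hxU, hx1, -⟩ := exists_param hU hT' one_prod
      refine ⟨x, hx, ?_⟩
      show genFun i ((S.h1 x).2.adjugate * (S.h2 x).1) ≠ 0
      have hgx : S.gG x = 1 := by
        rw [gG, hxU, hUdef, Matrix.mul_nonsing_inv]
        rw [det_one_of_up S.upU_pP.1 S.upU_pP.2]; exact isUnit_one
      have hB1 : (S.h1 x).2.adjugate =
          wMat S.l1 S.d * (diagonal T * (S.zOf U)⁻¹) := by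
        rw [← inv_eq_adj (S.sl_h1 hx).2, h1, hxU, hx1]
        show (hB S.l1 S.d (S.zOf U) fun k => (T k)⁻¹)⁻¹ = _
        refine Matrix.inv_eq_right_inv ?_
        have hT0 : ∀ k, T k ≠ 0 := fun k h => zero_ne_one
          ((Finset.prod_eq_zero (Finset.mem_univ k) h).symm.trans hT)
        rw [hB, lam]
        simp only [Matrix.mul_assoc]
        rw [Matrix.nonsing_inv_mul_cancel_left _ _ (by rw [hWd]; exact isUnit_one),
          ← Matrix.mul_assoc (diagonal _) (diagonal T), diagonal_mul_diagonal,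
          show (fun k => (T k)⁻¹ * T k) = fun _ => (1 : ℂ) from funext fun k => inv_mul_cancel₀ (hT0 k),
          diagonal_one, Matrix.one_mul, Matrix.mul_nonsing_inv]
        rw [det_one_of_up hZ.1 hZ.2]; exact isUnit_one
      have hA2 : (S.h2 x).1 = hA S.l2 S.d := by simp [h2, h2g, hgx]
      rw [hB1, hA2, Matrix.mul_assoc, genFun_congr (Matrix.charpoly_mul_comm (wMat S.l1 S.d) _)]
      simpa only [Matrix.mul_assoc, hA] using hne
    · exact ⟨xa, hxa, hp₁ i⟩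
    · exact ⟨xb, hxb, hp₂ i⟩
  · -- boundary key
    set U := S.pP⁻¹ with hUdef
    have hU : UpU U := upU_inv S.upU_pP
    have hU2 : ∀ x : SeedPar n → ℂ, uU x = U → S.u2 x = S.vV * U⁻¹ * S.pP⁻¹ := fun x hx => by rw [u2, hx]
    have hu2U : UpU (S.vV * U⁻¹ * S.pP⁻¹) :=
      upU_mul (upU_mul S.upU_vV (upU_inv hU)) (upU_inv S.upU_pP)
    obtain ⟨hZ, -⟩ := S.zOf_spec hu2U
    obtain ⟨hW, hWd, -⟩ := wMat_spec S.loU_l2 S.hd
    obtain ⟨hPu, hPd⟩ := S.up_pre j
    have hP0 : ∀ k, S.pre j k k ≠ 0 := fun k => by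
      rw [det_of_isUpperTriangular hPu] at hPd
      exact fun h => zero_ne_one
        ((Finset.prod_eq_zero (f := fun i => S.pre j i i) (Finset.mem_univ k) h).symm.trans hPd)
    obtain ⟨T, hT, hne⟩ := exists_gen_ul ((upU_inv hZ).1.mul hPu)
      (fun k => by
        rw [tri_mul_diag Function.injective_id (upU_inv hZ).1 hPu, (upU_inv hZ).2, one_mul]
        exact hP0 k) hW.1 (fun k => by rw [hW.2]; exact one_ne_zero) i
    have hT' : ∏ k, (T k)⁻¹ = 1 := by rw [Finset.prod_inv_distrib, hT, inv_one]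
    obtain ⟨x, hx, hxU, -, hx2⟩ := exists_param hU one_prod hT'
    refine ⟨x, hx, ?_⟩
    show genFun i ((S.h2 x).2.adjugate * S.pre j) ≠ 0
    have hgx : S.gG x = 1 := by
      rw [gG, hxU, hUdef, Matrix.mul_nonsing_inv]
      rw [det_one_of_up S.upU_pP.1 S.upU_pP.2]; exact isUnit_one
    have hB2 : (S.h2 x).2.adjugate =
        wMat S.l2 S.d * (diagonal T * (S.zOf (S.vV * U⁻¹ * S.pP⁻¹))⁻¹) := by
      have e : (S.h2 x).2 = (S.h2g x).2 := by simp [h2, hgx]
      rw [e, ← inv_eq_adj (S.sl_h2g hx).2, h2g, hU2 x hxU, hx2]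
      show (hB S.l2 S.d (S.zOf _) fun k => (T k)⁻¹)⁻¹ = _
      generalize S.zOf (S.vV * U⁻¹ * S.pP⁻¹) = Zb at hZ ⊢
      refine Matrix.inv_eq_right_inv ?_
      have hT0 : ∀ k, T k ≠ 0 := fun k h => zero_ne_one
        ((Finset.prod_eq_zero (Finset.mem_univ k) h).symm.trans hT)
      rw [hB, lam]
      simp only [Matrix.mul_assoc]
      rw [Matrix.nonsing_inv_mul_cancel_left _ _ (by rw [hWd]; exact isUnit_one),
        ← Matrix.mul_assoc (diagonal _) (diagonal T), diagonal_mul_diagonal,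
        show (fun k => (T k)⁻¹ * T k) = fun _ => (1 : ℂ) from funext fun k => inv_mul_cancel₀ (hT0 k),
        diagonal_one, Matrix.one_mul, Matrix.mul_nonsing_inv]
      rw [det_one_of_up hZ.1 hZ.2]; exact isUnit_one
    rw [hB2, Matrix.mul_assoc, genFun_congr (Matrix.charpoly_mul_comm (wMat S.l2 S.d) _)]
    simpa only [Matrix.mul_assoc] using hne
  · obtain ⟨hPu, hPd⟩ := S.up_pre j
    have hY1 := (tri_inv Function.injective_id hPu (by rw [hPd]; exact one_ne_zero)).1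
    rw [inv_eq_adj hPd] at hY1
    have hY2 := (tri_inv Function.injective_id S.up_K (by rw [S.det_K]; exact one_ne_zero)).1
    rw [inv_eq_adj S.det_K] at hY2
    obtain ⟨U, hU, hne⟩ := S.trace_witness hn hF (Y := (S.pre j).adjugate * S.K.adjugate)
      (hY1.mul hY2) (by rw [Matrix.det_mul, det_adj_one hPd, det_adj_one S.det_K, one_mul]; exact one_ne_zero)
      (S.pre j).adjugate.trace
    obtain ⟨x, hx, hxU, -, -⟩ := exists_param hU one_prod one_prod
    refine ⟨x, hx, ?_⟩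
    show ((S.pre j).adjugate * ((uU x)⁻¹ * lP S.lu * S.K).adjugate).trace - _ ≠ 0
    rw [S.adj_cm2, hxU, ← Matrix.mul_assoc]; exact sub_ne_zero.2 hne

/-- A generic state of the closure. -/
theorem exists_generic (hn : 2 ≤ n) (hF : S.Fulls) {R : Subring ℂ} {ε : ℂ} (hS : S.Units' R ε) :
    ∃ y : St 2 s n, Zd R S.J y ∧ Generic (g := 1) S.J y := by
  obtain ⟨p, hwit⟩ := S.exists_witness hn hF
  obtain ⟨x₀, hx₀, -, -, -⟩ := exists_param (n := n) (U := 1)
    ⟨blockTriangular_one, fun _ => one_apply_eq _⟩ (T₁ := fun _ => 1) (T₂ := fun _ => 1)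
    one_prod one_prod
  obtain ⟨x, -, hx, hne⟩ := box_generic (fun k => S.ratBox_cnd p k) isOpen_box hwit isOpen_univ
    (Set.mem_univ x₀) hx₀
  have f0 : g0Fun (S.h1 x) ≠ 0 := by simpa [cnd] using hne (.inl 0)
  have f1 : g0Fun (S.h1 x).swap ≠ 0 := by simpa [cnd] using hne (.inl 1)
  have f2 : g0Fun (S.h2 x) ≠ 0 := by simpa [cnd] using hne (.inl 2)
  have f3 : g0Fun (S.h2 x).swap ≠ 0 := by simpa [cnd] using hne (.inl 3)
  have f4 : (S.l1 * uU x).adjugate.trace ≠ (n : ℂ) := by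
    simpa [cnd, sub_ne_zero] using hne (.inl 4)
  have f5 : ((uU x)⁻¹ * lP S.lu * S.K).adjugate.trace ≠ (n : ℂ) := by
    simpa [cnd, sub_ne_zero] using hne (.inl 5)
  have k0 : ∀ i, genFun i (S.h1 x).2 ≠ 0 := fun i => by
    simpa [cnd] using hne (.inr (.inl (0, i)))
  have k1 : ∀ i, genFun i (S.h2 x).2 ≠ 0 := fun i => by
    simpa [cnd] using hne (.inr (.inl (1, i)))
  have k2 : ∀ i, genFun i ((S.h1 x).2.adjugate * (S.h2 x).1) ≠ 0 := fun i => by
    simpa [cnd] using hne (.inr (.inl (2, i)))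
  have k3 : ∀ i, twTest i (p false i) (S.h1 x) ≠ 0 := fun i => by
    simpa [cnd] using hne (.inr (.inl (3, i)))
  have k4 : ∀ i, twTest i (p true i) (S.h2 x) ≠ 0 := fun i => by
    simpa [cnd] using hne (.inr (.inl (4, i)))
  have m0 : ∀ j i, genFun i ((S.h2 x).2.adjugate * S.pre j) ≠ 0 := fun j i => by
    simpa [cnd] using hne (.inr (.inr (.inl (j, i))))
  have m1 : ∀ j, ((S.pre j).adjugate * ((uU x)⁻¹ * lP S.lu * S.K).adjugate).trace ≠
      (S.pre j).adjugate.trace := fun j => by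
    simpa [cnd, sub_ne_zero] using hne (.inr (.inr (.inr j)))
  have s1 : SL1 (S.h1 x) := S.sl_h1 hx
  have s2 : SL1 (S.h2 x) := (S.prep_st hx).1 1
  have gd1 : Good (S.h1 x) :=
    good_handle S.loU_l1 S.hd (hF 2) (S.zOf_spec (upU_uU x)).1 (prod_t1 hx)
  have gd2 : Good (S.h2 x) :=
    good_conj (S.det_gG x)
      (good_handle S.loU_l2 S.hd (hF 3) (S.zOf_spec (S.upU_u2 x)).1 (prod_t2 hx))
  have i1 : Indep (S.h1 x).2 := Gen.indep k0 s1.2
  have i2 : Indep (S.h2 x).2 := Gen.indep k1 s2.2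
  have hcm1 := S.cm_h1 hx
  have hcm2 := S.cm_h2 hx
  have hz := S.zd_st hS hx
  have hr := S.prep_st hx
  have hb := S.bdPre_st x
  have est0 : (S.st x).1 0 = S.h1 x := rfl
  have est1 : (S.st x).1 1 = S.h2 x := rfl
  generalize S.st x = z at hz hr hb est0 est1
  generalize S.h1 x = a at f0 f1 k0 k2 k3 s1 gd1 i1 hcm1 est0
  generalize S.h2 x = b at f2 f3 k1 k2 k4 m0 s2 gd2 i2 hcm2 est1
  obtain ⟨A₁, B₁⟩ := a
  obtain ⟨A₂, B₂⟩ := b
  obtain ⟨v₁, v₂, hv1, hv2, hc1, hc2, ⟨a1, a2, a3, a4⟩, ⟨b1, b2, b3, b4⟩, hm⟩ :=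
    exists_twists s1 s2 (g0_of_fun f0) gd1 (g0_of_fun f1) (g0_of_fun f2) gd2 (g0_of_fun f3) i1 i2
      (fun i => ⟨_, k3 i⟩) (fun i => ⟨_, k4 i⟩) k2
  set M₁ := twistMove (n := n) (s := s) (0 : Fin 2) false R S.J with hM₁
  set M₂ := twistMove (n := n) (s := s) (1 : Fin 2) false R S.J with hM₂
  have key1 : M₁.key z = B₁ := by show (z.1 0).2 = B₁; rw [est0]
  set y₁ := M₁.act z v₁ with hy₁
  have ea : y₁.1 0 = (A₁ * v₁, B₁) := by
    show (twistAct 0 false z v₁).1 0 = _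
    simp [twistAct, est0]
  have eb : y₁.1 1 = (A₂, B₂) := by
    show (twistAct 0 false z v₁).1 1 = _
    simp [twistAct, est1]
  have key2 : M₂.key y₁ = B₂ := by show (y₁.1 1).2 = B₂; rw [eb]
  set y := M₂.act y₁ v₂ with hy
  have ya : y.1 0 = (A₁ * v₁, B₁) := by
    show (twistAct 1 false y₁ v₂).1 0 = _
    simp [twistAct, ea]
  have yb : y.1 1 = (A₂ * v₂, B₂) := by
    show (twistAct 1 false y₁ v₂).1 1 = _
    simp [twistAct, eb]
  have z1 : Zd R S.J y₁ := M₁.zd_act hz (by rw [key1]; exact i1) hv1 (by rw [key1]; exact hc1)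
  have z2 : Zd R S.J y := M₂.zd_act z1 (by rw [key2]; exact i2) hv2 (by rw [key2]; exact hc2)
  have r1 : PRep S.J y₁ := M₁.rep _ _ hr hv1 (by rw [key1]; exact hc1)
  have r2 : PRep S.J y := M₂.rep _ _ r1 hv2 (by rw [key2]; exact hc2)
  have y2 : ∀ j, bdPre S.J y j = S.pre j := fun j => hb j
  have c1 : cm (y.1 0) = S.l1 * uU x := by rw [ya, cm_twistA hv1 hc1]; exact hcm1
  have c2 : cm (y.1 1) = (uU x)⁻¹ * lP S.lu * S.K := by rw [yb, cm_twistA hv2 hc2]; exact hcm2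
  refine ⟨y, z2, r2, fun i => ?_, fun i => ?_, fun j => ⟨?_, ?_⟩⟩
  · fin_cases i
    · show Hy1 (y.1 0)
      refine ⟨r2.1 0, ?_, ?_, ?_, ?_, ?_, by rw [c1]; exact f4⟩
      all_goals rw [ya]
      exacts [a2, a1, a3, a4, i1]
    · show Hy1 (y.1 1)
      refine ⟨r2.1 1, ?_, ?_, ?_, ?_, ?_, by rw [c2]; exact f5⟩
      all_goals rw [yb]
      exacts [b2, b1, b3, b4, i2]
  · fin_cases i
    show Indep (mixKey (y.1 0) (y.1 1))
    rw [mixKey, ya, yb]
    exact hm
  · rw [y2, show Fin.last 1 = (1 : Fin 2) from rfl, c2]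
    exact m1 j
  · rw [y2, show Fin.last 1 = (1 : Fin 2) from rfl, yb]
    exact Gen.indep (m0 j) (by rw [Matrix.det_mul, det_adj_one s2.2, (S.up_pre j).2, one_mul])

end SeedData

/-- Generic seeds in genus two. -/
theorem exists_seed (hn : 2 ≤ n) : ∃ ω : ℂ, IsIntegral ℤ ω ∧ ∀ {s : ℕ} (R : Subring ℂ)
    (J : Fin s → Mat n), ω ∈ R → (∀ j, (J j).BlockTriangular (id : Fin n → Fin n)) →
      (∀ j, (J j).det = 1) → (∀ j, IntM R (J j)) →
        ∃ x : St 2 s n, Zd R J x ∧ Generic (g := 1) J x := by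
  obtain ⟨m, ω, ε, e, hm, hω, hε0, hinf, he, hinj, -, hR⟩ := exists_units n
  refine ⟨ω, hω.isIntegral hm, fun {s} R J hωR hJup hJd hJR => ?_⟩
  obtain ⟨hε, hεi, hu⟩ := hR R hωR
  let S₀ : SeedData s n :=
    { J := J, d := dd e, lu := 0, hJup := hJup, hJd := hJd, hd := hinj, hd1 := prod_dd he }
  obtain ⟨u, hu', hfull⟩ := exists_lower S₀.prod_κ hinj S₀.d_ne
  let S : SeedData s n := { S₀ with lu := u }
  exact S.exists_generic hn hfull (ε := ε)
    { hJ := hJR
      hlu := hu'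
      hdR := fun i => dd_mem (fun k => (hu k k).1) (fun k => (hu k k).2.1) i
      hdiff := fun i j => (hu i j).2.2
      hε := ⟨hε, hεi⟩
      hεinf := hinf
      hε0 := hε0 }

end P002Punct
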