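import Vale.Agent.P002Punct.Lines
import Vale.Agent.P002Punct.MixAlg
import Vale.Agent.P002Surf.Generic

/-!
A functional killed along the twist orbit of a generic pair is a multiple of `1 - C⁻¹`.

The hypothesis is given at the points of the orbit where the key `B⁻¹ * P'` is independent.
-/

namespace P002Punct

open Matrix Filter Topology P002Surf

open scoped Matrix.Norms.Operator

variable {n : ℕ}

theorem commute_adj {K Z : Mat n} (hZ : Z.det = 1) (h : K * Z = Z * K) :
    K * Z.adjugate = Z.adjugate * K := by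
  calc K * Z.adjugate = Z.adjugate * (Z * K) * Z.adjugate := by
        rw [← Matrix.mul_assoc _ Z K, adj_mul_one hZ, Matrix.one_mul]
    _ = _ := by rw [← h, Matrix.mul_assoc, Matrix.mul_assoc K, mul_adj_one hZ, Matrix.mul_one]

theorem commute_aeval_seg (K : Mat n) (p : Polynomial ℂ) (t : ℂ) :
    K * zseg (Polynomial.aeval K p) t = zseg (Polynomial.aeval K p) t * K :=
  commute_zseg (commute_aeval p K) t

variable {P' Φ : Mat n} {S : Pair n → Prop}

theorem step_trace (hP' : P'.det = 1)
    (h2 : ∀ A B Z : Mat n, S (A, B) → Indep A → Z.det = 1 → A * Z = Z * A → S (A, B * Z))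
    (h3 : ∀ A B : Mat n, S (A, B) → Indep (B.adjugate * P') → (B.adjugate * Φ).trace = 0)
    {A B : Mat n} (hA : A.det = 1) (hB : B.det = 1) (hS : S (A, B)) (hIA : Indep A)
    (hIγ : Indep (B.adjugate * P')) (k : ℕ) : (A ^ (k + 1) * (B.adjugate * Φ)).trace = 0 := by
  obtain ⟨P, μ, hd, -⟩ := id hIA
  have hpd : (A ^ (k + 1)).det = 1 := by rw [Matrix.det_pow, hA, one_pow]
  obtain ⟨p, hp, hz⟩ := exists_root hd (det_adj_one hpd)
    (commute_adj hpd ((Commute.refl A).pow_right (k + 1)).eq)
  set Q := Polynomial.aeval A p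
  have hbad := countable_bad (Q := Q) (F := fun t => (B * zseg Q t).adjugate * P')
    (fun t ht => ((contDiff_adjugate.contDiffAt).comp t
      (contDiffAt_const.mul (contDiffAt_zseg ht))).mul contDiffAt_const)
    (fun t ht => by simp [Matrix.det_mul, det_adjugate, hB, det_zseg ht, hP'])
    (zero_mem_segOk Q) (by simpa [zseg_zero] using hIγ)
  have hF : ContinuousAt (fun t => ((B * zseg Q t).adjugate * Φ).trace) 1 := by
    have h : ContinuousAt (fun t => B * zseg Q t) 1 :=
      continuousAt_const.mul (contDiffAt_zseg (one_mem_segOk hp)).continuousAt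
    exact (continuous_id.matrix_trace.continuousAt.comp
      ((continuous_adj_mul Φ).continuousAt.comp h))
  have h := eq_zero_of_cocountable hbad hF (Eventually.of_forall fun u hu => by
    obtain ⟨hu1, hu2⟩ := of_notMem_bad hu
    exact h3 _ _ (h2 A B _ hS hIA (det_zseg hu1) (commute_aeval_seg A p u)) hu2)
  rw [zseg_one, hz, Matrix.adjugate_mul_distrib,
    adj_eq_of_mul (det_adj_one hpd) (adj_mul_one hpd)] at h
  rwa [Matrix.mul_assoc] at h

theorem step_shape (hP' : P'.det = 1)
    (h1 : ∀ A B Z : Mat n, S (A, B) → Indep B → Z.det = 1 → B * Z = Z * B → S (A * Z, B))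
    (h2 : ∀ A B Z : Mat n, S (A, B) → Indep A → Z.det = 1 → A * Z = Z * A → S (A, B * Z))
    (h3 : ∀ A B : Mat n, S (A, B) → Indep (B.adjugate * P') → (B.adjugate * Φ).trace = 0)
    {A B : Mat n} (hA : A.det = 1) (hB : B.det = 1) (hS : S (A, B)) (hIA : Indep A) (hIB : Indep B)
    (hIγ : Indep (B.adjugate * P')) (q : Polynomial ℂ) (hq : (Polynomial.aeval B q).det ≠ 0) (k : ℕ) :
    ((A * zN (Polynomial.aeval B q)) ^ (k + 1) * (B.adjugate * Φ)).trace = 0 := by
  set Q := Polynomial.aeval B q
  have hbad := countable_bad (Q := Q) (F := fun t => A * zseg Q t)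
    (fun t ht => contDiffAt_const.mul (contDiffAt_zseg ht))
    (fun t ht => by simp [Matrix.det_mul, hA, det_zseg ht])
    (zero_mem_segOk Q) (by simpa [zseg_zero] using hIA)
  have hF : ContinuousAt (fun t => ((A * zseg Q t) ^ (k + 1) * (B.adjugate * Φ)).trace) 1 := by
    have h : ContinuousAt (fun t => A * zseg Q t) 1 :=
      continuousAt_const.mul (contDiffAt_zseg (one_mem_segOk hq)).continuousAt
    exact continuous_id.matrix_trace.continuousAt.comp ((h.pow (k + 1)).mul continuousAt_const)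
  have h := eq_zero_of_cocountable hbad hF (Eventually.of_forall fun u hu => by
    obtain ⟨hu1, hu2⟩ := of_notMem_bad hu
    exact step_trace hP' h2 h3 (by simp [Matrix.det_mul, hA, det_zseg hu1]) hB
      (h1 A B _ hS hIB (det_zseg hu1) (commute_aeval_seg B q u)) hu2 hIγ k)
  rwa [zseg_one] at h

theorem orbit_kernel (hP' : P'.det = 1)
    (h1 : ∀ A B Z : Mat n, S (A, B) → Indep B → Z.det = 1 → B * Z = Z * B → S (A * Z, B))
    (h2 : ∀ A B Z : Mat n, S (A, B) → Indep A → Z.det = 1 → A * Z = Z * A → S (A, B * Z))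
    (h3 : ∀ A B : Mat n, S (A, B) → Indep (B.adjugate * P') → (B.adjugate * Φ).trace = 0)
    {A B : Mat n} (hA : A.det = 1) (hB : B.det = 1) (hS : S (A, B)) (hIA : Indep A) (hIB : Indep B)
    (hIγ : Indep (B.adjugate * P')) (hG : G0 (A, B)) (hG' : G0 (B, A)) :
    ∃ e : ℂ, Φ = e • (1 - (cm (A, B)).adjugate) := by
  obtain ⟨Q, a, hQ, hT⟩ := hG'
  change DiagBy A Q a at hQ
  rw [← inv_eq_adj (det_cm (x := (A, B)) hA hB)]
  refine kernel_of_orbit hA hB hQ (fun i j _ => hT.1 i j) ?_
  have hu := isUnit_det_of_ne hQ.1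
  have hcB : Continuous fun d : Fin n → ℂ => B * (Q * diagonal d * Q⁻¹) :=
    continuous_const.mul ((continuous_const.mul continuous_id.matrix_diagonal).mul continuous_const)
  have hev : ∀ᶠ d in 𝓝 (1 : Fin n → ℂ), G0 (A, B * (Q * diagonal d * Q⁻¹)) := by
    have he : (A, B * (Q * diagonal (1 : Fin n → ℂ) * Q⁻¹)) = (A, B) := by
      rw [diagonal_one', Matrix.mul_one, Matrix.mul_nonsing_inv _ hu, Matrix.mul_one]
    exact (continuous_const.prodMk hcB).continuousAt.preimage_mem_nhds
      (isOpen_G0.mem_nhds (show G0 (A, B * (Q * diagonal (1 : Fin n → ℂ) * Q⁻¹)) by rw [he]; exact hG))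
  filter_upwards [hev] with d hd hd1
  have hZd : (Q * diagonal d * Q⁻¹).det = 1 := by
    rw [Matrix.det_mul, Matrix.det_mul, mul_comm Q.det, mul_assoc, ← Matrix.det_mul,
      Matrix.mul_nonsing_inv Q hu, Matrix.det_one, mul_one, det_diagonal, hd1]
  have hZc : A * (Q * diagonal d * Q⁻¹) = Q * diagonal d * Q⁻¹ * A := by
    rw [hQ.2.2]
    simp only [Matrix.mul_assoc, Matrix.nonsing_inv_mul_cancel_left _ _ hu]
    rw [← Matrix.mul_assoc (diagonal d), ← Matrix.mul_assoc (diagonal a), diagonal_mul_diagonal,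
      diagonal_mul_diagonal]
    simp only [mul_comm]
  obtain ⟨p, hp, hz⟩ := exists_root hQ hZd hZc
  set Z := Q * diagonal d * Q⁻¹ with hZdef
  set Bd := B * Z with hBd
  have hBdd : Bd.det = 1 := by simp [hBd, Matrix.det_mul, hB, hZd]
  set R := Polynomial.aeval A p
  have hcd : ∀ t ∈ segOk R, ContDiffAt ℂ 1 (fun t => B * zseg R t) t :=
    fun t ht => contDiffAt_const.mul (contDiffAt_zseg ht)
  have hbad1 := countable_bad (Q := R) (F := fun t => B * zseg R t) hcd
    (fun t ht => by simp [Matrix.det_mul, hB, det_zseg ht])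
    (zero_mem_segOk R) (by simpa [zseg_zero] using hIB)
  have hbad2 := countable_bad (Q := R) (F := fun t => (B * zseg R t).adjugate * P')
    (fun t ht => ((contDiff_adjugate.contDiffAt).comp t (hcd t ht)).mul contDiffAt_const)
    (fun t ht => by simp [Matrix.det_mul, det_adjugate, hB, det_zseg ht, hP'])
    (zero_mem_segOk R) (by simpa [zseg_zero] using hIγ)
  have htr : ∀ (q : Polynomial ℂ), (Polynomial.aeval Bd q).det ≠ 0 → ∀ k : ℕ,
      ((A * zN (Polynomial.aeval Bd q)) ^ (k + 1) * (Bd.adjugate * Φ)).trace = 0 := by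
    intro q hq k
    have e1 : B * zseg R 1 = Bd := by rw [zseg_one, hz]
    have hc : ContinuousAt (fun t => B * zseg R t) 1 :=
      (hcd 1 (one_mem_segOk hp)).continuousAt
    have hF : ContinuousAt (fun t => ((A * zN (Polynomial.aeval (B * zseg R t) q)) ^ (k + 1) *
        ((B * zseg R t).adjugate * Φ)).trace) 1 := by
      have ha : ContinuousAt (fun t => Polynomial.aeval (B * zseg R t) q) 1 :=
        (contDiff_aeval q).continuous.continuousAt.comp hc
      have hzN : ContinuousAt (fun t => zN (Polynomial.aeval (B * zseg R t) q)) 1 :=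
        ContinuousAt.comp (g := zN) (contDiffAt_zN (by rw [e1]; exact hq)).continuousAt ha
      exact continuous_id.matrix_trace.continuousAt.comp
        (((continuousAt_const.mul hzN).pow (k + 1)).mul
          ((continuous_adj_mul Φ).continuousAt.comp hc))
    have hne : ∀ᶠ t in 𝓝 (1 : ℂ), (Polynomial.aeval (B * zseg R t) q).det ≠ 0 :=
      ((contDiff_aeval q).continuous.matrix_det.continuousAt.comp hc).eventually_ne
        (by simpa [e1] using hq)
    have h := eq_zero_of_cocountable (hbad1.union hbad2) hF (hne.mono fun u hqu hu => by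
      obtain ⟨hu1, hu1'⟩ := of_notMem_bad fun h => hu (Or.inl h)
      obtain ⟨-, hu2'⟩ := of_notMem_bad fun h => hu (Or.inr h)
      exact step_shape hP' h1 h2 h3 hA (by simp [Matrix.det_mul, hB, det_zseg hu1])
        (h2 A B _ hS hIA (det_zseg hu1) (commute_aeval_seg A p u)) hIA hu1' hu2' q hqu k)
    rwa [e1] at h
  obtain ⟨P, μ, hP, hTd⟩ := hd
  change DiagBy Bd P μ at hP
  refine shape_of_orbit hA hP hTd fun δ hδ k _ => ?_
  have hn' : ∀ j : Fin n, (n : ℂ) ≠ 0 := fun j => Nat.cast_ne_zero.2 j.pos.ne'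
  let e : Fin n → ℂ := fun j => Complex.exp (Complex.log (δ j) / n)
  have hen : ∀ j, e j ^ n = δ j := fun j => by
    simp only [e]
    rw [← Complex.exp_nat_mul, mul_div_cancel₀ _ (hn' j), Complex.exp_log (hδ j)]
  let q := Lagrange.interpolate Finset.univ μ e
  have hqB : Polynomial.aeval Bd q = P * diagonal e * P⁻¹ := by
    conv_lhs => rw [hP.2.2]
    rw [aeval_conj hP.1, show (fun j => q.eval (μ j)) = e from funext fun j =>
      Lagrange.eval_interpolate_at_node e hP.2.1.injOn (Finset.mem_univ j)]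
  have hqd : (Polynomial.aeval Bd q).det ≠ 0 := by
    rw [hqB, Matrix.det_mul, Matrix.det_mul, mul_comm P.det, mul_assoc, ← Matrix.det_mul,
      Matrix.mul_nonsing_inv P (isUnit_det_of_ne hP.1), Matrix.det_one, mul_one, det_diagonal]
    exact Finset.prod_ne_zero_iff.2 fun i _ => Complex.exp_ne_zero _
  have hc0 : (∏ i, e i)⁻¹ ≠ 0 :=
    inv_ne_zero (Finset.prod_ne_zero_iff.2 fun i _ => Complex.exp_ne_zero _)
  have h := htr q hqd k
  rw [hqB, zN_smul_diag P hP.1] at h
  simp only [hen, ← inv_eq_adj hBdd] at h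
  rw [show (fun i => (∏ i, e i)⁻¹ * δ i) = (∏ i, e i)⁻¹ • δ from rfl, Matrix.diagonal_smul,
    Matrix.mul_smul, Matrix.smul_mul, Matrix.mul_smul, smul_pow, Matrix.smul_mul, Matrix.trace_smul,
    smul_eq_mul, mul_eq_zero] at h
  exact h.resolve_left (pow_ne_zero _ hc0)

end P002Punct
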