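import Vale.Agent.P002Punct.SpanHandle
import Vale.Agent.P002Punct.Orbit
import Vale.Agent.P002Punct.Cond

/-!
The velocities in commutator coordinates: boundary moves reach every variation of the conjugators.
-/

namespace P002Punct

open Matrix Filter Topology P002Surf

open scoped Matrix.Norms.Operator

variable {g s n : ℕ} {R : Subring ℂ} {J : Fin s → Mat n}

/-- Velocities seen in commutator coordinates. -/
def ImV (R : Subring ℂ) (J : Fin s → Mat n) (x : St g s n) : Set (Co g s n) :=
  fderiv ℂ coords x '' {v | Vel R J x v}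

theorem imV_twist (i : Fin g) (side : Bool) {y : St g s n}
    (hi : Indep ((twistMove i side R J).key y)) {Z : Mat n} (hZ : Z.det = 1)
    (hc : (twistMove i side R J).key y * Z = Z * (twistMove i side R J).key y) :
    ImV R J (twistAct i side y Z) ⊆ ImV R J y := by
  rintro _ ⟨v, hv, rfl⟩
  obtain ⟨v', hv', he⟩ := vel_transport (twistMove i side R J) (hinv_twist i side) hi hZ hc
    (show Vel R J ((twistMove i side R J).act y Z) v from hv)
  exact ⟨v', hv', he⟩

/-- The orbit of a handle under its twists. -/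
def OrbS (R : Subring ℂ) (J : Fin s → Mat n) (x : St g s n) (i : Fin g) (p : Pair n) : Prop :=
  PRep J (upd i p x) ∧ coords (upd i p x) = coords x ∧ ImV R J (upd i p x) ⊆ ImV R J x

theorem orbS_self {x : St g s n} (hx : PRep J x) (i : Fin g) : OrbS R J x i (x.1 i) := by
  simp [OrbS, upd_self, hx]

theorem OrbS.twist_fst {x : St g s n} {i : Fin g} {A B Z : Mat n} (h : OrbS R J x i (A, B))
    (hi : Indep B) (hZ : Z.det = 1) (hc : B * Z = Z * B) : OrbS R J x i (A * Z, B) := by
  obtain ⟨h1, h2, h3⟩ := h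
  have hk : (twistMove i false R J).key (upd i (A, B) x) = B := by simp [twistMove, upd]
  have he : twistAct i false (upd i (A, B) x) Z = upd i (A * Z, B) x := twistAct_upd i false x A B Z
  refine ⟨?_, ?_, ?_⟩
  · rw [← he]; exact (twistMove i false R J).rep _ _ h1 hZ (by rw [hk]; exact hc)
  · rw [← he, ← h2]; exact hinv_twist (R := R) (J := J) i false _ _ hZ (by rw [hk]; exact hc)
  · rw [← he]
    exact (imV_twist i false (by rw [hk]; exact hi) hZ (by rw [hk]; exact hc)).trans h3

theorem OrbS.twist_snd {x : St g s n} {i : Fin g} {A B Z : Mat n} (h : OrbS R J x i (A, B))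
    (hi : Indep A) (hZ : Z.det = 1) (hc : A * Z = Z * A) : OrbS R J x i (A, B * Z) := by
  obtain ⟨h1, h2, h3⟩ := h
  have hk : (twistMove i true R J).key (upd i (A, B) x) = A := by simp [twistMove, upd]
  have he : twistAct i true (upd i (A, B) x) Z = upd i (A, B * Z) x := twistAct_upd i true x A B Z
  refine ⟨?_, ?_, ?_⟩
  · rw [← he]; exact (twistMove i true R J).rep _ _ h1 hZ (by rw [hk]; exact hc)
  · rw [← he, ← h2]; exact hinv_twist (R := R) (J := J) i true _ _ hZ (by rw [hk]; exact hc)
  · rw [← he]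
    exact (imV_twist i true (by rw [hk]; exact hi) hZ (by rw [hk]; exact hc)).trans h3

theorem fderiv_coords_snd (x v : St g s n) : (fderiv ℂ coords x v).2 = v.2 := by
  have h1 : HasFDerivAt (fun y : St g s n => (coords y).2)
      ((ContinuousLinearMap.snd ℂ (Fin g → Mat n) (Fin s → Mat n)).comp (fderiv ℂ coords x)) x :=
    (hasFDerivAt_snd).comp x ((contDiff_coords.differentiable one_ne_zero) x).hasFDerivAt
  have h2 : HasFDerivAt (fun y : St g s n => y.2)
      (ContinuousLinearMap.snd ℂ (Fin g → Pair n) (Fin s → Mat n)) x := hasFDerivAt_snd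
  exact congrArg (fun T => T v) (h1.unique h2)

theorem det_bdPre_span (hJd : ∀ k, (J k).det = 1) {x : St g s n} (hx : ∀ k, (x.2 k).det = 1) (j : Fin s) :
    (bdPre J x j).det = 1 := by
  refine List.prod_induction (fun A : Mat n => A.det = 1)
    (fun A B ha hb => by rw [det_mul, ha, hb, mul_one]) det_one fun A hA => ?_
  obtain ⟨k, rfl⟩ := List.mem_ofFn.1 (List.mem_of_mem_take hA)
  simp [bd, Matrix.det_mul, hJd k, hx k, det_adj_one (hx k)]

/-- The velocity of a boundary move. -/
theorem vel_bd (hJd : ∀ k, (J k).det = 1) (hJR : ∀ k, IntM R (J k)) (j : Fin s)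
    {y : St (g + 1) s n} (hi : Indep ((y.1 (Fin.last g)).2.adjugate * bdPre J y j)) :
    ∃ w ∈ ImV R J y, w.2 = fun k => if k ≤ j then
      -(((n : ℂ) • ((y.1 (Fin.last g)).2.adjugate * bdPre J y j) -
        ((y.1 (Fin.last g)).2.adjugate * bdPre J y j).trace • (1 : Mat n)) * y.2 k) else 0 := by
  obtain ⟨v, hv, hd⟩ := vel_of_poly (bdMove j R J hJd hJR) hi Polynomial.X
  refine ⟨_, ⟨v, hv, rfl⟩, ?_⟩
  rw [fderiv_coords_snd]
  have h1 : HasDerivAt (fun t : ℂ => (bdAct j y (zN (1 + t • Polynomial.aeval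
      ((y.1 (Fin.last g)).2.adjugate * bdPre J y j) Polynomial.X))).2) v.2 0 :=
    HasFDerivAt.comp_hasDerivAt (0 : ℂ) (l := Prod.snd)
      (l' := ContinuousLinearMap.snd ℂ (Fin (g + 1) → Pair n) (Fin s → Mat n)) hasFDerivAt_snd hd
  simp only [Polynomial.aeval_X] at h1
  funext k
  have h2 := hasDerivAt_pi.1 h1 k
  refine h2.unique ?_
  by_cases hk : k ≤ j
  · simp only [bdAct, if_pos hk]
    exact ((hasDerivAt_adj_zN_line _).mul_const (y.2 k)).congr_deriv (Matrix.neg_mul _ _)
  · simp only [bdAct, if_neg hk]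
    exact hasDerivAt_const (0 : ℂ) (y.2 k)

/-- Boundary moves along the twist orbit reach every variation of the conjugators. -/
theorem bd_span (hJd : ∀ k, (J k).det = 1) (hJR : ∀ k, IntM R (J k)) {x : St (g + 1) s n}
    (hx : Generic J x) (δ : Fin s → Mat n) (hδ : ∀ k, ((x.2 k).adjugate * δ k).trace = 0) :
    δ ∈ (Submodule.span ℂ (ImV R J x)).map (LinearMap.snd ℂ (Fin (g + 1) → Mat n) (Fin s → Mat n)) := by
  classical
  rcases Nat.eq_zero_or_pos n with hn | hn
  · subst hn
    rw [Subsingleton.elim δ 0]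
    exact Submodule.zero_mem _
  have hn' : (n : ℂ) ≠ 0 := Nat.cast_ne_zero.2 hn.ne'
  obtain ⟨hr, hH, -, hB⟩ := hx
  set W := (Submodule.span ℂ (ImV R J x)).map
    (LinearMap.snd ℂ (Fin (g + 1) → Mat n) (Fin s → Mat n)) with hW
  by_contra hu
  obtain ⟨φ, hφu, hφ⟩ := Submodule.exists_dual_map_eq_bot_of_notMem hu inferInstance
  have hkill : ∀ e ∈ W, φ e = 0 := fun e he => by
    have := Submodule.mem_map_of_mem (f := φ) he
    rwa [hφ, Submodule.mem_bot] at this
  apply hφu
  have hf : ∀ k, ∃ b : Mat n, ∀ X, φ (Pi.single k (X * x.2 k)) = (b * X).trace := fun k =>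
    ⟨_, functional_trace (φ.comp ((LinearMap.single ℂ (fun _ : Fin s => Mat n) k).comp
      (LinearMap.mulRight ℂ (x.2 k))))⟩
  choose b hb using hf
  have hsum : ∀ e : Fin s → Mat n, φ e = ∑ k, (b k * (e k * (x.2 k).adjugate)).trace := by
    intro e
    conv_lhs => rw [← Finset.univ_sum_single e]
    rw [map_sum]
    refine Finset.sum_congr rfl fun k _ => ?_
    rw [← hb, Matrix.mul_assoc (e k), adj_mul_one (hr.2.1 k), Matrix.mul_one]
  have hM : ∀ j : Fin s, ∃ c : ℂ, ∑ k ∈ Finset.univ.filter (· ≤ j), b k = c • (1 : Mat n) := by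
    intro j
    set M := ∑ k ∈ Finset.univ.filter (· ≤ j), b k with hMdef
    refine ⟨M.trace / n, ?_⟩
    set M0 : Mat n := M - (M.trace / n) • 1 with hM0
    have ht0 : M0.trace = 0 := by simp [hM0, hn']
    set P' := bdPre J x j with hP'
    have hPd : P'.det = 1 := det_bdPre_span hJd hr.2.1 j
    obtain ⟨⟨hA, hB1⟩, hgd, hG, hG', hIA, hIB, -⟩ := hH (Fin.last g)
    have hstep : ∀ A B : Mat n, OrbS R J x (Fin.last g) (A, B) → Indep (B.adjugate * P') →
        (B.adjugate * (P' * M0)).trace = 0 := by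
      intro A B hS hI
      obtain ⟨hp, -, hsub⟩ := hS
      have hk : ((upd (Fin.last g) (A, B) x).1 (Fin.last g)).2.adjugate *
          bdPre J (upd (Fin.last g) (A, B) x) j = B.adjugate * P' := by
        simp [upd, hP', bdPre, bdList]
      obtain ⟨w, hw, hw2⟩ := vel_bd hJd hJR j (y := upd (Fin.last g) (A, B) x) (by rw [hk]; exact hI)
      have h0 : φ w.2 = 0 := hkill _ ⟨w, Submodule.subset_span (hsub hw), rfl⟩
      rw [hw2, hsum, hk] at h0
      set γ := B.adjugate * P' with hγ
      have e1 : ∀ k : Fin s, (b k * ((if k ≤ j then -(((n : ℂ) • γ - γ.trace • (1 : Mat n)) *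
          (upd (Fin.last g) (A, B) x).2 k) else 0) * (x.2 k).adjugate)).trace =
          if k ≤ j then -(b k * ((n : ℂ) • γ - γ.trace • (1 : Mat n))).trace else 0 := by
        intro k
        by_cases hk' : k ≤ j
        · simp only [if_pos hk', upd, Matrix.neg_mul, Matrix.mul_assoc,
            mul_adj_one (hr.2.1 k), Matrix.mul_one, Matrix.mul_neg, Matrix.trace_neg]
        · simp [hk']
      simp only [e1] at h0
      rw [← Finset.sum_filter, Finset.sum_neg_distrib, ← Matrix.trace_sum, ← Finset.sum_mul,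
        ← hMdef, neg_eq_zero] at h0
      have e2 : (n : ℂ) * (B.adjugate * (P' * M0)).trace =
          (M * ((n : ℂ) • γ - γ.trace • (1 : Mat n))).trace := by
        rw [← Matrix.mul_assoc, Matrix.trace_mul_comm, ← hγ]
        simp only [hM0, Matrix.mul_sub, Matrix.sub_mul, Matrix.mul_smul, Matrix.smul_mul,
          Matrix.one_mul, Matrix.mul_one, Matrix.trace_sub, Matrix.trace_smul, smul_eq_mul]
        field_simp
      rw [h0, mul_eq_zero] at e2
      exact e2.resolve_left hn'
    obtain ⟨e, he⟩ := orbit_kernel hPd (fun A B Z h hI hZ hc => OrbS.twist_fst h hI hZ hc)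
      (fun A B Z h hI hZ hc => OrbS.twist_snd h hI hZ hc) hstep hA hB1
      (orbS_self hr (Fin.last g)) hIA hIB (hB j).2 hG hG'
    have e3 : M0 = e • (P'.adjugate - P'.adjugate * (cm (x.1 (Fin.last g))).adjugate) := by
      calc M0 = P'.adjugate * (P' * M0) := by rw [← Matrix.mul_assoc, adj_mul_one hPd, Matrix.one_mul]
        _ = _ := by rw [he, Matrix.mul_smul, Matrix.mul_sub, Matrix.mul_one]
    have e4 := congrArg Matrix.trace e3
    rw [ht0, Matrix.trace_smul, Matrix.trace_sub, smul_eq_mul, eq_comm, mul_eq_zero, sub_eq_zero] at e4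
    rw [e4.resolve_right (Ne.symm (hB j).1), zero_smul, hM0, sub_eq_zero] at e3
    exact e3
  choose c hc using hM
  have hsc : ∀ m : ℕ, ∀ j : Fin s, (j : ℕ) = m → ∃ d : ℂ, b j = d • (1 : Mat n) := by
    intro m
    induction m using Nat.strong_induction_on with
    | _ m ih =>
      intro j hj
      choose d hd using fun (k : Fin s) (hk : k < j) => ih k (by rw [← hj]; exact hk) k rfl
      let d' : Fin s → ℂ := fun k => if hk : k < j then d k hk else 0
      refine ⟨c j - ∑ k ∈ Finset.univ.filter (· < j), d' k, ?_⟩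
      have hs := hc j
      rw [show (Finset.univ.filter (· ≤ j) : Finset (Fin s)) =
        insert j (Finset.univ.filter (· < j)) by ext k; simp [le_iff_eq_or_lt],
        Finset.sum_insert (by simp)] at hs
      rw [sub_smul, Finset.sum_smul, eq_sub_iff_add_eq, ← hs]
      refine congrArg (b j + ·) (Finset.sum_congr rfl fun k hk => ?_)
      have hk' : k < j := (Finset.mem_filter.1 hk).2
      simp only [d', dif_pos hk']
      exact (hd k hk').symm
  rw [hsum]
  refine Finset.sum_eq_zero fun k _ => ?_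
  obtain ⟨d, hd⟩ := hsc k k rfl
  rw [hd, Matrix.smul_mul, Matrix.one_mul, Matrix.trace_smul, Matrix.trace_mul_comm, hδ, smul_zero]

end P002Punct
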