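import Vale.Agent.P002Punct.Tangent
import Vale.Agent.P002Punct.HandleSpan
import Vale.Agent.P002Punct.Moves

/-!
The velocities contain the kernel of each commutator.
-/

namespace P002Punct

open Matrix Filter Topology P002Surf

open scoped Matrix.Norms.Operator

variable {g s n : ℕ} {R : Subring ℂ} {J : Fin s → Mat n}

/-- Replace one handle. -/
def upd (i : Fin g) (p : Pair n) (x : St g s n) : St g s n := (Function.update x.1 i p, x.2)

/-- The inclusion of the tangent space of one handle. -/
def emb (i : Fin g) : Pair n →ₗ[ℂ] St g s n where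
  toFun p := (Pi.single i p, 0)
  map_add' p q := by
    ext1
    · exact Pi.single_add (f := fun _ : Fin g => Pair n) i p q
    · simp
  map_smul' c p := by
    ext1
    · exact Pi.single_smul (f := fun _ : Fin g => Pair n) i c p
    · simp

theorem upd_self (i : Fin g) (x : St g s n) : upd i (x.1 i) x = x :=
  Prod.ext (Function.update_eq_self i x.1) rfl

theorem twistAct_upd (i : Fin g) (side : Bool) (x : St g s n) (A B Z : Mat n) :
    twistAct i side (upd i (A, B) x) Z = upd i (cond side (A, B * Z) (A * Z, B)) x := by
  cases side <;> simp [twistAct, upd]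

theorem hasDerivAt_upd {i : Fin g} (x : St g s n) {c : ℂ → Pair n} {c' : Pair n}
    (h : HasDerivAt c c' 0) :
    HasDerivAt (fun t => upd i (c t) x) (emb (s := s) i c') 0 := by
  refine HasDerivAt.prodMk (hasDerivAt_pi.2 fun k => ?_) (hasDerivAt_const (0 : ℂ) x.2)
  by_cases hk : k = i
  · subst hk
    simp only [Function.update_self, Pi.single_eq_same]
    exact h
  · simp only [Function.update_of_ne hk, Pi.single_eq_of_ne hk]
    exact hasDerivAt_const (0 : ℂ) (x.1 k)

theorem hinv_twist (i : Fin g) (side : Bool) (y : St g s n) (z : Mat n) (hz : z.det = 1)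
    (hc : (twistMove i side R J).key y * z = z * (twistMove i side R J).key y) :
    coords ((twistMove i side R J).act y z) = coords y := by
  refine Prod.ext (funext fun k => ?_) rfl
  show cm ((twistAct i side y z).1 k) = cm (y.1 k)
  by_cases hk : k = i
  · subst hk
    cases side
    · simp only [twistAct, Function.update_self, cond_false]
      exact cm_twistA hz hc
    · simp only [twistAct, Function.update_self, cond_true]
      exact cm_twistB hz hc
  · simp only [twistAct, Function.update_of_ne hk]

/-- Twist velocities fill the kernel of one commutator, in every set preserved by the twists. -/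
theorem mem_span_handle_in {X : Set (St g s n)} {x : St g s n} {i : Fin g}
    (hX : ∀ side, Inv R J X (twistMove i side R J)) (hsl : SL1 (x.1 i)) (hG : G0 (x.1 i))
    (hIA : Indep (x.1 i).1) (hIB : Indep (x.1 i).2) {u : Pair n}
    (he : u.1 * (x.1 i).2 + (x.1 i).1 * u.2 = cm (x.1 i) * (u.2 * (x.1 i).1 + (x.1 i).2 * u.1))
    (ht1 : ((x.1 i).1.adjugate * u.1).trace = 0) (ht2 : ((x.1 i).2.adjugate * u.2).trace = 0) :
    emb i u ∈ Submodule.span ℂ {v | IsVel R J X x v} := by
  obtain ⟨A, B, hAB⟩ : ∃ A B, x.1 i = (A, B) := ⟨_, _, rfl⟩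
  simp only [hAB] at hsl hG hIA hIB he ht1 ht2
  have hx : upd i (A, B) x = x := by rw [← hAB]; exact upd_self i x
  by_contra hu
  obtain ⟨φ, hφu, hφ⟩ := Submodule.exists_dual_map_eq_bot_of_notMem hu inferInstance
  have hkill : ∀ v, IsVel R J X x v → φ v = 0 := fun v hv => by
    have := Submodule.mem_map_of_mem (f := φ) (Submodule.subset_span (R := ℂ)
      (show v ∈ {v | IsVel R J X x v} from hv))
    rwa [hφ, Submodule.mem_bot] at this
  apply hφu
  have hkey : ∀ side, (twistMove i side R J).key x = cond side A B := fun side => by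
    show cond side (x.1 i).1 (x.1 i).2 = _
    rw [hAB]
  refine handle_kernel hsl.1 hsl.2 hG hIA (φ.comp (emb i)) (fun p => ?_) (fun q p hq hI => ?_)
    he ht1 ht2
  · obtain ⟨v, hv, hd⟩ := vel_of_poly_in (twistMove i false R J) (hX false) (x0 := x)
      (by rw [hkey]; exact hIB) p
    have h : HasDerivAt (fun t : ℂ => (twistMove i false R J).act x
        (zN (1 + t • Polynomial.aeval ((twistMove i false R J).key x) p)))
        (emb i (A * ((n : ℂ) • Polynomial.aeval B p - (Polynomial.aeval B p).trace • (1 : Mat n)), 0)) 0 := by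
      rw [hkey]
      have := hasDerivAt_upd (i := i) x (((hasDerivAt_zN_line (Polynomial.aeval B p)).const_mul A).prodMk
        (hasDerivAt_const (0 : ℂ) B))
      refine this.congr_of_eventuallyEq (Eventually.of_forall fun t => ?_)
      show twistAct i false x _ = _
      conv_lhs => rw [← hx]
      exact twistAct_upd i false x A B _
    rw [LinearMap.comp_apply, ← hd.unique h]
    exact hkill v hv
  · set M1 := A * zq q B with hM1
    set zd := (n : ℂ) • Polynomial.aeval M1 p - (Polynomial.aeval M1 p).trace • (1 : Mat n) with hzd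
    let φ' : Mat n → Mat n := zq q
    have hφ' : ∀ᶠ K in 𝓝 ((twistMove i false R J).key x),
        ContDiffAt ℂ 1 φ' K ∧ (φ' K).det = 1 ∧ K * φ' K = φ' K * K := by
      rw [hkey]
      filter_upwards [((contDiff_aeval q).continuous.matrix_det.continuousAt).eventually_ne hq]
        with K hK
      exact ⟨ContDiffAt.comp (g := zN) K (contDiffAt_zN hK) (contDiff_aeval q).contDiffAt, det_zN hK,
        (commute_zN (commute_aeval q K)).eq⟩
    have hy : actBy (twistMove i false R J) φ' x = upd i (M1, B) x := by
      show twistAct i false x (zq q ((twistMove i false R J).key x)) = _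
      rw [hkey]
      conv_lhs => rw [← hx]
      exact twistAct_upd i false x A B _
    have hk2 : (twistMove i true R J).key (upd i (M1, B) x) = M1 := by simp [twistMove, upd]
    obtain ⟨v, hv, hd⟩ := vel_of_poly_in (twistMove i true R J) (hX true) (x0 := upd i (M1, B) x)
      (by rw [hk2]; exact hI) p
    have hv' : v = emb i (0, B * zd) := by
      refine hd.unique ?_
      rw [hk2]
      have := hasDerivAt_upd (i := i) x ((hasDerivAt_const (0 : ℂ) M1).prodMk
        ((hasDerivAt_zN_line (Polynomial.aeval M1 p)).const_mul B))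
      exact this.congr_of_eventuallyEq (Eventually.of_forall fun t => twistAct_upd i true x M1 B _)
    rw [← hy] at hv
    have hvel := isVel_conj (twistMove i false R J) (hX false) (by rw [hkey]; exact hIB) hφ' hv
    suffices fderiv ℂ (actBy (twistMove i false R J) fun K => (φ' K).adjugate)
        (actBy (twistMove i false R J) φ' x) v =
        emb i (M1 * fderiv ℂ (fun K => (zq q K).adjugate) B (B * zd), B * zd) by
      rw [LinearMap.comp_apply, ← this]
      exact hkill _ hvel
    rw [hy, hv']
    have hline : HasDerivAt (fun t : ℂ => upd i (M1, B + t • (B * zd)) x) (emb i (0, B * zd)) 0 :=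
      hasDerivAt_upd x ((hasDerivAt_const (0 : ℂ) M1).prodMk
        (HasDerivAt.const_add _ (by simpa using (hasDerivAt_id (0 : ℂ)).smul_const (B * zd))))
    have hG' : DifferentiableAt ℂ (fun K : Mat n => (zq q K).adjugate) B :=
      (ContDiffAt.comp (g := fun Q : Mat n => Q.adjugate) B contDiff_adjugate.contDiffAt
        (ContDiffAt.comp (g := zN) B (contDiffAt_zN hq) (contDiff_aeval q).contDiffAt)).differentiableAt
          one_ne_zero
    have hW : DifferentiableAt ℂ (actBy (twistMove i false R J) fun K => (φ' K).adjugate)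
        (upd i (M1, B) x) := by
      refine ((twistMove i false R J).contDiff_act contDiffAt_id ?_).differentiableAt one_ne_zero
      refine ContDiffAt.comp (g := fun K => (φ' K).adjugate) _ ?_
        ((twistMove i false R J).contDiff_key contDiffAt_id)
      have : (twistMove i false R J).key (upd i (M1, B) x) = B := by simp [twistMove, upd]
      rw [this]
      exact contDiff_adjugate.contDiffAt.comp B
        (ContDiffAt.comp (g := zN) B (contDiffAt_zN hq) (contDiff_aeval q).contDiffAt)
    refine (HasFDerivAt.comp_hasDerivAt_of_eq (0 : ℂ) hW.hasFDerivAt hline (by simp)).unique ?_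
    have hB : HasDerivAt (fun t : ℂ => B + t • (B * zd)) (B * zd) 0 :=
      HasDerivAt.const_add _ (by simpa using (hasDerivAt_id (0 : ℂ)).smul_const (B * zd))
    have hA : HasDerivAt (fun t : ℂ => (zq q (B + t • (B * zd))).adjugate)
        (fderiv ℂ (fun K => (zq q K).adjugate) B (B * zd)) 0 :=
      HasFDerivAt.comp_hasDerivAt_of_eq (0 : ℂ) (l := fun K => (zq q K).adjugate)
        hG'.hasFDerivAt hB (by simp)
    have := hasDerivAt_upd (i := i) x ((hA.const_mul M1).prodMk hB)
    refine this.congr_of_eventuallyEq (Eventually.of_forall fun t => ?_)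
    show twistAct i false (upd i (M1, B + t • (B * zd)) x)
      (φ' ((twistMove i false R J).key (upd i (M1, B + t • (B * zd)) x))).adjugate = _
    rw [twistAct_upd]
    simp [twistMove, upd, φ']

/-- Twist velocities fill the kernel of one commutator. -/
theorem mem_span_handle {x : St g s n} {i : Fin g} (hsl : SL1 (x.1 i)) (hG : G0 (x.1 i))
    (hIA : Indep (x.1 i).1) (hIB : Indep (x.1 i).2) {u : Pair n}
    (he : u.1 * (x.1 i).2 + (x.1 i).1 * u.2 = cm (x.1 i) * (u.2 * (x.1 i).1 + (x.1 i).2 * u.1))
    (ht1 : ((x.1 i).1.adjugate * u.1).trace = 0) (ht2 : ((x.1 i).2.adjugate * u.2).trace = 0) :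
    emb i u ∈ Submodule.span ℂ {v | Vel R J x v} :=
  mem_span_handle_in (fun _ => inv_rep _) hsl hG hIA hIB he ht1 ht2

end P002Punct
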