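import Vale.Agent.P002Punct.SpanBd

/-!
The velocities in commutator coordinates: mixing moves reach every variation of the commutators
that keeps their product.
-/

namespace P002Punct

open Matrix Filter Topology P002Surf

open scoped Matrix.Norms.Operator

variable {g s n : ℕ} {R : Subring ℂ} {J : Fin s → Mat n}

theorem hasDerivAt_cm_mix {A B γ : Mat n} (hB : B.det = 1) :
    HasDerivAt (fun t : ℂ => cm (A * zN (1 + t • γ), (zN (1 + t • γ)).adjugate * B * zN (1 + t • γ)))
      (cm (A, B) * (((n : ℂ) • γ - γ.trace • (1 : Mat n)) -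
        B * ((n : ℂ) • γ - γ.trace • (1 : Mat n)) * B.adjugate)) 0 := by
  have hne : ∀ᶠ t in 𝓝 (0 : ℂ), ((1 : Mat n) + t • γ).det ≠ 0 :=
    (continuous_id.matrix_det.comp (continuous_const.add
      (continuous_id.smul continuous_const))).continuousAt.eventually_ne (by simp)
  have hform : (fun t : ℂ => cm (A * zN (1 + t • γ),
      (zN (1 + t • γ)).adjugate * B * zN (1 + t • γ))) =ᶠ[𝓝 0]
      fun t => A * B * A.adjugate * ((zN (1 + t • γ)).adjugate * B.adjugate * zN (1 + t • γ)) := by
    filter_upwards [hne] with t ht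
    have hz := det_zN ht
    have c1 : ∀ X : Mat n, zN (1 + t • γ) * ((zN (1 + t • γ)).adjugate * X) = X := fun X => by
      rw [← Matrix.mul_assoc, mul_adj_one hz, Matrix.one_mul]
    simp only [cm, Matrix.adjugate_mul_distrib, adj_adj_one hz, Matrix.mul_assoc, c1]
  have h := ((((hasDerivAt_adj_zN_line γ).mul_const B.adjugate).fun_mul
    (hasDerivAt_zN_line γ)).const_mul (A * B * A.adjugate))
  generalize (n : ℂ) • γ - γ.trace • (1 : Mat n) = ζ at h ⊢
  refine (h.congr_deriv ?_).congr_of_eventuallyEq hform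
  simp only [zero_smul, add_zero, zN_one, Matrix.adjugate_one, Matrix.one_mul, Matrix.mul_one,
    Matrix.neg_mul, Matrix.mul_add, Matrix.mul_neg]
  have e : cm (A, B) * (B * ζ * B.adjugate) = A * B * A.adjugate * (ζ * B.adjugate) := by
    have hC : cm (A, B) = A * B * A.adjugate * B.adjugate := rfl
    rw [hC]
    simp only [Matrix.mul_assoc]
    rw [← Matrix.mul_assoc B.adjugate B, adj_mul_one hB, Matrix.one_mul]
  rw [Matrix.mul_sub, e]
  simp only [cm, Matrix.mul_assoc]
  abel

/-- The velocity of a mixing move. -/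
theorem vel_mix (a : Fin g) {y : St (g + 1) s n} (hy : PRep J y)
    (hi : Indep (mixKey (y.1 a.castSucc) (y.1 a.succ))) :
    ∃ w ∈ ImV R J y, w.2 = 0 ∧ (∀ k, k ≠ a.castSucc → k ≠ a.succ → w.1 k = 0) ∧
      w.1 a.castSucc = cm (y.1 a.castSucc) *
        (((n : ℂ) • mixKey (y.1 a.castSucc) (y.1 a.succ) -
            (mixKey (y.1 a.castSucc) (y.1 a.succ)).trace • (1 : Mat n)) -
          (y.1 a.castSucc).2 * ((n : ℂ) • mixKey (y.1 a.castSucc) (y.1 a.succ) -
            (mixKey (y.1 a.castSucc) (y.1 a.succ)).trace • (1 : Mat n)) *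
              (y.1 a.castSucc).2.adjugate) ∧
      w.1 a.succ = -((cm (y.1 a.castSucc)).adjugate * w.1 a.castSucc * cm (y.1 a.succ)) := by
  obtain ⟨v, hv, hd⟩ := vel_of_poly (mixMove a R J) hi Polynomial.X
  set γ := mixKey (y.1 a.castSucc) (y.1 a.succ) with hγ
  let z : ℂ → Mat n := fun t => zN (1 + t • γ)
  have hd' : HasDerivAt (fun t : ℂ => mixAct a y (z t)) v 0 := by
    simp only [z]
    convert hd using 4 with t
    simp [mixMove, hγ]
  have h0 : mixAct a y (z 0) = y := by
    simp only [z, zero_smul, add_zero, zN_one]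
    exact (mixMove a R J).act_one y
  set w := fderiv ℂ coords y v with hw
  have hco : HasDerivAt (fun t => coords (mixAct a y (z t))) w 0 :=
    HasFDerivAt.comp_hasDerivAt_of_eq (0 : ℂ)
      ((contDiff_coords.differentiable one_ne_zero) y).hasFDerivAt hd' h0.symm
  have hcf : HasDerivAt (fun t => (coords (mixAct a y (z t))).1) w.1 0 :=
    HasFDerivAt.comp_hasDerivAt (0 : ℂ) (l := Prod.fst)
      (l' := ContinuousLinearMap.fst ℂ (Fin (g + 1) → Mat n) (Fin s → Mat n)) hasFDerivAt_fst hco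
  have hk : ∀ k, HasDerivAt (fun t => cm ((mixAct a y (z t)).1 k)) (w.1 k) 0 :=
    fun k => hasDerivAt_pi.1 hcf k
  have hcs : HasDerivAt (fun t => (coords (mixAct a y (z t))).2) w.2 0 :=
    HasFDerivAt.comp_hasDerivAt (0 : ℂ) (l := Prod.snd)
      (l' := ContinuousLinearMap.snd ℂ (Fin (g + 1) → Mat n) (Fin s → Mat n)) hasFDerivAt_snd hco
  have hne : ∀ᶠ t in 𝓝 (0 : ℂ), ((1 : Mat n) + t • γ).det ≠ 0 :=
    (continuous_id.matrix_det.comp (continuous_const.add
      (continuous_id.smul continuous_const))).continuousAt.eventually_ne (by simp)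
  refine ⟨w, ⟨v, hv, rfl⟩, hcs.unique (hasDerivAt_const (0 : ℂ) y.2), fun k h1 h2 => ?_, ?_, ?_⟩
  · exact (hk k).unique ((hasDerivAt_const (0 : ℂ) (cm (y.1 k))).congr_of_eventuallyEq
      (Eventually.of_forall fun t => by simp only [mixAct_other a y (z t) h1 h2]))
  · refine (hk a.castSucc).unique ?_
    simp only [mixAct_castSucc]
    exact hasDerivAt_cm_mix (hy.1 a.castSucc).2
  · have hp : HasDerivAt (fun t => cm ((mixAct a y (z t)).1 a.castSucc) *
        cm ((mixAct a y (z t)).1 a.succ))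
        (w.1 a.castSucc * cm (y.1 a.succ) + cm (y.1 a.castSucc) * w.1 a.succ) 0 := by
      have := (hk a.castSucc).fun_mul (hk a.succ)
      rwa [h0] at this
    have hev : (fun t => cm ((mixAct a y (z t)).1 a.castSucc) * cm ((mixAct a y (z t)).1 a.succ))
        =ᶠ[𝓝 0] fun _ => cm (y.1 a.castSucc) * cm (y.1 a.succ) := by
      filter_upwards [hne] with t ht
      simp only [mixAct_castSucc, mixAct_succ]
      have hl : Commute γ (1 + t • γ) := by
        simpa using commute_line Polynomial.X t γ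
      exact cm_mix (det_zN ht) (commute_zN hl).eq
    have e := hp.unique ((hasDerivAt_const (0 : ℂ)
      (cm (y.1 a.castSucc) * cm (y.1 a.succ))).congr_of_eventuallyEq hev)
    have hC := det_cm (x := y.1 a.castSucc) (hy.1 _).1 (hy.1 _).2
    calc w.1 a.succ = (cm (y.1 a.castSucc)).adjugate * (cm (y.1 a.castSucc) * w.1 a.succ) := by
          rw [← Matrix.mul_assoc, adj_mul_one hC, Matrix.one_mul]
      _ = _ := by
          rw [eq_neg_of_add_eq_zero_right e, Matrix.mul_neg, Matrix.mul_assoc]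

/-- The trace condition of a mixing move at every point of the orbit of the second handle. -/
theorem mix_commute {x y : St (g + 1) s n} (a : Fin g) (hy : PRep J y)
    (hsub : ImV R J y ⊆ ImV R J x)
    (hG : G0 (y.1 a.castSucc)) (hG' : G0 (y.1 a.castSucc).swap)
    (hIA : Indep (y.1 a.castSucc).1) (hIB : Indep (y.1 a.castSucc).2)
    (hI : Indep (mixKey (y.1 a.castSucc) (y.1 a.succ)))
    (htr : (cm (y.1 a.castSucc)).adjugate.trace ≠ (n : ℂ)) {η : Mat n}
    (hη : ∀ z : St (g + 1) s n, PRep J z → ImV R J z ⊆ ImV R J x → coords z = coords y →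
      Indep (mixKey (z.1 a.castSucc) (z.1 a.succ)) →
      ((z.1 a.castSucc).2.adjugate * ((z.1 a.succ).1 * η - η * (z.1 a.succ).1)).trace = 0) :
    (y.1 a.succ).1 * η = η * (y.1 a.succ).1 := by
  obtain ⟨A, B, hAB⟩ : ∃ A B, y.1 a.castSucc = (A, B) := ⟨_, _, rfl⟩
  set A2 := (y.1 a.succ).1 with hA2
  have hs : a.succ ≠ a.castSucc := (Fin.castSucc_lt_succ).ne'
  simp only [mixKey, hAB, Prod.swap_prod_mk, ← hA2] at hG hG' hIA hIB hI htr
  have hstep : ∀ A B : Mat n, OrbS R J y a.castSucc (A, B) → Indep (B.adjugate * A2) →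
      (B.adjugate * (A2 * η - η * A2)).trace = 0 := by
    intro A B hS hIγ
    obtain ⟨hp, hc, hs'⟩ := hS
    have h1 : ((upd a.castSucc (A, B) y).1 a.castSucc) = (A, B) := by simp [upd]
    have h2 : ((upd a.castSucc (A, B) y).1 a.succ) = y.1 a.succ := by simp [upd, hs]
    have := hη (upd a.castSucc (A, B) y) hp (hs'.trans hsub) hc
      (by simpa [mixKey, h1, h2, ← hA2] using hIγ)
    simpa [h1, h2, ← hA2] using this
  obtain ⟨e, he⟩ := orbit_kernel (hy.1 a.succ).1 (fun A B Z h hi hZ hc => OrbS.twist_fst h hi hZ hc)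
    (fun A B Z h hi hZ hc => OrbS.twist_snd h hi hZ hc) hstep (A := A) (B := B)
    (by simpa [hAB] using (hy.1 a.castSucc).1) (by simpa [hAB] using (hy.1 a.castSucc).2)
    (hAB ▸ orbS_self hy a.castSucc) hIA hIB hI hG hG'
  have e4 := congrArg Matrix.trace he
  rw [Matrix.trace_sub, Matrix.trace_mul_comm, sub_self, Matrix.trace_smul, Matrix.trace_sub,
    Matrix.trace_one, Fintype.card_fin, smul_eq_mul, eq_comm, mul_eq_zero, sub_eq_zero] at e4
  rw [e4.resolve_right (Ne.symm htr), zero_smul, sub_eq_zero] at he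
  exact he

/-- A functional killing all mixing velocities between two generic neighbours is scalar there. -/
theorem mix_scalar (hn : 0 < n) {x : St (g + 1) s n} (hx : Generic J x) (a : Fin g) {η : Mat n}
    (hη : ∀ z : St (g + 1) s n, PRep J z → ImV R J z ⊆ ImV R J x → coords z = coords x →
      Indep (mixKey (z.1 a.castSucc) (z.1 a.succ)) → ∀ w ∈ ImV R J z, w.2 = 0 →
      (∀ k, k ≠ a.castSucc → k ≠ a.succ → w.1 k = 0) →
      w.1 a.succ = -((cm (z.1 a.castSucc)).adjugate * w.1 a.castSucc * cm (z.1 a.succ)) →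
      (η * (w.1 a.castSucc * (cm (z.1 a.castSucc)).adjugate)).trace = 0) :
    ∃ c : ℂ, η = c • (1 : Mat n) := by
  have hn' : (n : ℂ) ≠ 0 := Nat.cast_ne_zero.2 hn.ne'
  obtain ⟨hr, hH, hM, -⟩ := hx
  obtain ⟨hsa, -, hG, hG', hIA, hIB, htr⟩ := hH a.castSucc
  obtain ⟨hsb, -, hGb, -, -, hIB2, -⟩ := hH a.succ
  set C := cm (x.1 a.castSucc) with hC
  have hCd : C.det = 1 := det_cm hsa.1 hsa.2
  set η₁ := C.adjugate * η * C with hη₁
  have hkill : ∀ z : St (g + 1) s n, PRep J z → ImV R J z ⊆ ImV R J x → coords z = coords x →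
      Indep (mixKey (z.1 a.castSucc) (z.1 a.succ)) →
      ((z.1 a.castSucc).2.adjugate * ((z.1 a.succ).1 * η₁ - η₁ * (z.1 a.succ).1)).trace = 0 := by
    intro z hz hsub hco hI
    have hCz : cm (z.1 a.castSucc) = C := congrFun (congrArg Prod.fst hco) a.castSucc
    obtain ⟨w, hw, hw0, hwk, hwa, hwb⟩ := vel_mix a hz hI
    have h := hη z hz hsub hco hI w hw hw0 hwk hwb
    rw [hwa] at h
    obtain ⟨A, B, hAB⟩ : ∃ A B, z.1 a.castSucc = (A, B) := ⟨_, _, rfl⟩
    have hB : B.det = 1 := by simpa [hAB] using (hz.1 a.castSucc).2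
    simp only [hAB, mixKey] at h hCz ⊢
    set γ := B.adjugate * (z.1 a.succ).1 with hγ
    have hp := mix_pairing (A := A) (A₂ := (z.1 a.succ).1) (η := η) hB (γ.trace / n)
    rw [inv_eq_adj hB, hCz, inv_eq_adj hCd, ← hη₁, ← hγ] at hp
    rw [hCz] at h
    have e : ((n : ℂ) • γ - γ.trace • (1 : Mat n)) = (n : ℂ) • (γ - (γ.trace / n) • (1 : Mat n)) := by
      rw [smul_sub, smul_smul, mul_div_cancel₀ _ hn']
    rw [e] at h
    simp only [Matrix.mul_smul, Matrix.smul_mul, ← smul_sub, Matrix.trace_smul, smul_eq_mul,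
      mul_eq_zero, hn', false_or] at h
    rwa [hp] at h
  set A2 := (x.1 a.succ).1 with hA2
  set B2 := (x.1 a.succ).2 with hB2
  have hs : a.castSucc ≠ a.succ := (Fin.castSucc_lt_succ).ne
  have c1 : A2 * η₁ = η₁ * A2 :=
    mix_commute a hr subset_rfl hG hG' hIA hIB (hM a) htr hkill
  obtain ⟨P, μ, hd, -⟩ := id hIB2
  obtain ⟨p, hp, hz⟩ := exists_root hd hsb.2 rfl
  set Q := Polynomial.aeval B2 p
  have hbad := countable_bad (Q := Q)
    (F := fun t => (x.1 a.castSucc).2.adjugate * (A2 * zseg Q t))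
    (fun t ht => contDiffAt_const.mul (contDiffAt_const.mul (contDiffAt_zseg ht)))
    (fun t ht => by simp [Matrix.det_mul, det_adj_one hsa.2, hA2, hsb.1, det_zseg ht])
    (zero_mem_segOk Q) (by simpa [zseg_zero, mixKey, hA2] using hM a)
  have hF : ContinuousAt (fun t => A2 * zseg Q t * η₁ - η₁ * (A2 * zseg Q t)) 1 := by
    have h : ContinuousAt (fun t => A2 * zseg Q t) 1 :=
      continuousAt_const.mul (contDiffAt_zseg (one_mem_segOk hp)).continuousAt
    exact (h.mul continuousAt_const).sub (continuousAt_const.mul h)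
  have c2 := eq_zero_of_cocountable hbad hF (Eventually.of_forall fun t ht => by
    obtain ⟨ht1, ht2⟩ := of_notMem_bad ht
    have hS := (orbS_self (R := R) hr a.succ)
    rw [show x.1 a.succ = (A2, B2) from rfl] at hS
    obtain ⟨hp', hc', hsub'⟩ := hS.twist_fst hIB2 (det_zseg ht1) (commute_aeval_seg B2 p t)
    set y := upd a.succ (A2 * zseg Q t, B2) x with hy
    have h1 : y.1 a.castSucc = x.1 a.castSucc := by simp [hy, upd, hs]
    have h2 : y.1 a.succ = (A2 * zseg Q t, B2) := by simp [hy, upd]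
    have := mix_commute a hp' hsub' (by rwa [h1]) (by rwa [h1]) (by rwa [h1]) (by rwa [h1])
      (by rw [h1, h2]; exact ht2) (by rwa [h1])
      (fun z hz hs' hco hI => hkill z hz hs' (hco.trans hc') hI)
    rw [h2] at this
    exact sub_eq_zero.2 this)
  rw [zseg_one, hz, sub_eq_zero] at c2
  have c3 : η₁ * B2 = B2 * η₁ := by
    have h1 : A2.adjugate * A2 = 1 := adj_mul_one hsb.1
    calc η₁ * B2 = A2.adjugate * (A2 * η₁) * B2 := by
          rw [← Matrix.mul_assoc, h1, Matrix.one_mul]
      _ = A2.adjugate * (η₁ * (A2 * B2)) := by rw [c1]; simp only [Matrix.mul_assoc]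
      _ = A2.adjugate * (A2 * (B2 * η₁)) := by rw [← c2]; simp only [Matrix.mul_assoc]; rfl
      _ = B2 * η₁ := by rw [← Matrix.mul_assoc, h1, Matrix.one_mul]
  obtain ⟨c, hc⟩ := hGb.scalar η₁ c1.symm c3
  refine ⟨c, ?_⟩
  calc η = C * η₁ * C.adjugate := by
        simp only [hη₁, ← Matrix.mul_assoc, mul_adj_one hCd, Matrix.one_mul]
        rw [Matrix.mul_assoc, mul_adj_one hCd, Matrix.mul_one]
    _ = _ := by rw [hc, Matrix.mul_smul, Matrix.mul_one, Matrix.smul_mul, mul_adj_one hCd]

/-- A functional on variations of the factors which is balanced factors through the product. -/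
theorem sum_trace_prod : ∀ (k : ℕ) (C δ a : Fin (k + 1) → Mat n),
    (∀ i, (C i).det = 1) → (∀ i, (δ i * (C i).adjugate).trace = 0) →
    (∀ i : Fin k, ∃ c : ℂ, a i.castSucc - C i.castSucc * a i.succ * (C i.castSucc).adjugate =
      c • (1 : Mat n)) →
    ∃ D : Mat n, HasDerivAt (fun t : ℂ => (List.ofFn fun i => C i + t • δ i).prod) D 0 ∧
      (D * (List.ofFn C).prod.adjugate).trace = 0 ∧
      ∑ i, (a i * (δ i * (C i).adjugate)).trace = (a 0 * (D * (List.ofFn C).prod.adjugate)).trace := by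
  intro k
  induction k with
  | zero =>
    intro C δ a hC hδ ha
    refine ⟨δ 0, ?_, by simpa using hδ 0, by simp⟩
    simp only [List.ofFn_succ, List.ofFn_zero, List.prod_cons, List.prod_nil, Matrix.mul_one]
    exact HasDerivAt.const_add _ (by simpa using (hasDerivAt_id (0 : ℂ)).smul_const (δ 0))
  | succ k ih =>
    intro C δ a hC hδ ha
    obtain ⟨D, hD, hD0, hsum⟩ := ih (fun i => C i.succ) (fun i => δ i.succ) (fun i => a i.succ)
      (fun i => hC _) (fun i => hδ _) (fun i => by simpa using ha i.succ)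
    set P := (List.ofFn fun i => C i.succ).prod with hP
    have hPd : P.det = 1 := by
      refine List.prod_induction (fun A : Mat n => A.det = 1)
        (fun A B ha hb => by rw [det_mul, ha, hb, mul_one]) det_one fun A hA => ?_
      obtain ⟨i, rfl⟩ := List.mem_ofFn.1 hA
      exact hC _
    refine ⟨δ 0 * P + C 0 * D, ?_, ?_, ?_⟩
    · simp only [List.ofFn_succ (n := k + 1), List.prod_cons]
      have h0 : HasDerivAt (fun t : ℂ => C 0 + t • δ 0) (δ 0) 0 :=
        HasDerivAt.const_add _ (by simpa using (hasDerivAt_id (0 : ℂ)).smul_const (δ 0))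
      refine (h0.fun_mul hD).congr_deriv ?_
      simp [hP]
    · have e : (δ 0 * P + C 0 * D) * (C 0 * P).adjugate =
          δ 0 * (C 0).adjugate + C 0 * (D * P.adjugate) * (C 0).adjugate := by
        simp only [Matrix.adjugate_mul_distrib, Matrix.add_mul, Matrix.mul_assoc]
        rw [← Matrix.mul_assoc P P.adjugate, mul_adj_one hPd, Matrix.one_mul]
      rw [List.ofFn_succ (f := C), List.prod_cons, ← hP, e, Matrix.trace_add, hδ 0,
        Matrix.trace_mul_comm, ← Matrix.mul_assoc, adj_mul_one (hC 0), Matrix.one_mul, hD0, add_zero]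
    · obtain ⟨c, hc⟩ := ha 0
      simp only [Fin.castSucc_zero] at hc
      rw [Fin.sum_univ_succ, hsum, List.ofFn_succ (f := C), List.prod_cons, ← hP]
      simp only [Matrix.adjugate_mul_distrib, Matrix.add_mul, Matrix.mul_add, Matrix.trace_add,
        Matrix.mul_assoc]
      rw [← Matrix.mul_assoc P P.adjugate, mul_adj_one hPd, Matrix.one_mul]
      congr 1
      have e : a 0 = c • (1 : Mat n) + C 0 * a 1 * (C 0).adjugate := by rw [← hc]; simp
      rw [e]
      simp only [Matrix.add_mul, Matrix.smul_mul, Matrix.one_mul, Matrix.trace_add, Matrix.trace_smul,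
        smul_eq_mul, Matrix.mul_assoc]
      have t1 : (C 0 * (D * (P.adjugate * (C 0).adjugate))).trace = 0 := by
        rw [← Matrix.mul_assoc D, ← Matrix.mul_assoc (C 0), Matrix.trace_mul_comm, ← Matrix.mul_assoc,
          adj_mul_one (hC 0), Matrix.one_mul]
        exact hD0
      rw [t1, mul_zero, zero_add, ← Matrix.mul_assoc (C 0).adjugate, adj_mul_one (hC 0), Matrix.one_mul]
      simp only [← Matrix.mul_assoc]
      rw [Matrix.trace_mul_comm (C 0 * a 1 * D * P.adjugate) (C 0).adjugate]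
      simp only [← Matrix.mul_assoc, adj_mul_one (hC 0), Matrix.one_mul]
      rfl

/-- Mixing reaches every variation of the commutators that keeps their product. -/
theorem mix_span (hn : 0 < n) {x : St (g + 1) s n} (hx : Generic J x) {δ : Fin (g + 1) → Mat n}
    (hδ : ∀ k, (δ k * (cm (x.1 k)).adjugate).trace = 0)
    (hD : HasDerivAt (fun t : ℂ => (List.ofFn fun k => cm (x.1 k) + t • δ k).prod) 0 0) :
    (δ, 0) ∈ Submodule.span ℂ (ImV R J x) := by
  classical
  set W := (Submodule.span ℂ (ImV R J x)).comap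
    (LinearMap.inl ℂ (Fin (g + 1) → Mat n) (Fin s → Mat n)) with hW
  by_contra hu
  obtain ⟨φ, hφu, hφ⟩ := Submodule.exists_dual_map_eq_bot_of_notMem (x := δ) (p := W) hu inferInstance
  have hkill : ∀ e ∈ W, φ e = 0 := fun e he => by
    have := Submodule.mem_map_of_mem (f := φ) he
    rwa [hφ, Submodule.mem_bot] at this
  apply hφu
  have hCd : ∀ k, (cm (x.1 k)).det = 1 := fun k => det_cm (hx.1.1 k).1 (hx.1.1 k).2
  have hf : ∀ k, ∃ b : Mat n, ∀ X, φ (Pi.single k (X * cm (x.1 k))) = (b * X).trace := fun k =>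
    ⟨_, functional_trace (φ.comp ((LinearMap.single ℂ (fun _ : Fin (g + 1) => Mat n) k).comp
      (LinearMap.mulRight ℂ (cm (x.1 k)))))⟩
  choose b hb using hf
  have hsum : ∀ e : Fin (g + 1) → Mat n,
      φ e = ∑ k, (b k * (e k * (cm (x.1 k)).adjugate)).trace := by
    intro e
    conv_lhs => rw [← Finset.univ_sum_single e]
    rw [map_sum]
    refine Finset.sum_congr rfl fun k _ => ?_
    rw [← hb, Matrix.mul_assoc (e k), adj_mul_one (hCd k), Matrix.mul_one]
  have ha : ∀ i : Fin g, ∃ c : ℂ, b i.castSucc -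
      cm (x.1 i.castSucc) * b i.succ * (cm (x.1 i.castSucc)).adjugate = c • (1 : Mat n) := by
    intro i
    refine mix_scalar (R := R) hn hx i fun z hz hsub hco hI w hw hw0 hwk hwb => ?_
    have hwW : w.1 ∈ W := by
      rw [hW, Submodule.mem_comap, LinearMap.inl_apply,
        show (w.1, (0 : Fin s → Mat n)) = w from Prod.ext rfl hw0.symm]
      exact Submodule.subset_span (hsub hw)
    have h := hkill _ hwW
    have hC1 : cm (z.1 i.castSucc) = cm (x.1 i.castSucc) :=
      congrFun (congrArg Prod.fst hco) i.castSucc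
    have hC2 : cm (z.1 i.succ) = cm (x.1 i.succ) := congrFun (congrArg Prod.fst hco) i.succ
    rw [hC1] at hwb ⊢
    rw [hC2] at hwb
    have hs : i.castSucc ≠ i.succ := (Fin.castSucc_lt_succ).ne
    rw [hsum, Fintype.sum_eq_add i.castSucc i.succ hs (fun k hk => by
      rw [hwk k hk.1 hk.2, Matrix.zero_mul, Matrix.mul_zero, Matrix.trace_zero]), hwb] at h
    set C := cm (x.1 i.castSucc)
    rw [← h, Matrix.sub_mul, Matrix.trace_sub]
    simp only [Matrix.neg_mul, Matrix.mul_neg, Matrix.trace_neg, Matrix.mul_assoc,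
      mul_adj_one (hCd i.succ), Matrix.mul_one, ← sub_eq_add_neg]
    congr 1
    rw [← Matrix.mul_assoc (b i.succ), ← Matrix.mul_assoc (b i.succ * C.adjugate),
      Matrix.trace_mul_comm C]
    simp only [Matrix.mul_assoc]
    rw [show C.adjugate * C = 1 from adj_mul_one (hCd i.castSucc), Matrix.mul_one]
  obtain ⟨D, hD', -, hs'⟩ := sum_trace_prod g (fun k => cm (x.1 k)) δ b hCd hδ ha
  rw [hsum, hs', hD'.unique hD, Matrix.zero_mul, Matrix.mul_zero, Matrix.trace_zero]

end P002Punct
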