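import Vale.Agent.P002Punct.Fam
import Vale.Agent.P002Punct.Lines
import Vale.Agent.P002Surf.Section

/-!
The tangent space of the representation variety and velocities seen in commutator coordinates.
-/

namespace P002Punct

open Matrix Filter Topology P002Surf

open scoped Matrix.Norms.Operator

variable {g s n : ℕ} {R : Subring ℂ} {J : Fin s → Mat n}

/-- Commutators and conjugators. -/
abbrev Co (g s n : ℕ) := (Fin g → Mat n) × (Fin s → Mat n)

/-- The commutator coordinates of a state. -/
def coords (y : St g s n) : Co g s n := (fun k => cm (y.1 k), y.2)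

theorem contDiff_coords : ContDiff ℂ 1 (coords (g := g) (s := s) (n := n)) :=
  (contDiff_pi.2 fun k => contDiff_cm.comp ((contDiff_apply ℂ (Pair n) k).comp contDiff_fst)).prodMk
    contDiff_snd

/-- The equations of the representation variety. -/
def relFun (J : Fin s → Mat n) (y : St g s n) : Mat n × (Fin g → ℂ × ℂ) × (Fin s → ℂ) :=
  (hprod y * (bdList J y).prod, fun i => ((y.1 i).1.det, (y.1 i).2.det), fun j => (y.2 j).det)

theorem prep_iff_relFun {y : St g s n} : PRep J y ↔ relFun J y = (1, 1, 1) := by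
  simp [PRep, relFun, SL1, Prod.ext_iff, funext_iff]
  tauto

theorem contDiff_relFun (J : Fin s → Mat n) :
    ContDiff ℂ 1 (relFun (g := g) (s := s) (n := n) J) := by
  obtain ⟨h1, h2⟩ := polyS_iff.1 (polyS_unev (g := g) (s := s) (n := n))
  have hp : PolyM fun v : Var g s n → ℂ => hprod (unev v) * (bdList J (unev v)).prod := by
    simp only [hprod, bdList, List.ofFn_eq_map]
    exact (polyM_list_prod _ fun i => (((h1 i).1.mul (h1 i).2).mul (h1 i).1.adjugate).mul
      (h1 i).2.adjugate).mul (polyM_list_prod _ fun j => ((h2 j).mul (polyM_const (J j))).mul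
      (h2 j).adjugate)
  exact (hp.contDiff.comp contDiff_sev).prodMk
    ((contDiff_pi.2 fun i => ((h1 i).1.det.contDiff.comp contDiff_sev).prodMk
      ((h1 i).2.det.contDiff.comp contDiff_sev)).prodMk
      (contDiff_pi.2 fun j => (h2 j).det.contDiff.comp contDiff_sev))

/-- Velocities inside the representation variety. -/
abbrev Vel (R : Subring ℂ) (J : Fin s → Mat n) (x v : St g s n) : Prop :=
  IsVel R J {y : St g s n | PRep J y} x v

theorem inv_rep (M : Move g R J) : Inv R J {y : St g s n | PRep J y} M :=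
  fun x z hx hd hc => M.rep x z hx hd hc

variable {x0 : St g s n}

theorem vel_tangent (hr : PRep J x0) (hz : Zd R J x0) {v : St g s n} (hv : Vel R J x0 v) :
    fderiv ℂ (relFun J) x0 v = 0 := by
  obtain ⟨F, hF, hF0, hFd, hFm⟩ := hv
  have hfam := hFm 0 _ (fam_const (X := {y : St g s n | PRep J y}) hr hr hz)
  have ht : Tendsto (fun t : ℂ => fun _ : Fin 1 => t) (𝓝 0) (𝓝 (0 : Fin 1 → ℂ)) :=
    (continuous_pi fun _ => continuous_id).tendsto' _ _ rfl
  have hev : (fun t => relFun J (F (t, x0))) =ᶠ[𝓝 (0 : ℂ)] fun _ => (1, 1, 1) := by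
    filter_upwards [ht.eventually hfam.2] with t h
    exact prep_iff_relFun.1 h.2.2.1
  have h1 : HasDerivAt (fun t => relFun J (F (t, x0))) (fderiv ℂ (relFun J) x0 v) 0 :=
    HasFDerivAt.comp_hasDerivAt_of_eq (0 : ℂ)
      (((contDiff_relFun J).differentiable one_ne_zero) x0).hasFDerivAt hFd hF0.self_of_nhds.symm
  exact h1.unique ((hasDerivAt_const (0 : ℂ) ((1, 1, 1) : Mat n × (Fin g → ℂ × ℂ) × (Fin s → ℂ))
    ).congr_of_eventuallyEq hev)

/-- A velocity in coordinates. -/
theorem D_of_curve {γ : ℂ → St g s n} {v : St g s n} {w : Co g s n} (hγ : HasDerivAt γ v 0)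
    (h0 : γ 0 = x0) (hw : HasDerivAt (fun t => coords (γ t)) w 0) :
    fderiv ℂ coords x0 v = w :=
  (HasFDerivAt.comp_hasDerivAt_of_eq (0 : ℂ)
    ((contDiff_coords.differentiable one_ne_zero) x0).hasFDerivAt hγ h0.symm).unique hw

/-- The torus of an independent key gives velocities inside every invariant set. -/
theorem vel_of_poly_in {X : Set (St g s n)} (M : Move g R J) (hX : Inv R J X M)
    (hi : Indep (M.key x0)) (p : Polynomial ℂ) :
    ∃ v, IsVel R J X x0 v ∧
      HasDerivAt (fun t : ℂ => M.act x0 (zN (1 + t • Polynomial.aeval (M.key x0) p))) v 0 := by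
  let z : ℂ × St g s n → Mat n := fun a => zN (1 + a.1 • Polynomial.aeval (M.key a.2) p)
  have hin : ∀ a : ℂ × St g s n,
      ContDiffAt ℂ 1 (fun a : ℂ × St g s n => 1 + a.1 • Polynomial.aeval (M.key a.2) p) a := fun a =>
    contDiffAt_const.add (contDiff_fst.contDiffAt.smul
      ((contDiff_aeval p).contDiffAt.comp a (M.contDiff_key contDiff_snd.contDiffAt)))
  have hdet : ∀ᶠ a in 𝓝 ((0 : ℂ), x0), (1 + a.1 • Polynomial.aeval (M.key a.2) p).det ≠ 0 :=
    (continuous_id.matrix_det.continuousAt.comp (hin _).continuousAt).eventually_ne (by simp)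
  have hd : DifferentiableAt ℂ (fun t => M.act x0 (z (t, x0))) 0 :=
    (M.contDiff_act contDiffAt_const (((contDiffAt_zN (by simp)).comp ((0 : ℂ), x0) (hin _)).comp
      (0 : ℂ) (contDiffAt_id.prodMk contDiffAt_const))).differentiableAt one_ne_zero
  refine ⟨_, isVel_act M hX hi (z := z) (Eventually.of_forall fun x => by simp [z, zN_one])
    ?_ hd.hasDerivAt, hd.hasDerivAt⟩
  filter_upwards [hdet] with a ha
  exact ⟨ContDiffAt.comp (g := zN) a (contDiffAt_zN ha) (hin a), det_zN ha,
    (commute_zN (commute_line p a.1 _)).eq⟩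

/-- The torus of an independent key gives velocities. -/
theorem vel_of_poly (M : Move g R J) (hi : Indep (M.key x0)) (p : Polynomial ℂ) :
    ∃ v, Vel R J x0 v ∧
      HasDerivAt (fun t : ℂ => M.act x0 (zN (1 + t • Polynomial.aeval (M.key x0) p))) v 0 :=
  vel_of_poly_in M (inv_rep M) hi p

/-- Transport of velocities along a torus preserving the coordinates. -/
theorem vel_transport (M : Move g R J) (hinv : ∀ (y : St g s n) (z : Mat n), z.det = 1 →
      M.key y * z = z * M.key y → coords (M.act y z) = coords y)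
    (hi : Indep (M.key x0)) {Z : Mat n} (hZ : Z.det = 1) (hc : M.key x0 * Z = Z * M.key x0)
    {v : St g s n} (hv : Vel R J (M.act x0 Z) v) :
    ∃ v', Vel R J x0 v' ∧ fderiv ℂ coords x0 v' = fderiv ℂ coords (M.act x0 Z) v := by
  obtain ⟨P, μ, hd, -⟩ := id hi
  obtain ⟨p, hp, rfl⟩ := exists_root hd hZ hc
  let φ : Mat n → Mat n := fun K => zN (Polynomial.aeval K p)
  have hφ : ∀ᶠ K in 𝓝 (M.key x0), ContDiffAt ℂ 1 φ K ∧ (φ K).det = 1 ∧ K * φ K = φ K * K := by
    filter_upwards [((contDiff_aeval p).continuous.matrix_det.continuousAt).eventually_ne hp] with K hK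
    exact ⟨ContDiffAt.comp (g := zN) K (contDiffAt_zN hK) (contDiff_aeval p).contDiffAt, det_zN hK,
      (commute_zN (commute_aeval p K)).eq⟩
  obtain ⟨hW, hinv'⟩ := eventually_fderiv_actBy M hφ
  obtain ⟨h0, hk0⟩ := hinv'.self_of_nhds
  refine ⟨_, isVel_conj M (inv_rep M) hi hφ hv, ?_⟩
  let W' : St g s n → St g s n := actBy M fun K => (φ K).adjugate
  have hφ' : ∀ᶠ K in 𝓝 (M.key x0), ContDiffAt ℂ 1 (fun K => (φ K).adjugate) K ∧
      (φ K).adjugate.det = 1 ∧ K * (φ K).adjugate = (φ K).adjugate * K := by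
    filter_upwards [hφ] with K ⟨h1, h2, h3⟩
    refine ⟨contDiff_adjugate.contDiffAt.comp K h1, det_adj_one h2, ?_⟩
    calc K * (φ K).adjugate = (φ K).adjugate * (φ K * K) * (φ K).adjugate := by
          rw [← Matrix.mul_assoc _ (φ K) K, adj_mul_one h2, Matrix.one_mul]
      _ = _ := by rw [← h3, Matrix.mul_assoc, Matrix.mul_assoc K, mul_adj_one h2, Matrix.mul_one]
  have hy : M.key (M.act x0 (φ (M.key x0))) = M.key x0 := hk0
  have hW' : ContDiffAt ℂ 1 W' (M.act x0 (φ (M.key x0))) :=
    (eventually_fderiv_actBy M (by rw [hy]; exact hφ')).1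
  have ht : Tendsto M.key (𝓝 (M.act x0 (φ (M.key x0)))) (𝓝 (M.key x0)) :=
    (M.contDiff_key (F := fun y => y) contDiffAt_id).continuousAt.tendsto.mono_right (le_of_eq (congrArg 𝓝 hy))
  have hco : (fun y => coords (W' y)) =ᶠ[𝓝 (M.act x0 (φ (M.key x0)))] coords := by
    filter_upwards [ht.eventually hφ'] with y h
    exact hinv y _ h.2.1 h.2.2
  have h1 : HasFDerivAt (fun y => coords (W' y))
      ((fderiv ℂ coords x0).comp (fderiv ℂ W' (M.act x0 (φ (M.key x0))))) (M.act x0 (φ (M.key x0))) := by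
    refine HasFDerivAt.comp (g := coords) _ ?_ (hW'.differentiableAt one_ne_zero).hasFDerivAt
    rw [show W' (M.act x0 (φ (M.key x0))) = x0 from h0]
    exact ((contDiff_coords.differentiable one_ne_zero) x0).hasFDerivAt
  have h2 := (((contDiff_coords.differentiable one_ne_zero)
    (M.act x0 (φ (M.key x0)))).hasFDerivAt.congr_of_eventuallyEq hco).unique h1
  exact (congrArg (fun T => T v) h2).symm

end P002Punct
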